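import Vale.Agent.P195.Disproof.FF

/-!
# P195: the criterion for `Y = T × P` with `P` projective
-/

universe u v

open CategoryTheory CategoryTheory.Abelian

namespace Vale.Agent.P195.Disproof.FF

variable {R : Type u} [Ring R]

theorem ev_prod_left {X X' Y : Type u} [AddCommGroup X] [Module R X] [AddCommGroup X']
    [Module R X'] [AddCommGroup Y] [Module R Y] (i : ℕ) (h : EV R X Y i) (h' : EV R X' Y i) :
    EV R (X × X') Y i :=
  Corner.ev_mid (ι := LinearMap.inl R X X') (π := LinearMap.snd R X X') LinearMap.inl_injective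
    Prod.snd_surjective Function.Exact.inl_snd i h h'

theorem ev_prod_right {X X' Y : Type u} [AddCommGroup X] [Module R X] [AddCommGroup X']
    [Module R X'] [AddCommGroup Y] [Module R Y] (i : ℕ) (h : EV R Y X i) (h' : EV R Y X' i) :
    EV R Y (X × X') i := by
  refine subsingleton_of_forall_eq 0 fun x => ?_
  have hS := ses (R := R) (ι := LinearMap.inl R X X') (π := LinearMap.snd R X X')
    LinearMap.inl_injective Prod.snd_surjective Function.Exact.inl_snd
  obtain ⟨x₁, hx₁⟩ := Ext.covariant_sequence_exact₂ (ModuleCat.of R Y) hS x (h'.elim _ _)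
  have h0 : x₁ = 0 := h.elim _ _
  rw [← hx₁, h0, Ext.zero_comp]

theorem ev_projective {P Y : Type u} [AddCommGroup P] [Module R P] [AddCommGroup Y] [Module R Y]
    [Module.Projective R P] (i : ℕ) : EV R P Y (i + 1) := by
  have : Projective (ModuleCat.of R P) := (IsProjective.iff_projective P).1 inferInstance
  exact subsingleton_of_forall_eq 0 fun x => Ext.eq_zero_of_projective x

theorem ev_zero_of_hom {X Y : Type u} [AddCommGroup X] [Module R X] [AddCommGroup Y] [Module R Y]
    (h : ∀ f : X →ₗ[R] Y, f = 0) : EV R X Y 0 := by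
  refine subsingleton_of_forall_eq 0 fun x => ?_
  obtain ⟨f, rfl⟩ := (Ext.mk₀_bijective _ _).2 x
  have hf : f = 0 := ModuleCat.hom_ext (h f.hom)
  rw [hf, Ext.mk₀_zero]

/-- The criterion for `Y = T × P` with `P` projective. -/
theorem criterion_prod (k : Type v) [Field k] [Algebra k R] [Module.Finite k R] {T P A₂ : Type u}
    [AddCommGroup T] [Module R T] [AddCommGroup P] [Module R P] [AddCommGroup A₂] [Module R A₂]
    [Module k T] [IsScalarTower k R T] [Module.Finite R T] [Module.Finite R P]
    [Module.Projective R P]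
    (hT2 : ∀ (Z : Type u) [AddCommGroup Z] [Module R Z], Module.Finite R Z →
      ∀ i, EV R T Z (i + 2))
    (hTT : EV R T T 1) (hTP : EV R T P 1) (hTA : ∀ i, EV R T A₂ i)
    (hPA : ∀ f : P →ₗ[R] A₂, f = 0)
    (hOrth : ∀ (C : Type u) [AddCommGroup C] [Module R C], Module.Finite R C →
      (∀ h : T →ₗ[R] C, h = 0) → EV R T C 1 → (∀ h : C →ₗ[R] A₂, h = 0) →
        ∀ i, EV R C (T × P) i ∧ EV R C A₂ i)
    {S : Type u} [AddCommGroup S] [Module R S] (f : P →ₗ[R] S) (hf : f ≠ 0)
    (hS : ∀ h : T →ₗ[R] S, h = 0) :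
    ∃ (A : Type u) (_ : Ring A) (_ : Algebra k A) (M : ModuleCat.{u} A),
      Module.Finite k A ∧ Module.Finite A M ∧ ¬ Module.Projective A M ∧
      ∀ i : ℕ, 1 ≤ i → Subsingleton (Ext M M i) ∧ Subsingleton (Ext M (ModuleCat.of A A) i) := by
  have hTY : ∀ i, EV R T (T × P) (i + 1) := by
    rintro (_ | i)
    · exact ev_prod_right 1 hTT hTP
    · exact hT2 _ inferInstance i
  refine criterion (Y := T × P) (A₂ := A₂) k (LinearMap.inl R T P) (LinearMap.fst R T P)
    (LinearMap.ext fun _ => rfl) hT2 (fun i => ev_prod_left _ (hTY i) (ev_projective i))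
    (fun i => ?_) hOrth (f.comp (LinearMap.snd R T P))
    (fun h => hf (LinearMap.ext fun p => LinearMap.congr_fun h (0, p))) hS
  cases i with
  | zero => exact ev_prod_left 0 (hTA 0) (ev_zero_of_hom hPA)
  | succ i => exact ev_prod_left _ (hTA _) (ev_projective i)

end Vale.Agent.P195.Disproof.FF
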