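import Vale.Agent.P195.Disproof.Mods

/-!
# P195: finite dimensionality

The algebras `Bk k`, `Rk k` and all modules of the counterexample are finite dimensional.
-/

noncomputable section

namespace Vale.Agent.P195.Disproof

open TrivSqZeroExt (fst snd)

variable {k : Type} [Field k]

theorem finite_of_injective {M N : Type} [AddCommMonoid M] [Module k M] [AddCommMonoid N]
    [Module k N] [Module.Finite k N] (f : M →ₗ[k] N) (hf : Function.Injective f) :
    Module.Finite k M :=
  letI := Module.addCommMonoidToAddCommGroup k (M := M)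
  letI := Module.addCommMonoidToAddCommGroup k (M := N)
  Module.Finite.of_injective f hf

instance instFiniteMatFil (d : Deg) : Module.Finite k (matFil k d) :=
  finite_of_injective
    (LinearMap.pi fun w => LinearMap.pi fun v =>
      ({ toFun := fun M => ⟨(M : Mat k) w v, M.2 w v⟩
         map_add' := fun _ _ => rfl
         map_smul' := fun _ _ => rfl } : matFil k d →ₗ[k] Fil k (pos w - pos v + d)))
    fun _ _ h => Subtype.ext (Matrix.ext fun w v => congrArg Subtype.val (congrFun (congrFun h w) v))

instance instFiniteBk : Module.Finite k (Bk k) :=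
  finite_of_injective
    ({ toFun := fun M => ⟨(M : Mat k), M.2⟩
       map_add' := fun _ _ => rfl
       map_smul' := fun _ _ => rfl } : Bk k →ₗ[k] matFil k 0)
    fun _ _ h => Subtype.ext (congrArg (fun M : matFil k 0 => (M : Mat k)) h)

instance instFiniteRk : Module.Finite k (Rk k) :=
  finite_of_injective
    ({ toFun := fun x => (⟨fst (x : TrivSqZeroExt (Mat k) (Mat k)), x.2.1⟩,
          ⟨snd (x : TrivSqZeroExt (Mat k) (Mat k)), x.2.2⟩)
       map_add' := fun _ _ => rfl
       map_smul' := fun _ _ => rfl } : Rk k →ₗ[k] matFil k 0 × matFil k tau)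
    fun _ _ h => Subtype.ext (TrivSqZeroExt.ext (congrArg (fun p => (p.1 : Mat k)) h)
      (congrArg (fun p => (p.2 : Mat k)) h))

section GMod

variable {W : Type} [AddCommGroup W] [Module k W] [Module (DOp k) W] [IsScalarTower k (DOp k) W]

/-- Every subquotient is covered by a finite dimensional space of numerators. -/
def GMod.Small (Y : GMod k W) : Prop :=
  ∀ v, ∃ S : Submodule k W, Module.Finite k S ∧ S ≤ Y.comp v ∧
    ∀ z ∈ Y.comp v, ∃ w ∈ S, z - w ∈ Y.base v

omit [IsScalarTower k (DOp k) W] in
theorem GMod.Small.of_finite {Y : GMod k W} (h : ∀ v, Module.Finite k (Y.comp v)) : Y.Small :=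
  fun v => ⟨Y.comp v, h v, le_rfl, fun z hz => ⟨z, hz, by rw [sub_self]; exact zero_mem _⟩⟩

theorem GMod.Small.finite_Res {Y : GMod k W} (h : Y.Small) : Module.Finite k Y.Res := by
  choose S hfin hle hcov using h
  refine Module.Finite.of_surjective
    ({ toFun := fun f => Y.mkRes (fun v => (f v : W)) fun v => hle _ (f v).2
       map_add' := fun _ _ => rfl
       map_smul' := fun _ _ => rfl } : (∀ v : Vtx, S (pos v)) →ₗ[k] Y.Res) fun x => ?_
  obtain ⟨y, hy, rfl⟩ := Y.exists_mkRes x
  choose w hw hb using fun v : Vtx => hcov (pos v) (y v) (hy v)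
  refine ⟨fun v => ⟨w v, hw v⟩, ((Submodule.Quotient.eq _).2 ?_).symm⟩
  exact hb

theorem GMod.Small.finite_EMod {Y : GMod k W} (h : Y.Small) : Module.Finite k Y.EMod := by
  choose S hfin hle hcov using h
  refine Module.Finite.of_surjective
    ({ toFun := fun f => Y.mkE (fun v => (f.1 v : W)) (fun v => (f.2 v : W))
          (fun v => hle _ (f.1 v).2) (fun v => hle _ (f.2 v).2)
       map_add' := fun _ _ => rfl
       map_smul' := fun _ _ => rfl } :
      (∀ v : Vtx, S (pos v)) × (∀ v : Vtx, S (pos v + tau)) →ₗ[k] Y.EMod) fun x => ?_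
  obtain ⟨⟨⟨y, z⟩, hy, hz⟩, rfl⟩ := Submodule.Quotient.mk_surjective _ x
  choose w hw hb using fun v : Vtx => hcov (pos v) (y v) (hy v)
  choose u hu hc using fun v : Vtx => hcov (pos v + tau) (z v) (hz v)
  refine ⟨(fun v => ⟨w v, hw v⟩, fun v => ⟨u v, hu v⟩), ((Submodule.Quotient.eq _).2 ?_).symm⟩
  exact ⟨hb, hc⟩

end GMod

theorem small_P (e : Deg) : (P k e).Small := .of_finite fun v => instFiniteFil (v - e)

theorem small_Tmod : (Tmod k).Small :=
  .of_finite fun v => finite_of_injective
    (LinearMap.pi fun j =>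
      ({ toFun := fun f => ⟨(f : Gen → DOp k) j, f.2 j (Set.mem_univ j)⟩
         map_add' := fun _ _ => rfl
         map_smul' := fun _ _ => rfl } :
        (Tmod k).comp v →ₗ[k] Fil k (v - pos (genVtx j))))
    fun _ _ h => Subtype.ext (funext fun j => congrArg Subtype.val (congrFun h j))

theorem finite_supported {s : Set Xp} (hs : s.Finite) :
    Module.Finite k (Finsupp.supported k k s) := by
  rw [Finsupp.supported_eq_span_single]
  exact Module.Finite.span_of_finite k (hs.image _)

theorem polyIdx_finite (n : ℤ) : (polyIdx n).Finite := by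
  refine (Set.finite_Icc (0 : Xp) (fun _ => n)).subset ?_
  rintro m ⟨hpos, hm⟩
  have h0 := hpos 0
  have h1 := hpos 1
  have h2 := hpos 2
  rw [Fin.sum_univ_three] at hm
  refine ⟨hpos, fun i => ?_⟩
  show m i ≤ n
  fin_cases i <;> dsimp <;> omega

theorem small_polyMod : (polyMod k).Small :=
  .of_finite fun _ => finite_supported (polyIdx_finite _)

/-- The monomials of a degree with all exponents negative. -/
def bottomIdx (n : ℤ) : Set Xp := {m | (∀ i, m i < 0) ∧ ∑ i, m i = n}

theorem bottomIdx_finite (n : ℤ) : (bottomIdx n).Finite := by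
  refine (Set.finite_Icc (fun _ => n : Xp) (fun _ => -1)).subset ?_
  rintro m ⟨hneg, hm⟩
  have h0 := hneg 0
  have h1 := hneg 1
  have h2 := hneg 2
  rw [Fin.sum_univ_three] at hm
  refine ⟨fun i => ?_, fun i => ?_⟩
  · show n ≤ m i
    fin_cases i <;> dsimp <;> omega
  · show m i ≤ -1
    have := hneg i
    omega

/-- A numerator of `Dc c` is a combination of bottom monomials modulo the denominators. -/
theorem Dc_exists_bottom {c : ℤ} {v : Deg} {z : LP k} (hz : z ∈ (Dc k c).comp v) :
    ∃ w ∈ Finsupp.supported k k (bottomIdx (v.1 + c)), z - w ∈ (Dc k c).base v := by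
  classical
  have hz' : z ∈ Finsupp.supported k k (degIdx (v.1 + c)) := hz
  refine ⟨z.filter fun m => ∀ i, m i < 0, ?_, ?_⟩
  · rw [Finsupp.mem_supported, Finsupp.support_filter, Finset.coe_filter]
    exact fun m hm => ⟨hm.2, (Finsupp.mem_supported k z).1 hz' hm.1⟩
  · rw [show z - z.filter (fun m => ∀ i, m i < 0) = z.filter (fun m => ¬ ∀ i, m i < 0) from
      sub_eq_iff_eq_add.2 (by rw [add_comm]; exact (Finsupp.filter_add_filter_not z _).symm)]
    show _ ∈ Finsupp.supported k k (negIdx (v.1 + c))
    rw [Finsupp.mem_supported, Finsupp.support_filter, Finset.coe_filter]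
    intro m hm
    obtain ⟨i, hi⟩ := not_forall.1 hm.2
    exact ⟨⟨i, not_lt.1 hi⟩, (Finsupp.mem_supported k z).1 hz' hm.1⟩

theorem small_Dc (c : ℤ) : (Dc k c).Small := fun _ =>
  ⟨_, finite_supported (bottomIdx_finite _), Finsupp.supported_mono fun _ hm => hm.2,
    fun _ hz => Dc_exists_bottom hz⟩

instance instFiniteKPRes (e : Deg) : Module.Finite k (P k e).Res := (small_P e).finite_Res

instance instFiniteKPEMod (e : Deg) : Module.Finite k (P k e).EMod := (small_P e).finite_EMod

instance instFiniteKTmodRes : Module.Finite k (Tmod k).Res := small_Tmod.finite_Res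

instance instFiniteKTe : Module.Finite k (Te k) := small_Tmod.finite_EMod

instance instFiniteKP20 : Module.Finite k (P20 k) := (small_P _).finite_EMod

instance instFiniteKTt : Module.Finite k (Tt k) := Module.Finite.prod

instance instFiniteKPolyRes : Module.Finite k (polyMod k).Res := small_polyMod.finite_Res

instance instFiniteKDcRes (c : ℤ) : Module.Finite k (Dc k c).Res := (small_Dc c).finite_Res

instance instFiniteKDcEMod (c : ℤ) : Module.Finite k (Dc k c).EMod := (small_Dc c).finite_EMod

instance instFiniteTe : Module.Finite (Rk k) (Te k) :=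
  Module.Finite.of_restrictScalars_finite k (Rk k) (Te k)

instance instFiniteP20 : Module.Finite (Rk k) (P20 k) :=
  Module.Finite.of_restrictScalars_finite k (Rk k) (P20 k)

instance instFiniteTt : Module.Finite (Rk k) (Tt k) :=
  Module.Finite.of_restrictScalars_finite k (Rk k) (Tt k)

theorem Via.finite {A B' : Type} [Semiring A] [Semiring B'] {f : A →+* B'}
    (hf : Function.Surjective f) (N : Type) [AddCommGroup N] [Module B' N] [Module.Finite B' N] :
    Module.Finite A (Via f N) := by
  obtain ⟨s, hs⟩ := Module.finite_def.1 (inferInstance : Module.Finite B' N)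
  refine Module.finite_def.2 ⟨s.map (Via.equiv f N).symm.toEmbedding, eq_top_iff.2 fun x _ => ?_⟩
  rw [← (Via.equiv f N).symm_apply_apply x]
  have hx : Via.equiv f N x ∈ Submodule.span B' (s : Set N) := hs ▸ Submodule.mem_top
  generalize Via.equiv f N x = y at hx ⊢
  induction hx using Submodule.span_induction with
  | mem z hz => exact Submodule.subset_span (Finset.mem_coe.2 (Finset.mem_map.2 ⟨z, hz, rfl⟩))
  | zero => rw [map_zero]; exact zero_mem _
  | add a b _ _ ha hb => rw [map_add]; exact add_mem ha hb
  | smul c a _ ha =>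
    obtain ⟨a', rfl⟩ := hf c
    exact Submodule.smul_mem _ a' ha

theorem fstHom_surjective : Function.Surjective (fstHom (k := k)) :=
  fun b => ⟨inlHom b, Subtype.ext rfl⟩

instance instFinitePolyRes : Module.Finite (Bk k) (polyMod k).Res :=
  Module.Finite.of_restrictScalars_finite k (Bk k) _

instance instFiniteDcRes (c : ℤ) : Module.Finite (Bk k) (Dc k c).Res :=
  Module.Finite.of_restrictScalars_finite k (Bk k) _

instance instFinitePRes (e : Deg) : Module.Finite (Bk k) (P k e).Res :=
  Module.Finite.of_restrictScalars_finite k (Bk k) _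

instance instFiniteDcEMod (c : ℤ) : Module.Finite (Rk k) (Dc k c).EMod :=
  Module.Finite.of_restrictScalars_finite k (Rk k) _

instance instFiniteSS : Module.Finite (Rk k) (SS k) := Via.finite fstHom_surjective _

instance instFiniteAA : Module.Finite (Rk k) (AA k) := Via.finite fstHom_surjective _

end Vale.Agent.P195.Disproof
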