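import Vale.Agent.P195.Disproof.EExact
import Vale.Agent.P195.Disproof.Finite
import Vale.Agent.P195.Disproof.FFProd

/-!
# P195: assembly
-/

noncomputable section

open CategoryTheory CategoryTheory.Abelian

namespace Vale.Agent.P195.Disproof

variable {k : Type} [Field k]

theorem counterexample_of
    (hT2 : ∀ (Z : Type) [AddCommGroup Z] [Module (Rk k) Z], Module.Finite (Rk k) Z →
      ∀ i, EV (Rk k) (Te k) Z (i + 2))
    (hTT : EV (Rk k) (Te k) (Te k) 1) (hTP : EV (Rk k) (Te k) (P20 k) 1)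
    (hTA : ∀ i, EV (Rk k) (Te k) (AA k) i) (hPA : ∀ f : P20 k →ₗ[Rk k] AA k, f = 0)
    (hproj : Module.Projective (Rk k) (P20 k))
    (hOrth : ∀ (C : Type) [AddCommGroup C] [Module (Rk k) C], Module.Finite (Rk k) C →
      (∀ h : Te k →ₗ[Rk k] C, h = 0) → EV (Rk k) (Te k) C 1 →
      (∀ h : C →ₗ[Rk k] AA k, h = 0) → ∃ n : ℕ, Nonempty (C ≃ₗ[Rk k] (Fin n → SS k)))
    (hST : ∀ i, EV (Rk k) (SS k) (Te k) i) (hSP : ∀ i, EV (Rk k) (SS k) (P20 k) i)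
    (hSA : ∀ i, EV (Rk k) (SS k) (AA k) i)
    (f : P20 k →ₗ[Rk k] SS k) (hf : f ≠ 0) (hS : ∀ h : Te k →ₗ[Rk k] SS k, h = 0) :
    ∃ (A : Type) (_ : Ring A) (_ : Algebra k A) (M : ModuleCat.{0} A),
      Module.Finite k A ∧ Module.Finite A M ∧ ¬ Module.Projective A M ∧
      ∀ i : ℕ, 1 ≤ i → Subsingleton (Ext M M i) ∧ Subsingleton (Ext M (ModuleCat.of A A) i) := by
  refine FF.criterion_prod (T := Te k) (P := P20 k) (A₂ := AA k) k hT2 hTT hTP hTA hPA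
    (fun C _ _ hC h0 h1 hA i => ?_) f hf hS
  obtain ⟨n, ⟨e⟩⟩ := hOrth C hC h0 h1 hA
  exact ⟨Corner.ev_congr e i (FF.ev_pi_left n i (FF.ev_prod_right i (hST i) (hSP i))),
    Corner.ev_congr e i (FF.ev_pi_left n i (hSA i))⟩

end Vale.Agent.P195.Disproof
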