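import Vale.Agent.P195.Disproof.Weyl
import Vale.Agent.P195.Homol

/-!
# P195: the algebras and modules of the counterexample

`Bk k` is a finite-dimensional algebra of matrices of differential operators indexed by twelve
vertices, `Rk k` its trivial extension by the matrices of shifted degrees.  A `GMod` is a family of
subquotients of a module over the operators; `Res Y` is the associated `Bk k`-module and `EMod Y`
the associated `Rk k`-module.
-/

noncomputable section

namespace Vale.Agent.P195.Disproof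

open TrivSqZeroExt (fst snd inl)

/-- The vertices. -/
abbrev Vtx := Fin 3 × Fin 4

/-- The degree of a vertex. -/
def pos (v : Vtx) : Deg := (((v.1 : ℕ) : ℤ), ((v.2 : ℕ) : ℤ))

/-- The degree of the twist. -/
def tau : Deg := (1, 3)

variable (k : Type) [Field k]

/-- Matrices of operators on the vertices. -/
abbrev Mat := Matrix Vtx Vtx (DOp k)

/-- Matrices with entries of bounded degree. -/
def matFil (d : Deg) : Submodule k (Mat k) where
  carrier := {M | ∀ w v, M w v ∈ Fil k (pos w - pos v + d)}
  add_mem' hM hN w v := add_mem (hM w v) (hN w v)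
  zero_mem' _ _ := zero_mem _
  smul_mem' c _ hM w v := Submodule.smul_mem _ c (hM w v)

variable {k}

theorem mem_matFil {d : Deg} {M : Mat k} :
    M ∈ matFil k d ↔ ∀ w v, M w v ∈ Fil k (pos w - pos v + d) := Iff.rfl

theorem mul_mem_matFil {d e : Deg} {M N : Mat k} (hM : M ∈ matFil k d) (hN : N ∈ matFil k e) :
    M * N ∈ matFil k (d + e) := fun w v => by
  rw [Matrix.mul_apply]
  refine Submodule.sum_mem _ fun u _ => ?_
  have h := mul_mem_Fil (hM w u) (hN u v)
  rwa [show pos w - pos u + d + (pos u - pos v + e) = pos w - pos v + (d + e) by abel] at h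

theorem one_mem_matFil : (1 : Mat k) ∈ matFil k 0 := fun w v => by
  rw [Matrix.one_apply]
  split_ifs with h
  · subst h
    exact one_mem_Fil (by simp) (by simp)
  · exact zero_mem _

variable (k)

/-- The algebra of matrices with entries in the allowed degrees. -/
def Bk : Subalgebra k (Mat k) :=
  (matFil k 0).toSubalgebra one_mem_matFil fun M N hM hN => by
    simpa using mul_mem_matFil hM hN

/-- The trivial extension by the matrices of shifted degrees. -/
def Rk : Subalgebra k (TrivSqZeroExt (Mat k) (Mat k)) where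
  carrier := {x | fst x ∈ matFil k 0 ∧ snd x ∈ matFil k tau}
  mul_mem' {x y} hx hy := by
    refine ⟨?_, ?_⟩
    · rw [TrivSqZeroExt.fst_mul]
      simpa using mul_mem_matFil hx.1 hy.1
    · rw [TrivSqZeroExt.snd_mul, smul_eq_mul, MulOpposite.smul_eq_mul_unop, MulOpposite.unop_op]
      exact add_mem (by simpa using mul_mem_matFil hx.1 hy.2)
        (by simpa using mul_mem_matFil hx.2 hy.1)
  one_mem' := ⟨one_mem_matFil, by rw [TrivSqZeroExt.snd_one]; exact zero_mem _⟩
  add_mem' hx hy := ⟨add_mem hx.1 hy.1, add_mem hx.2 hy.2⟩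
  zero_mem' := ⟨zero_mem _, zero_mem _⟩
  algebraMap_mem' c := by
    refine ⟨?_, ?_⟩
    · rw [TrivSqZeroExt.algebraMap_eq_inl', TrivSqZeroExt.fst_inl, Algebra.algebraMap_eq_smul_one]
      exact Submodule.smul_mem _ c one_mem_matFil
    · rw [TrivSqZeroExt.algebraMap_eq_inl', TrivSqZeroExt.snd_inl]
      exact zero_mem _

instance : Ring (Bk k) := @Subalgebra.toRing k (Mat k) _ _ _ (Bk k)

instance : Ring (Rk k) := @Subalgebra.toRing k (TrivSqZeroExt (Mat k) (Mat k)) _ _ _ (Rk k)

variable {k}

theorem mem_Bk {M : Mat k} : M ∈ Bk k ↔ ∀ w v, M w v ∈ Fil k (pos w - pos v) := by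
  simp [Bk, Submodule.mem_toSubalgebra, mem_matFil]

theorem mem_Rk {x : TrivSqZeroExt (Mat k) (Mat k)} :
    x ∈ Rk k ↔ fst x ∈ matFil k 0 ∧ snd x ∈ matFil k tau := Iff.rfl

/-- The projection of the trivial extension. -/
def fstHom : Rk k →+* Bk k where
  toFun x := ⟨fst (x : TrivSqZeroExt (Mat k) (Mat k)), x.2.1⟩
  map_one' := rfl
  map_mul' _ _ := rfl
  map_zero' := rfl
  map_add' _ _ := rfl

/-- The section of the projection. -/
def inlHom : Bk k →+* Rk k where
  toFun b := ⟨inl (b : Mat k), b.2, zero_mem _⟩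
  map_one' := Subtype.ext (TrivSqZeroExt.inl_one _)
  map_mul' a b := Subtype.ext (TrivSqZeroExt.inl_mul _ _ _)
  map_zero' := Subtype.ext (TrivSqZeroExt.inl_zero _)
  map_add' a b := Subtype.ext (TrivSqZeroExt.inl_add _ _ _)

/-- A module seen through a ring homomorphism. -/
def Via {A B' : Type} [Semiring A] [Semiring B'] (_f : A →+* B') (N : Type) : Type := N

section Via

variable {A B' : Type} [Semiring A] [Semiring B'] (f : A →+* B') (N : Type) [AddCommGroup N] [Module B' N]

instance : AddCommGroup (Via f N) := inferInstanceAs (AddCommGroup N)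

instance : Module A (Via f N) :=
  letI : Module A N := Module.compHom N f
  inferInstanceAs (Module A N)

/-- The identity, as an additive equivalence. -/
def Via.equiv : Via f N ≃+ N := AddEquiv.refl _

theorem Via.smul_def (a : A) (x : Via f N) : Via.equiv f N (a • x) = f a • Via.equiv f N x := rfl

end Via

/-- An `Rk k`-module killed by the shifted degrees. -/
abbrev Infl (k : Type) [Field k] (N : Type) : Type := Via (fstHom (k := k)) N

/-- The `Bk k`-module underlying an `Rk k`-module. -/
abbrev Rs (k : Type) [Field k] (N : Type) : Type := Via (inlHom (k := k)) N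

section GMod

variable (k)
variable (W : Type) [AddCommGroup W] [Module k W] [Module (DOp k) W]

/-- A family of subquotients stable under the operators of bounded degree. -/
structure GMod where
  /-- The numerators. -/
  comp : Deg → Submodule k W
  /-- The denominators. -/
  base : Deg → Submodule k W
  le : ∀ v, base v ≤ comp v
  smul_comp : ∀ {d v : Deg} {P : DOp k} {w : W}, P ∈ Fil k d → w ∈ comp v → P • w ∈ comp (v + d)
  smul_base : ∀ {d v : Deg} {P : DOp k} {w : W}, P ∈ Fil k d → w ∈ base v → P • w ∈ base (v + d)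

/-- Columns indexed by the vertices. -/
def Vec : Type := Vtx → W

instance : AddCommGroup (Vec W) := inferInstanceAs (AddCommGroup (Vtx → W))

instance : Module k (Vec W) := inferInstanceAs (Module k (Vtx → W))

/-- Pairs of columns. -/
def Pair : Type := Vec W × Vec W

instance : AddCommGroup (Pair W) := inferInstanceAs (AddCommGroup (Vec W × Vec W))

instance : Module k (Pair W) := inferInstanceAs (Module k (Vec W × Vec W))

variable {k W}

instance : SMul (Mat k) (Vec W) := ⟨fun M y w => ∑ v, M w v • y v⟩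

theorem vec_smul_apply (M : Mat k) (y : Vec W) (w : Vtx) : (M • y) w = ∑ v, M w v • y v := rfl

theorem vec_add_apply (y z : Vec W) (w : Vtx) : (y + z) w = y w + z w := rfl

theorem vec_zero_apply (w : Vtx) : (0 : Vec W) w = 0 := rfl

theorem vec_sub_apply (y z : Vec W) (w : Vtx) : (y - z) w = y w - z w := rfl

theorem vec_ksmul_apply (c : k) (y : Vec W) (w : Vtx) : (c • y) w = c • y w := rfl

@[ext] theorem vec_ext {y z : Vec W} (h : ∀ w, y w = z w) : y = z := funext h

instance : Module (Mat k) (Vec W) where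
  one_smul y := vec_ext fun w => by
    rw [vec_smul_apply, Finset.sum_eq_single w]
    · rw [Matrix.one_apply_eq, one_smul]
    · intro v _ hv
      rw [Matrix.one_apply_ne hv.symm, zero_smul]
    · simp
  mul_smul M N y := vec_ext fun w => by
    simp only [vec_smul_apply, Matrix.mul_apply, Finset.sum_smul, Finset.smul_sum, mul_smul]
    exact Finset.sum_comm
  smul_zero M := vec_ext fun w => by simp [vec_smul_apply, vec_zero_apply]
  smul_add M y z := vec_ext fun w => by
    simp [vec_smul_apply, vec_add_apply, Finset.sum_add_distrib]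
  add_smul M N y := vec_ext fun w => by
    simp [vec_smul_apply, vec_add_apply, add_smul, Finset.sum_add_distrib]
  zero_smul y := vec_ext fun w => by simp [vec_smul_apply, vec_zero_apply]

instance [IsScalarTower k (DOp k) W] : IsScalarTower k (Mat k) (Vec W) :=
  ⟨fun c M y => vec_ext fun w => by
    simp [vec_smul_apply, vec_ksmul_apply, Finset.smul_sum, Matrix.smul_apply, smul_assoc]⟩

instance : SMul (TrivSqZeroExt (Mat k) (Mat k)) (Pair W) :=
  ⟨fun x p => (fst x • p.1, fst x • p.2 + snd x • p.1)⟩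

theorem pair_smul_fst (x : TrivSqZeroExt (Mat k) (Mat k)) (p : Pair W) :
    (x • p).1 = fst x • p.1 := rfl

theorem pair_smul_snd (x : TrivSqZeroExt (Mat k) (Mat k)) (p : Pair W) :
    (x • p).2 = fst x • p.2 + snd x • p.1 := rfl

@[ext] theorem pair_ext {p q : Pair W} (h1 : p.1 = q.1) (h2 : p.2 = q.2) : p = q := Prod.ext h1 h2

theorem pair_add_fst (p q : Pair W) : (p + q).1 = p.1 + q.1 := rfl

theorem pair_add_snd (p q : Pair W) : (p + q).2 = p.2 + q.2 := rfl

theorem pair_zero_fst : (0 : Pair W).1 = 0 := rfl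

theorem pair_zero_snd : (0 : Pair W).2 = 0 := rfl

instance : Module (TrivSqZeroExt (Mat k) (Mat k)) (Pair W) where
  one_smul p := pair_ext (by rw [pair_smul_fst, TrivSqZeroExt.fst_one, one_smul])
    (by rw [pair_smul_snd, TrivSqZeroExt.fst_one, TrivSqZeroExt.snd_one, one_smul, zero_smul,
      add_zero])
  mul_smul x y p := pair_ext
    (by rw [pair_smul_fst, pair_smul_fst, pair_smul_fst, TrivSqZeroExt.fst_mul, mul_smul])
    (by
      rw [pair_smul_snd, pair_smul_snd, pair_smul_snd, pair_smul_fst, TrivSqZeroExt.fst_mul,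
        TrivSqZeroExt.snd_mul, smul_eq_mul, MulOpposite.smul_eq_mul_unop, MulOpposite.unop_op,
        add_smul, mul_smul, mul_smul, mul_smul, smul_add]
      abel)
  smul_zero x := pair_ext (by rw [pair_smul_fst, pair_zero_fst, smul_zero])
    (by rw [pair_smul_snd, pair_zero_fst, pair_zero_snd, smul_zero, smul_zero, add_zero])
  smul_add x p q := pair_ext (by simp only [pair_smul_fst, pair_add_fst, smul_add])
    (by simp only [pair_smul_snd, pair_add_fst, pair_add_snd, smul_add]; abel)
  add_smul x y p := pair_ext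
    (by simp only [pair_smul_fst, pair_add_fst, TrivSqZeroExt.fst_add, add_smul])
    (by
      simp only [pair_smul_snd, pair_add_snd, TrivSqZeroExt.fst_add, TrivSqZeroExt.snd_add,
        add_smul]
      abel)
  zero_smul p := pair_ext (by rw [pair_smul_fst, TrivSqZeroExt.fst_zero, zero_smul, pair_zero_fst])
    (by rw [pair_smul_snd, TrivSqZeroExt.fst_zero, TrivSqZeroExt.snd_zero, zero_smul, zero_smul,
      add_zero, pair_zero_snd])

instance instModuleBkVec : Module (Bk k) (Vec W) := inferInstance

instance instSMulBkVec : SMul (Bk k) (Vec W) := instModuleBkVec.toSMul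

instance instModuleRkPair : Module (Rk k) (Pair W) := inferInstance

instance instSMulRkPair : SMul (Rk k) (Pair W) := instModuleRkPair.toSMul

theorem Bk_smul_apply (b : Bk k) (y : Vec W) (w : Vtx) :
    (b • y) w = ∑ v, (b : Mat k) w v • y v := rfl

theorem Rk_smul_fst (x : Rk k) (p : Pair W) :
    (x • p).1 = fst (x : TrivSqZeroExt (Mat k) (Mat k)) • p.1 := rfl

theorem Rk_smul_snd (x : Rk k) (p : Pair W) :
    (x • p).2 = fst (x : TrivSqZeroExt (Mat k) (Mat k)) • p.2 +
      snd (x : TrivSqZeroExt (Mat k) (Mat k)) • p.1 := rfl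

namespace GMod

variable (Y : GMod k W)

/-- The shifted family. -/
def shift (δ : Deg) : GMod k W where
  comp v := Y.comp (v + δ)
  base v := Y.base (v + δ)
  le v := Y.le _
  smul_comp {d v} P w hP hw := by
    rw [add_right_comm]
    exact Y.smul_comp hP hw
  smul_base {d v} P w hP hw := by
    rw [add_right_comm]
    exact Y.smul_base hP hw

theorem smul_comp_of_eq {d v u : Deg} {P : DOp k} {w : W} (hP : P ∈ Fil k d) (hw : w ∈ Y.comp v)
    (h : v + d = u) : P • w ∈ Y.comp u :=
  h ▸ Y.smul_comp hP hw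

theorem smul_base_of_eq {d v u : Deg} {P : DOp k} {w : W} (hP : P ∈ Fil k d) (hw : w ∈ Y.base v)
    (h : v + d = u) : P • w ∈ Y.base u :=
  h ▸ Y.smul_base hP hw

theorem mat_smul_comp {δ e : Deg} {M : Mat k} (hM : M ∈ matFil k δ) {y : Vec W}
    (hy : ∀ v, y v ∈ Y.comp (pos v + e)) (w : Vtx) : (M • y) w ∈ Y.comp (pos w + (δ + e)) := by
  rw [vec_smul_apply]
  exact Submodule.sum_mem _ fun v _ => Y.smul_comp_of_eq (hM w v) (hy v) (by abel)

theorem mat_smul_base {δ e : Deg} {M : Mat k} (hM : M ∈ matFil k δ) {y : Vec W}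
    (hy : ∀ v, y v ∈ Y.base (pos v + e)) (w : Vtx) : (M • y) w ∈ Y.base (pos w + (δ + e)) := by
  rw [vec_smul_apply]
  exact Submodule.sum_mem _ fun v _ => Y.smul_base_of_eq (hM w v) (hy v) (by abel)

/-- The columns in the numerators. -/
def cm : Submodule (Bk k) (Vec W) where
  carrier := {y | ∀ v, y v ∈ Y.comp (pos v)}
  add_mem' hy hz v := add_mem (hy v) (hz v)
  zero_mem' v := zero_mem _
  smul_mem' b y hy w := by
    have h := Y.mat_smul_comp (δ := 0) (e := 0) b.2 (y := y) (by simpa using hy) w
    rw [add_zero, add_zero] at h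
    exact h

/-- The columns in the denominators. -/
def bs : Submodule (Bk k) Y.cm where
  carrier := {y | ∀ v, (y : Vec W) v ∈ Y.base (pos v)}
  add_mem' hy hz v := add_mem (hy v) (hz v)
  zero_mem' v := zero_mem _
  smul_mem' b y hy w := by
    have h := Y.mat_smul_base (δ := 0) (e := 0) b.2 (y := (y : Vec W)) (by simpa using hy) w
    rw [add_zero, add_zero] at h
    exact h

instance instAddCommGroupCm : AddCommGroup Y.cm := Submodule.addCommGroup _

instance instModuleCm : Module (Bk k) Y.cm := Submodule.module _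

instance instSMulCm : SMul (Bk k) Y.cm := Y.cm.smul

/-- The module of the subquotients at the vertices. -/
abbrev Res : Type := Y.cm ⧸ Y.bs

/-- The pairs of columns in the numerators. -/
def ecm : Submodule (Rk k) (Pair W) where
  carrier := {p | (∀ v, p.1 v ∈ Y.comp (pos v)) ∧ ∀ v, p.2 v ∈ Y.comp (pos v + tau)}
  add_mem' hp hq := ⟨fun v => add_mem (hp.1 v) (hq.1 v), fun v => add_mem (hp.2 v) (hq.2 v)⟩
  zero_mem' := ⟨fun v => zero_mem _, fun v => zero_mem _⟩
  smul_mem' x p hp := by
    refine ⟨fun w => ?_, fun w => ?_⟩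
    · simpa [Rk_smul_fst] using
        Y.mat_smul_comp (δ := 0) (e := 0) x.2.1 (y := p.1) (by simpa using hp.1) w
    · rw [Rk_smul_snd, vec_add_apply]
      refine add_mem ?_ ?_
      · simpa using Y.mat_smul_comp (δ := 0) (e := tau) x.2.1 (y := p.2) hp.2 w
      · simpa using Y.mat_smul_comp (δ := tau) (e := 0) x.2.2 (y := p.1) (by simpa using hp.1) w

/-- The pairs of columns in the denominators. -/
def ebs : Submodule (Rk k) Y.ecm where
  carrier := {p | (∀ v, (p : Pair W).1 v ∈ Y.base (pos v)) ∧
    ∀ v, (p : Pair W).2 v ∈ Y.base (pos v + tau)}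
  add_mem' hp hq := ⟨fun v => add_mem (hp.1 v) (hq.1 v), fun v => add_mem (hp.2 v) (hq.2 v)⟩
  zero_mem' := ⟨fun v => zero_mem _, fun v => zero_mem _⟩
  smul_mem' x p hp := by
    refine ⟨fun w => ?_, fun w => ?_⟩
    · simpa [Rk_smul_fst] using Y.mat_smul_base (δ := 0) (e := 0) x.2.1 (y := (p : Pair W).1)
        (by simpa using hp.1) w
    · change (x • (p : Pair W)).2 w ∈ _
      rw [Rk_smul_snd, vec_add_apply]
      refine add_mem ?_ ?_
      · simpa using Y.mat_smul_base (δ := 0) (e := tau) x.2.1 (y := (p : Pair W).2) hp.2 w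
      · simpa using Y.mat_smul_base (δ := tau) (e := 0) x.2.2 (y := (p : Pair W).1)
          (by simpa using hp.1) w

instance instAddCommGroupEcm : AddCommGroup Y.ecm := Submodule.addCommGroup _

instance instModuleEcm : Module (Rk k) Y.ecm := Submodule.module _

instance instSMulEcm : SMul (Rk k) Y.ecm := Y.ecm.smul

/-- The extended module on the subquotients and their shifts. -/
abbrev EMod : Type := Y.ecm ⧸ Y.ebs

instance instAddCommGroupRes : AddCommGroup Y.Res := Submodule.Quotient.addCommGroup _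

instance instAddCommGroupEMod : AddCommGroup Y.EMod := Submodule.Quotient.addCommGroup _

instance instModuleRes : Module (Bk k) Y.Res := Submodule.Quotient.module _

instance instModuleEMod : Module (Rk k) Y.EMod := Submodule.Quotient.module _

instance instSMulRes : SMul (Bk k) Y.Res := (instModuleRes Y).toSMul

instance instSMulEMod : SMul (Rk k) Y.EMod := (instModuleEMod Y).toSMul

/-- A column in the numerators, in the module. -/
def mkRes (y : Vec W) (hy : ∀ v, y v ∈ Y.comp (pos v)) : Y.Res := Submodule.Quotient.mk ⟨y, hy⟩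

/-- A pair of columns in the numerators, in the extended module. -/
def mkE (y z : Vec W) (hy : ∀ v, y v ∈ Y.comp (pos v)) (hz : ∀ v, z v ∈ Y.comp (pos v + tau)) :
    Y.EMod := Submodule.Quotient.mk ⟨((y, z) : Pair W), hy, hz⟩

theorem mkRes_eq_zero {y : Vec W} {hy : ∀ v, y v ∈ Y.comp (pos v)} :
    Y.mkRes y hy = 0 ↔ ∀ v, y v ∈ Y.base (pos v) := Submodule.Quotient.mk_eq_zero _

theorem mkE_eq_zero {y z : Vec W} {hy : ∀ v, y v ∈ Y.comp (pos v)}
    {hz : ∀ v, z v ∈ Y.comp (pos v + tau)} : Y.mkE y z hy hz = 0 ↔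
      (∀ v, y v ∈ Y.base (pos v)) ∧ ∀ v, z v ∈ Y.base (pos v + tau) :=
  Submodule.Quotient.mk_eq_zero _

theorem exists_mkRes (x : Y.Res) : ∃ y hy, Y.mkRes y hy = x := by
  obtain ⟨⟨y, hy⟩, rfl⟩ := Submodule.Quotient.mk_surjective _ x
  exact ⟨y, hy, rfl⟩

theorem exists_mkE (x : Y.EMod) : ∃ y z hy hz, Y.mkE y z hy hz = x := by
  obtain ⟨⟨⟨y, z⟩, hy, hz⟩, rfl⟩ := Submodule.Quotient.mk_surjective _ x
  exact ⟨y, z, hy, hz, rfl⟩

/-- A pair with the second column only. -/
def inlVec (z : Vec W) : Pair W := ((0 : Vec W), z)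

theorem inlVec_fst (z : Vec W) : (inlVec z).1 = 0 := rfl

theorem inlVec_snd (z : Vec W) : (inlVec z).2 = z := rfl

theorem Rk_smul_inlVec (r : Rk k) (z : Vec W) :
    r • inlVec z = inlVec (fst (r : TrivSqZeroExt (Mat k) (Mat k)) • z) :=
  pair_ext (by rw [Rk_smul_fst, inlVec_fst, inlVec_fst, smul_zero])
    (by rw [Rk_smul_snd, inlVec_fst, inlVec_snd, inlVec_snd, smul_zero, add_zero])

/-- The second component, before passing to the quotient. -/
def eInlCm : (Y.shift tau).cm →+ Y.EMod where
  toFun z := Submodule.Quotient.mk ⟨inlVec (z : Vec W), fun v => by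
    rw [inlVec_fst, vec_zero_apply]; exact zero_mem _, z.2⟩
  map_zero' := rfl
  map_add' z z' := by
    rw [← Submodule.Quotient.mk_add]
    exact congrArg Submodule.Quotient.mk (Subtype.ext (pair_ext (add_zero (0 : Vec W)).symm rfl))

/-- The second component, additively. -/
def eInlAdd : (Y.shift tau).Res →+ Y.EMod :=
  QuotientAddGroup.lift (Y.shift tau).bs.toAddSubgroup Y.eInlCm fun _ hz =>
    (Submodule.Quotient.mk_eq_zero _).2 ⟨fun _ => zero_mem _, hz⟩

theorem eInlAdd_mk (z : (Y.shift tau).cm) :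
    Y.eInlAdd (Submodule.Quotient.mk z) = Y.eInlCm z := rfl

/-- The second component. -/
def eInl : Infl k (Y.shift tau).Res →ₗ[Rk k] Y.EMod where
  toFun x := Y.eInlAdd (Via.equiv _ _ x)
  map_add' x y := map_add _ _ _
  map_smul' r x := by
    rw [Via.smul_def, RingHom.id_apply]
    obtain ⟨z, hz⟩ := Submodule.Quotient.mk_surjective _ (Via.equiv fstHom _ x)
    rw [← hz, ← Submodule.Quotient.mk_smul, eInlAdd_mk, eInlAdd_mk]
    exact congrArg Submodule.Quotient.mk (Subtype.ext (Rk_smul_inlVec r (z : Vec W)).symm)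

theorem eInl_mk (z : Vec W) (hz : ∀ v, z v ∈ Y.comp (pos v + tau)) :
    Y.eInl ((Y.shift tau).mkRes z hz) = Y.mkE 0 z (fun _ => zero_mem _) hz := rfl

/-- The first component, before passing to the quotient. -/
def eFstCm : Y.ecm →+ Y.Res where
  toFun p := Y.mkRes (p : Pair W).1 p.2.1
  map_zero' := rfl
  map_add' _ _ := rfl

/-- The first component, additively. -/
def eFstAdd : Y.EMod →+ Y.Res :=
  QuotientAddGroup.lift Y.ebs.toAddSubgroup Y.eFstCm fun _ hp => Y.mkRes_eq_zero.2 hp.1

/-- The first component. -/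
def eFst : Y.EMod →ₗ[Rk k] Infl k Y.Res where
  toFun x := (Via.equiv _ _).symm (Y.eFstAdd x)
  map_add' x y := map_add Y.eFstAdd x y
  map_smul' r x := by
    obtain ⟨p, rfl⟩ := Submodule.Quotient.mk_surjective _ x
    rfl

theorem eFst_mk (y z : Vec W) (hy : ∀ v, y v ∈ Y.comp (pos v))
    (hz : ∀ v, z v ∈ Y.comp (pos v + tau)) : Y.eFst (Y.mkE y z hy hz) = Y.mkRes y hy := rfl

/-- The second component, before passing to the quotient. -/
def eSndCm : Y.ecm →+ (Y.shift tau).Res where
  toFun p := (Y.shift tau).mkRes (p : Pair W).2 p.2.2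
  map_zero' := rfl
  map_add' _ _ := rfl

/-- The projection to the second component, additively. -/
def eSndAdd : Y.EMod →+ (Y.shift tau).Res :=
  QuotientAddGroup.lift Y.ebs.toAddSubgroup Y.eSndCm fun _ hp =>
    (Y.shift tau).mkRes_eq_zero.2 hp.2

theorem eSndAdd_mk (p : Y.ecm) : Y.eSndAdd (Submodule.Quotient.mk p) = Y.eSndCm p := rfl

/-- The projection to the second component, linear over `Bk k`. -/
def eSnd : Rs k Y.EMod →ₗ[Bk k] (Y.shift tau).Res where
  toFun x := Y.eSndAdd (Via.equiv _ _ x)
  map_add' x y := map_add _ _ _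
  map_smul' b x := by
    rw [Via.smul_def, RingHom.id_apply]
    obtain ⟨p, hp⟩ := Submodule.Quotient.mk_surjective _ (Via.equiv inlHom _ x)
    rw [← hp, ← Submodule.Quotient.mk_smul, eSndAdd_mk, eSndAdd_mk]
    refine congrArg Submodule.Quotient.mk (Subtype.ext ?_)
    show (inlHom b • (p : Pair W)).2 = (b : Mat k) • (p : Pair W).2
    rw [Rk_smul_snd]
    show fst (inl (b : Mat k)) • (p : Pair W).2 + snd (inl (b : Mat k)) • (p : Pair W).1 = _
    rw [TrivSqZeroExt.fst_inl, TrivSqZeroExt.snd_inl, zero_smul, add_zero]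

theorem eSnd_mk (y z : Vec W) (hy : ∀ v, y v ∈ Y.comp (pos v))
    (hz : ∀ v, z v ∈ Y.comp (pos v + tau)) :
    Y.eSnd (Y.mkE y z hy hz) = (Y.shift tau).mkRes z hz := rfl

end GMod

end GMod

end Vale.Agent.P195.Disproof
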