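import Vale.Agent.P195.Disproof.LongShift

/-!
# P195: vanishing along an infinite chain of short exact sequences

If `0 → D m → E m → D (m + 1) → 0` is exact and `S` has no extensions of any degree into any
`E m`, then it has none into any `D m`.
-/

universe u

open CategoryTheory CategoryTheory.Abelian

namespace Vale.Agent.P195.Disproof

variable {R : Type u} [Ring R] {S : Type u} [AddCommGroup S] [Module R S]

theorem ev_tower (D E : ℕ → Type u) [∀ m, AddCommGroup (D m)] [∀ m, Module R (D m)]
    [∀ m, AddCommGroup (E m)] [∀ m, Module R (E m)]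
    (ι : ∀ m, D m →ₗ[R] E m) (π : ∀ m, E m →ₗ[R] D (m + 1))
    (hι : ∀ m, Function.Injective (ι m)) (hπ : ∀ m, Function.Surjective (π m))
    (hex : ∀ m, Function.Exact (ι m) (π m)) (hE : ∀ m i, EV R S (E m) i) :
    ∀ i m, EV R S (D m) i := by
  intro i
  induction i with
  | zero =>
    intro m
    refine ev_zero_iff.2 fun f => LinearMap.ext fun s => hι m ?_
    rw [show ι m (f s) = 0 from LinearMap.congr_fun (ev_zero_iff.1 (hE m 0) ((ι m).comp f)) s,
      LinearMap.zero_apply, map_zero]
  | succ i ih =>
    intro m
    exact ev_cov (hι m) (hπ m) (hex m) i (ih (m + 1)) (hE m (i + 1))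

end Vale.Agent.P195.Disproof
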