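import Vale.Agent.P195.Disproof.Mods
import Vale.Agent.P195.Disproof.Tower

/-!
# P195: the sequence of the two components of an extended module

`0 → Res (Y.shift tau) → EMod Y → Res Y → 0` is exact over `Rk k`; on the inverse polynomials it
links all the inverse polynomial modules into a chain.
-/

noncomputable section

namespace Vale.Agent.P195.Disproof

variable {k : Type} [Field k] {W : Type} [AddCommGroup W] [Module k W] [Module (DOp k) W]
  (Y : GMod k W)

theorem GMod.eInl_injective : Function.Injective Y.eInl := by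
  refine (injective_iff_map_eq_zero Y.eInl).2 fun x hx => ?_
  obtain ⟨z, hz, rfl⟩ := (Y.shift tau).exists_mkRes x
  rw [Y.eInl_mk z hz] at hx
  exact (Y.shift tau).mkRes_eq_zero.2 (Y.mkE_eq_zero.1 hx).2

theorem GMod.eFst_surjective : Function.Surjective Y.eFst := by
  intro x
  obtain ⟨y, hy, rfl⟩ := Y.exists_mkRes x
  exact ⟨Y.mkE y 0 hy fun v => zero_mem _, rfl⟩

theorem GMod.eInl_eFst_exact : Function.Exact Y.eInl Y.eFst := by
  intro x
  obtain ⟨y, z, hy, hz, rfl⟩ := Y.exists_mkE x
  refine ⟨fun h => ⟨(Y.shift tau).mkRes z hz, ?_⟩, ?_⟩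
  · rw [Y.eInl_mk z hz]
    rw [Y.eFst_mk] at h
    have hb := Y.mkRes_eq_zero.1 h
    refine (Submodule.Quotient.eq _).2 ⟨fun v => ?_, fun v => ?_⟩
    · show (0 : Vec W) v - y v ∈ _
      rw [vec_zero_apply, zero_sub]
      exact neg_mem (hb v)
    · show z v - z v ∈ _
      rw [sub_self]
      exact zero_mem _
  · rintro ⟨w, hw⟩
    obtain ⟨z', hz', rfl⟩ := (Y.shift tau).exists_mkRes w
    rw [← hw, Y.eInl_mk z' hz']
    exact Y.mkRes_eq_zero.2 fun v => zero_mem _

variable {Y}

/-- The second component, read on an equal family. -/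
def GMod.eInlOf {Y' : GMod k W} (h : Y' = Y.shift tau) : Infl k Y'.Res →ₗ[Rk k] Y.EMod := by
  subst h
  exact Y.eInl

theorem GMod.eInlOf_injective {Y' : GMod k W} (h : Y' = Y.shift tau) :
    Function.Injective (GMod.eInlOf h) := by
  subst h
  exact Y.eInl_injective

theorem GMod.eInlOf_exact {Y' : GMod k W} (h : Y' = Y.shift tau) :
    Function.Exact (GMod.eInlOf h) Y.eFst := by
  subst h
  exact Y.eInl_eFst_exact

/-- The inverse polynomials of the degree `-3 - m`, inflated. -/
abbrev DT (k : Type) [Field k] (m : ℕ) : Type := Infl k (Dc k (-3 - (m : ℤ))).Res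

/-- The extended module between two steps of the chain. -/
abbrev ET (k : Type) [Field k] (m : ℕ) : Type := (Dc k (-3 - ((m + 1 : ℕ) : ℤ))).EMod

theorem dc_shift_step (m : ℕ) :
    Dc k (-3 - (m : ℤ)) = (Dc k (-3 - ((m + 1 : ℕ) : ℤ))).shift tau := by
  rw [Dc_shift]
  congr 1
  push_cast
  ring

/-- No extensions into the chain of inverse polynomial modules. -/
theorem ev_DT {S : Type} [AddCommGroup S] [Module (Rk k) S]
    (hE : ∀ m i, EV (Rk k) S (ET k m) i) : ∀ i m, EV (Rk k) S (DT k m) i :=
  ev_tower (DT k) (ET k) (fun m => GMod.eInlOf (dc_shift_step m)) (fun _ => GMod.eFst _)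
    (fun m => GMod.eInlOf_injective (dc_shift_step m))
    (fun _ => GMod.eFst_surjective _) (fun m => GMod.eInlOf_exact (dc_shift_step m)) hE

end Vale.Agent.P195.Disproof
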