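import Vale.Agent.P195.Corner.Main

/-!
# P195: a criterion for counterexamples through the functor `Hom(T,-)`

If the cokernels of the evaluation maps `T^n → Z` are orthogonal to `Y`, then `Hom(T,-)` is fully
faithful on maps into `Y` and preserves the vanishing of positive extensions into `Y`.
-/

universe u v

open CategoryTheory CategoryTheory.Abelian

namespace Vale.Agent.P195.Disproof.FF

open Vale.Agent.P195.Corner (ev_unshift ev_one_of_extend ev_mid ev_sub hom_eq_zero_of_ev ev_retract)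

variable {R : Type u} [Ring R]

section Covariant

variable {K P X W : Type u} [AddCommGroup K] [Module R K] [AddCommGroup P] [Module R P]
  [AddCommGroup X] [Module R X] [AddCommGroup W] [Module R W]
variable {ι : K →ₗ[R] P} {π : P →ₗ[R] X}
variable (hι : Function.Injective ι) (hπ : Function.Surjective π) (hex : Function.Exact ι π)

include hι hπ hex

theorem ev_cov₃ (i : ℕ) (h₂ : EV R W P i) (h₁ : EV R W K (i + 1)) : EV R W X i := by
  refine subsingleton_of_forall_eq 0 fun x => ?_
  obtain ⟨x₂, hx₂⟩ := Ext.covariant_sequence_exact₃ (ModuleCat.of R W) (ses hι hπ hex) x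
    (n₁ := i + 1) rfl (h₁.elim _ _)
  have h0 : x₂ = 0 := h₂.elim _ _
  rw [← hx₂, h0, Ext.zero_comp]

theorem ev_lift (h₁ : EV R W K 1) (f : W →ₗ[R] X) : ∃ g : W →ₗ[R] P, π.comp g = f := by
  obtain ⟨x₂, hx₂⟩ := Ext.covariant_sequence_exact₃ (ModuleCat.of R W) (ses hι hπ hex)
    (Ext.mk₀ (ModuleCat.ofHom f)) (n₁ := 1) rfl (h₁.elim _ _)
  obtain ⟨g, rfl⟩ := (Ext.mk₀_bijective _ _).2 x₂
  rw [Ext.mk₀_comp_mk₀] at hx₂
  exact ⟨g.hom, congrArg ModuleCat.Hom.hom ((Ext.mk₀_bijective _ _).1 hx₂)⟩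

theorem ev_cov₁ (hlift : ∀ f : W →ₗ[R] X, ∃ g : W →ₗ[R] P, π.comp g = f) (h₂ : EV R W P 1) :
    EV R W K 1 := by
  refine subsingleton_of_forall_eq 0 fun x => ?_
  obtain ⟨x₃, hx₃⟩ := Ext.covariant_sequence_exact₁ (ModuleCat.of R W) (ses hι hπ hex) x
    (h₂.elim _ _) (n₀ := 0) rfl
  obtain ⟨f, rfl⟩ := (Ext.mk₀_bijective _ _).2 x₃
  obtain ⟨g, hg⟩ := hlift f.hom
  have hf : f = ModuleCat.ofHom g ≫
      (ModuleCat.shortComplexOfCompEqZero ι π hex.linearMap_comp_eq_zero).g := by
    refine ModuleCat.hom_ext ?_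
    exact hg.symm
  rw [← hx₃, hf, ← Ext.mk₀_comp_mk₀, Ext.comp_assoc_of_second_deg_zero,
    (ses hι hπ hex).comp_extClass, Ext.comp_zero]

end Covariant

section Retract

variable {X Y Z : Type u} [AddCommGroup X] [Module R X] [AddCommGroup Y] [Module R Y]
  [AddCommGroup Z] [Module R Z]

/-- Vanishing passes to retracts in the first argument. -/
theorem ev_retract_left (ι : X →ₗ[R] Z) (q : Z →ₗ[R] X) (hq : q.comp ι = LinearMap.id) (i : ℕ)
    (h : EV R Z Y i) : EV R X Y i := by
  refine subsingleton_of_forall_eq 0 fun x => ?_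
  have hid : (ModuleCat.ofHom ι ≫ ModuleCat.ofHom q) = 𝟙 (ModuleCat.of R X) :=
    ModuleCat.hom_ext hq
  rw [← Ext.mk₀_id_comp x, ← hid, ← Ext.mk₀_comp_mk₀, Ext.comp_assoc_of_second_deg_zero]
  have h0 : (Ext.mk₀ (ModuleCat.ofHom q)).comp x (zero_add i) = 0 := h.elim _ _
  rw [h0, Ext.comp_zero]

theorem id_pi_eq_sum (n : ℕ) : (LinearMap.id : (Fin n → X) →ₗ[R] (Fin n → X)) =
    ∑ j : Fin n, (LinearMap.single R (fun _ => X) j).comp (LinearMap.proj j) :=
  LinearMap.ext fun f => funext fun l => by simp [LinearMap.sum_apply, Pi.single_apply]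

/-- Vanishing on a module gives it on its finite powers, in the first argument. -/
theorem ev_pi_left (n i : ℕ) (h : EV R X Y i) : EV R (Fin n → X) Y i := by
  refine subsingleton_of_forall_eq 0 fun x => ?_
  let Φ : ((Fin n → X) →ₗ[R] (Fin n → X)) →+
      Ext (ModuleCat.of R (Fin n → X)) (ModuleCat.of R Y) i :=
    AddMonoidHom.mk' (fun g => (Ext.mk₀ (ModuleCat.ofHom g)).comp x (zero_add i)) fun g g' => by
      rw [← Ext.add_comp, ← Ext.mk₀_add]; rfl
  have hid : Φ LinearMap.id = x := Ext.mk₀_id_comp x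
  rw [← hid, id_pi_eq_sum, map_sum]
  refine Finset.sum_eq_zero fun j _ => ?_
  show (Ext.mk₀ (ModuleCat.ofHom (LinearMap.proj j : (Fin n → X) →ₗ[R] X) ≫
    ModuleCat.ofHom (LinearMap.single R (fun _ : Fin n => X) j))).comp x (zero_add i) = 0
  rw [← Ext.mk₀_comp_mk₀, Ext.comp_assoc_of_second_deg_zero]
  have h0 : (Ext.mk₀ (ModuleCat.ofHom (LinearMap.single R (fun _ : Fin n => X) j))).comp x
      (zero_add i) = 0 := h.elim _ _
  rw [h0, Ext.comp_zero]

/-- Vanishing on a module gives it on its finite powers, in the second argument. -/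
theorem ev_pi_right (n i : ℕ) (h : EV R Y X i) : EV R Y (Fin n → X) i := by
  refine subsingleton_of_forall_eq 0 fun x => ?_
  let Φ : ((Fin n → X) →ₗ[R] (Fin n → X)) →+
      Ext (ModuleCat.of R Y) (ModuleCat.of R (Fin n → X)) i :=
    AddMonoidHom.mk' (fun g => x.comp (Ext.mk₀ (ModuleCat.ofHom g)) (add_zero i)) fun g g' => by
      rw [← Ext.comp_add, ← Ext.mk₀_add]; rfl
  have hid : Φ LinearMap.id = x := Ext.comp_mk₀_id x
  rw [← hid, id_pi_eq_sum, map_sum]
  refine Finset.sum_eq_zero fun j _ => ?_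
  show x.comp (Ext.mk₀ (ModuleCat.ofHom (LinearMap.proj j : (Fin n → X) →ₗ[R] X) ≫
    ModuleCat.ofHom (LinearMap.single R (fun _ : Fin n => X) j))) (add_zero i) = 0
  rw [← Ext.mk₀_comp_mk₀, ← Ext.comp_assoc_of_second_deg_zero]
  have h0 : x.comp (Ext.mk₀ (ModuleCat.ofHom (LinearMap.proj j : (Fin n → X) →ₗ[R] X)))
      (add_zero i) = 0 := h.elim _ _
  rw [h0, Ext.zero_comp]

end Retract

variable (T : Type u) [AddCommGroup T] [Module R T]

/-- The opposite of the endomorphism ring of `T`. -/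
abbrev EndOp (R : Type u) [Ring R] (T : Type u) [AddCommGroup T] [Module R T] : Type u :=
  (Module.End R T)ᵐᵒᵖ

/-- The maps from `T` to `Z`, as a module over the opposite endomorphism ring. -/
@[ext] structure HomT (R : Type u) [Ring R] (T : Type u) [AddCommGroup T] [Module R T]
    (Z : Type u) [AddCommGroup Z] [Module R Z] : Type u where
  map : T →ₗ[R] Z

variable {T} {Z : Type u} [AddCommGroup Z] [Module R Z]

/-- The identification of `HomT` with the linear maps. -/
def homEquiv : HomT R T Z ≃ (T →ₗ[R] Z) := ⟨HomT.map, HomT.mk, fun _ => rfl, fun _ => rfl⟩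

instance : AddCommGroup (HomT R T Z) := homEquiv.addCommGroup

instance : SMul (EndOp R T) (HomT R T Z) where
  smul a h := ⟨h.map.comp a.unop⟩

@[simp] theorem map_add' (g h : HomT R T Z) : (g + h).map = g.map + h.map := rfl
@[simp] theorem map_zero' : (0 : HomT R T Z).map = 0 := rfl
@[simp] theorem map_smul' (a : EndOp R T) (h : HomT R T Z) : (a • h).map = h.map.comp a.unop := rfl

instance : Module (EndOp R T) (HomT R T Z) where
  one_smul _ := HomT.ext (LinearMap.comp_id _)
  mul_smul _ _ _ := HomT.ext rfl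
  smul_zero _ := HomT.ext (LinearMap.zero_comp _)
  smul_add _ _ _ := HomT.ext (LinearMap.add_comp _ _ _)
  add_smul _ _ _ := HomT.ext (LinearMap.comp_add _ _ _)
  zero_smul _ := HomT.ext (LinearMap.comp_zero _)

theorem map_sum' {α : Type*} (s : Finset α) (g : α → HomT R T Z) :
    (∑ a ∈ s, g a).map = ∑ a ∈ s, (g a).map :=
  map_sum (⟨⟨HomT.map, map_zero'⟩, map_add'⟩ : HomT R T Z →+ (T →ₗ[R] Z)) g s

/-- The map of `Hom`-modules induced by a linear map. -/
def post {W : Type u} [AddCommGroup W] [Module R W] (g : Z →ₗ[R] W) :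
    HomT R T Z →ₗ[EndOp R T] HomT R T W where
  toFun h := ⟨g.comp h.map⟩
  map_add' _ _ := HomT.ext (LinearMap.comp_add _ _ _)
  map_smul' _ _ := HomT.ext rfl

/-- The free cover of `Hom(T,Z)` given by a map `T^n → Z`. -/
def freeCover {n : ℕ} (π : (Fin n → T) →ₗ[R] Z) : (Fin n → EndOp R T) →ₗ[EndOp R T] HomT R T Z where
  toFun a := ⟨π.comp (LinearMap.pi fun j => (a j).unop)⟩
  map_add' a b := HomT.ext (LinearMap.ext fun t => (congrArg π (funext fun _ => rfl)).trans
    (π.map_add _ _))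
  map_smul' c a := HomT.ext (LinearMap.ext fun _ => rfl)

/-- The kernel of the free cover. -/
def freeKer {n : ℕ} (π : (Fin n → T) →ₗ[R] Z) :
    HomT R T (LinearMap.ker π) →ₗ[EndOp R T] (Fin n → EndOp R T) where
  toFun h j := MulOpposite.op
    ((LinearMap.proj j).comp ((LinearMap.ker π).subtype.comp h.map))
  map_add' _ _ := funext fun _ => MulOpposite.unop_injective (LinearMap.ext fun _ => rfl)
  map_smul' _ _ := funext fun _ => MulOpposite.unop_injective (LinearMap.ext fun _ => rfl)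

theorem freeKer_exact {n : ℕ} (π : (Fin n → T) →ₗ[R] Z) :
    Function.Injective (freeKer π) ∧ Function.Exact (freeKer π) (freeCover π) := by
  refine ⟨fun g h hgh => HomT.ext (LinearMap.ext fun t => Subtype.ext (funext fun j =>
    LinearMap.congr_fun (congrArg MulOpposite.unop (congrFun hgh j)) t)), fun a => ⟨fun ha => ?_, ?_⟩⟩
  · exact ⟨⟨(LinearMap.pi fun j => (a j).unop).codRestrict (LinearMap.ker π) fun t =>
      LinearMap.congr_fun (congrArg HomT.map ha) t⟩,
      funext fun j => MulOpposite.unop_injective (LinearMap.ext fun _ => rfl)⟩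
  · rintro ⟨h, rfl⟩
    exact HomT.ext (LinearMap.ext fun t => LinearMap.mem_ker.1 (h.map t).2)

theorem freeCover_surjective {n : ℕ} (π : (Fin n → T) →ₗ[R] Z)
    (hsurj : ∀ h : T →ₗ[R] Z, ∃ g : T →ₗ[R] (Fin n → T), π.comp g = h) :
    Function.Surjective (freeCover π) := by
  intro h
  obtain ⟨g, hg⟩ := hsurj h.map
  exact ⟨fun j => MulOpposite.op ((LinearMap.proj j).comp g),
    HomT.ext (Eq.trans (LinearMap.ext fun _ => rfl) hg)⟩

variable {Y A₂ : Type u} [AddCommGroup Y] [Module R Y] [AddCommGroup A₂] [Module R A₂]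

/-- The hypotheses of the criterion. -/
structure Setup (R T Y A₂ : Type u) [Ring R] [AddCommGroup T] [Module R T] [AddCommGroup Y]
    [Module R Y] [AddCommGroup A₂] [Module R A₂] : Prop where
  ext_two : ∀ (Z : Type u) [AddCommGroup Z] [Module R Z], Module.Finite R Z →
    ∀ i, EV R T Z (i + 2)
  ext_TT : EV R T T 1
  ext_TY : ∀ i, EV R T Y (i + 1)
  ext_TA : ∀ i, EV R T A₂ i
  orth : ∀ (C : Type u) [AddCommGroup C] [Module R C], Module.Finite R C →
    (∀ h : T →ₗ[R] C, h = 0) → EV R T C 1 → (∀ h : C →ₗ[R] A₂, h = 0) →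
      ∀ i, EV R C Y i ∧ EV R C A₂ i
  cover : ∀ (Z : Type u) [AddCommGroup Z] [Module R Z], Module.Finite R Z →
    ∃ (n : ℕ) (π : (Fin n → T) →ₗ[R] Z),
      ∀ h : T →ₗ[R] Z, ∃ g : T →ₗ[R] (Fin n → T), π.comp g = h
  finite : Module.Finite R T

/-- The class of modules on which the functor is fully faithful. -/
structure Nice (R T A₂ Z : Type u) [Ring R] [AddCommGroup T] [Module R T] [AddCommGroup A₂]
    [Module R A₂] [AddCommGroup Z] [Module R Z] : Prop where
  finite : Module.Finite R Z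
  ext_T : EV R T Z 1
  ext_A : ∀ i, EV R Z A₂ i

variable [IsNoetherianRing R]

theorem Setup.step (H : Setup R T Y A₂) {Z : Type u} [AddCommGroup Z] [Module R Z]
    (hZ : Nice R T A₂ Z) : ∃ (n : ℕ) (π : (Fin n → T) →ₗ[R] Z),
      (∀ h : T →ₗ[R] Z, ∃ g : T →ₗ[R] (Fin n → T), π.comp g = h) ∧
      Nice R T A₂ (LinearMap.ker π) ∧ ∀ i, EV R (Z ⧸ LinearMap.range π) Y i := by
  obtain ⟨n, π, hsurj⟩ := H.cover Z hZ.finite
  have := hZ.finite
  have := H.finite
  have hK : Module.Finite R (LinearMap.ker π) := Module.Finite.of_fg (IsNoetherian.noetherian _)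
  have hI : Module.Finite R (LinearMap.range π) := Module.Finite.of_fg (IsNoetherian.noetherian _)
  have hC : Module.Finite R (Z ⧸ LinearMap.range π) := inferInstance
  have hex : Function.Exact (LinearMap.ker π).subtype π.rangeRestrict := by
    rw [LinearMap.exact_iff, LinearMap.ker_rangeRestrict, Submodule.range_subtype]
  have hinj := (LinearMap.ker π).injective_subtype
  have hsurjI := π.surjective_rangeRestrict
  have hIinj := (LinearMap.range π).injective_subtype
  have hCsurj := (LinearMap.range π).mkQ_surjective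
  have hCex := LinearMap.exact_subtype_mkQ (LinearMap.range π)
  have hTI : EV R T (LinearMap.range π) 1 :=
    ev_cov₃ hinj hsurjI hex 1 (ev_pi_right n 1 H.ext_TT) (H.ext_two _ hK 0)
  have hTC0 : ∀ h : T →ₗ[R] (Z ⧸ LinearMap.range π), h = 0 := by
    intro h
    obtain ⟨g, hg⟩ := ev_lift hIinj hCsurj hCex hTI h
    obtain ⟨g', hg'⟩ := hsurj g
    rw [← hg, ← hg', ← LinearMap.comp_assoc, LinearMap.range_mkQ_comp, LinearMap.zero_comp]
  have hTC1 : EV R T (Z ⧸ LinearMap.range π) 1 :=
    ev_cov₃ hIinj hCsurj hCex 1 hZ.ext_T (H.ext_two _ hI 0)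
  have hCA : ∀ h : (Z ⧸ LinearMap.range π) →ₗ[R] A₂, h = 0 := by
    intro h
    have := hom_eq_zero_of_ev (hZ.ext_A 0) (h.comp (LinearMap.range π).mkQ)
    exact Submodule.linearMap_qext _ (this.trans (LinearMap.zero_comp _).symm)
  have hO := H.orth _ hC hTC0 hTC1 hCA
  have hIA : ∀ i, EV R (LinearMap.range π) A₂ i := fun i =>
    ev_sub hIinj hCsurj hCex i (hZ.ext_A i) (hO (i + 1)).2
  refine ⟨n, π, hsurj, ⟨hK, ?_, fun i => ?_⟩, fun i => (hO i).1⟩
  · refine ev_cov₁ hinj hsurjI hex (fun f => ?_) (ev_pi_right n 1 H.ext_TT)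
    obtain ⟨g, hg⟩ := hsurj ((LinearMap.range π).subtype.comp f)
    exact ⟨g, LinearMap.ext fun t => Subtype.ext (LinearMap.congr_fun hg t)⟩
  · exact ev_sub hinj hsurjI hex i (ev_pi_left n i (H.ext_TA i)) (hIA (i + 1))

/-- Maps into `Y` are determined by `Hom(T,-)`. -/
theorem Setup.injective (H : Setup R T Y A₂) {Z : Type u} [AddCommGroup Z] [Module R Z]
    (hZ : Nice R T A₂ Z) (g : Z →ₗ[R] Y) (hg : ∀ h : T →ₗ[R] Z, g.comp h = 0) : g = 0 := by
  obtain ⟨n, π, -, -, hC⟩ := H.step hZ
  have hgp : g.comp π = 0 := by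
    refine LinearMap.pi_ext fun j t => ?_
    exact LinearMap.congr_fun (hg (π.comp (LinearMap.single R (fun _ : Fin n => T) j))) t
  obtain ⟨φ, hφ⟩ : ∃ φ : (Z ⧸ LinearMap.range π) →ₗ[R] Y,
      φ.comp (LinearMap.range π).mkQ = g := by
    refine ⟨(LinearMap.range π).liftQ g ?_, Submodule.liftQ_mkQ _ _ _⟩
    rintro _ ⟨f, rfl⟩
    exact LinearMap.congr_fun hgp f
  rw [← hφ, hom_eq_zero_of_ev (hC 0) φ, LinearMap.zero_comp]

/-- Every map of `Hom`-modules into `Hom(T,Y)` comes from a map into `Y`. -/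
theorem Setup.surjective (H : Setup R T Y A₂) {Z : Type u} [AddCommGroup Z] [Module R Z]
    (hZ : Nice R T A₂ Z) (φ : HomT R T Z →ₗ[EndOp R T] HomT R T Y) :
    ∃ G : Z →ₗ[R] Y, post G = φ := by
  obtain ⟨n, π, hsurj, hK, hC⟩ := H.step hZ
  let x : Fin n → HomT R T Z := fun j => ⟨π.comp (LinearMap.single R (fun _ : Fin n => T) j)⟩
  let G₀ : (Fin n → T) →ₗ[R] Y := ∑ j, (φ (x j)).map.comp (LinearMap.proj j)
  have hG₀ : ∀ g : T →ₗ[R] (Fin n → T), G₀.comp g = (φ ⟨π.comp g⟩).map := by
    intro g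
    have hsum : (⟨π.comp g⟩ : HomT R T Z) =
        ∑ j, MulOpposite.op ((LinearMap.proj j).comp g : Module.End R T) • x j := by
      refine HomT.ext ?_
      rw [map_sum']
      show π.comp g = _
      conv_lhs => rw [← LinearMap.comp_id π, id_pi_eq_sum n]
      refine LinearMap.ext fun t => ?_
      simp [x, LinearMap.sum_apply]
    rw [hsum, map_sum, map_sum']
    refine LinearMap.ext fun t => ?_
    simp [G₀, LinearMap.sum_apply]
  have hzero : G₀.comp (LinearMap.ker π).subtype = 0 := by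
    refine H.injective hK _ fun h => ?_
    rw [LinearMap.comp_assoc, hG₀, ← LinearMap.comp_assoc, LinearMap.comp_ker_subtype,
      LinearMap.zero_comp]
    exact congrArg HomT.map (map_zero φ)
  have hker : LinearMap.ker π ≤ LinearMap.ker G₀ := fun z hz =>
    LinearMap.congr_fun hzero ⟨z, hz⟩
  obtain ⟨G, hG⟩ : ∃ G : Z →ₗ[R] Y, G.comp (LinearMap.range π).subtype =
      ((LinearMap.ker π).liftQ G₀ hker).comp π.quotKerEquivRange.symm.toLinearMap :=
    ev_extend (LinearMap.range π).injective_subtype (LinearMap.range π).mkQ_surjective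
      (LinearMap.exact_subtype_mkQ _) (hC 1) _
  have hGπ : G.comp π = G₀ := by
    refine LinearMap.ext fun z => ?_
    refine (LinearMap.congr_fun hG ⟨π z, z, rfl⟩).trans ?_
    exact (congrArg _ (LinearMap.quotKerEquivRange_symm_apply_image π z _)).trans rfl
  refine ⟨G, LinearMap.ext fun h => HomT.ext ?_⟩
  obtain ⟨g, hg⟩ := hsurj h.map
  have h' : h = ⟨π.comp g⟩ := HomT.ext hg.symm
  rw [h']
  show G.comp (π.comp g) = _
  rw [← LinearMap.comp_assoc, hGπ, hG₀]

/-- Vanishing in positive degrees passes through `Hom(T,-)`. -/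
theorem Setup.ev_hom (H : Setup R T Y A₂) : ∀ (i : ℕ) (Z : Type u) [AddCommGroup Z] [Module R Z],
    Nice R T A₂ Z → EV R Z Y (i + 1) → EV (EndOp R T) (HomT R T Z) (HomT R T Y) (i + 1) := by
  intro i
  induction i with
  | zero =>
    intro Z _ _ hZ hZY
    obtain ⟨n, π, hsurj, hK, hC⟩ := H.step hZ
    refine ev_one_of_extend (freeKer_exact π).1 (freeCover_surjective π hsurj)
      (freeKer_exact π).2 fun f => ?_
    obtain ⟨G, hG⟩ := H.surjective hK f
    have hI : EV R (LinearMap.range π) Y 1 := ev_sub (LinearMap.range π).injective_subtype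
      (LinearMap.range π).mkQ_surjective (LinearMap.exact_subtype_mkQ _) 1 hZY (hC 2)
    have hex : Function.Exact (LinearMap.ker π).subtype π.rangeRestrict := by
      rw [LinearMap.exact_iff, LinearMap.ker_rangeRestrict, Submodule.range_subtype]
    obtain ⟨F, hF⟩ : ∃ F : (Fin n → T) →ₗ[R] Y, F.comp (LinearMap.ker π).subtype = G :=
      ev_extend (LinearMap.ker π).injective_subtype π.surjective_rangeRestrict hex hI G
    refine ⟨freeCover F, ?_⟩
    rw [← hG, ← hF]
    exact LinearMap.ext fun h => HomT.ext (LinearMap.ext fun _ => rfl)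
  | succ i ih =>
    intro Z _ _ hZ hZY
    obtain ⟨n, π, hsurj, hK, hC⟩ := H.step hZ
    refine ev_unshift (freeKer_exact π).1 (freeCover_surjective π hsurj) (freeKer_exact π).2 i
      (ih _ hK ?_)
    have hI : EV R (LinearMap.range π) Y (i + 1 + 1) :=
      ev_sub (LinearMap.range π).injective_subtype (LinearMap.range π).mkQ_surjective
        (LinearMap.exact_subtype_mkQ _) (i + 2) hZY (hC (i + 2 + 1))
    have hex : Function.Exact (LinearMap.ker π).subtype π.rangeRestrict := by
      rw [LinearMap.exact_iff, LinearMap.ker_rangeRestrict, Submodule.range_subtype]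
    exact ev_sub (LinearMap.ker π).injective_subtype π.surjective_rangeRestrict hex (i + 1)
      (ev_pi_left n (i + 1) (H.ext_TY i)) hI

/-- `Hom(T,Y)` is not projective if some nonzero map out of `Y` is killed by `T`. -/
theorem Setup.not_projective (H : Setup R T Y A₂) (hY : Nice R T A₂ Y) (ι : T →ₗ[R] Y)
    (q : Y →ₗ[R] T) (hq : q.comp ι = LinearMap.id) {S : Type u} [AddCommGroup S] [Module R S]
    (f : Y →ₗ[R] S) (hf : f ≠ 0) (hS : ∀ h : T →ₗ[R] S, h = 0) :
    ¬ Module.Projective (EndOp R T) (HomT R T Y) := by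
  intro hP
  obtain ⟨n, π, hsurj, -, -⟩ := H.step hY
  obtain ⟨s, hs⟩ :=
    Module.projective_lifting_property (freeCover π) LinearMap.id (freeCover_surjective π hsurj)
  let toY : Fin n → (HomT R T Y →ₗ[EndOp R T] HomT R T Y) := fun j =>
    { toFun := fun h => ⟨ι.comp (s h j).unop⟩
      map_add' := fun g h => HomT.ext (by simp [LinearMap.comp_add])
      map_smul' := fun a h => HomT.ext (by simp [Module.End.mul_eq_comp, LinearMap.comp_assoc]) }
  choose G hG using fun j => H.surjective hY (toY j)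
  let P : Y →ₗ[R] Y := π.comp (LinearMap.pi fun j => q.comp (G j))
  have hP0 : P - LinearMap.id = 0 := by
    refine H.injective hY _ fun h => ?_
    have hpi : ((LinearMap.pi fun j => q.comp (G j)).comp h) =
        LinearMap.pi fun j => (s ⟨h⟩ j).unop := by
      refine LinearMap.ext fun t => funext fun j => ?_
      have h1 : G j (h t) = ι ((s ⟨h⟩ j).unop t) :=
        LinearMap.congr_fun (congrArg HomT.map (LinearMap.congr_fun (hG j) ⟨h⟩)) t
      show q (G j (h t)) = _
      rw [h1]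
      exact LinearMap.congr_fun hq _
    rw [LinearMap.sub_comp, LinearMap.id_comp, LinearMap.comp_assoc, hpi]
    exact sub_eq_zero.2 (congrArg HomT.map (LinearMap.congr_fun hs ⟨h⟩))
  have hfπ : f.comp π = 0 := by
    refine LinearMap.pi_ext fun j t => ?_
    exact LinearMap.congr_fun (hS ((f.comp π).comp (LinearMap.single R (fun _ : Fin n => T) j))) t
  refine hf ?_
  rw [sub_eq_zero] at hP0
  calc f = f.comp P := by rw [hP0, LinearMap.comp_id]
    _ = 0 := by rw [← LinearMap.comp_assoc, hfπ, LinearMap.zero_comp]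

omit [IsNoetherianRing R]

/-- Over an algebra finite over a field, finitely many maps give an evaluation map. -/
theorem exists_cover (k : Type v) [Field k] [Algebra k R] [Module.Finite k R] [Module k T]
    [IsScalarTower k R T] [Module.Finite R T] (Z : Type u) [AddCommGroup Z] [Module R Z]
    (hZ : Module.Finite R Z) : ∃ (n : ℕ) (π : (Fin n → T) →ₗ[R] Z),
      ∀ h : T →ₗ[R] Z, ∃ g : T →ₗ[R] (Fin n → T), π.comp g = h := by
  let _ : Module k Z := Module.compHom Z (algebraMap k R)
  have : IsScalarTower k R Z := ⟨fun c r z => by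
    show (c • r) • z = algebraMap k R c • (r • z)
    rw [Algebra.smul_def, mul_smul]⟩
  have : Module.Finite k T := Module.Finite.trans R T
  have : Module.Finite k Z := Module.Finite.trans R Z
  have : Module.Finite k (T →ₗ[R] Z) :=
    Module.Finite.of_injective (LinearMap.restrictScalarsₗ k R T Z k)
      (LinearMap.restrictScalars_injective k)
  obtain ⟨n, b, hb⟩ := Module.Finite.exists_fin (R := k) (M := T →ₗ[R] Z)
  refine ⟨n, ∑ j, (b j).comp (LinearMap.proj j), fun h => ?_⟩
  obtain ⟨c, hc⟩ := Submodule.mem_span_range_iff_exists_fun _ |>.1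
    (hb ▸ Submodule.mem_top : h ∈ Submodule.span k (Set.range b))
  refine ⟨LinearMap.pi fun j => c j • LinearMap.id, LinearMap.ext fun t => ?_⟩
  rw [← hc]
  simp [LinearMap.sum_apply]

/-- The criterion for a counterexample to the Auslander-Reiten conjecture. -/
theorem criterion (k : Type v) [Field k] [Algebra k R] [Module.Finite k R] [Module k T]
    [IsScalarTower k R T] [Module.Finite R T] [Module.Finite R Y]
    (ι : T →ₗ[R] Y) (q : Y →ₗ[R] T) (hq : q.comp ι = LinearMap.id)
    (hT2 : ∀ (Z : Type u) [AddCommGroup Z] [Module R Z], Module.Finite R Z →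
      ∀ i, EV R T Z (i + 2))
    (hYY : ∀ i, EV R Y Y (i + 1)) (hYA : ∀ i, EV R Y A₂ i)
    (hOrth : ∀ (C : Type u) [AddCommGroup C] [Module R C], Module.Finite R C →
      (∀ h : T →ₗ[R] C, h = 0) → EV R T C 1 → (∀ h : C →ₗ[R] A₂, h = 0) →
        ∀ i, EV R C Y i ∧ EV R C A₂ i)
    {S : Type u} [AddCommGroup S] [Module R S] (f : Y →ₗ[R] S) (hf : f ≠ 0)
    (hS : ∀ h : T →ₗ[R] S, h = 0) :
    ∃ (A : Type u) (_ : Ring A) (_ : Algebra k A) (M : ModuleCat.{u} A),
      Module.Finite k A ∧ Module.Finite A M ∧ ¬ Module.Projective A M ∧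
      ∀ i : ℕ, 1 ≤ i → Subsingleton (Ext M M i) ∧ Subsingleton (Ext M (ModuleCat.of A A) i) := by
  have : IsArtinianRing R := IsArtinianRing.of_finite k R
  have hTY : ∀ i, EV R T Y (i + 1) := fun i => ev_retract_left ι q hq _ (hYY i)
  have H : Setup R T Y A₂ := ⟨hT2, ev_retract ι q hq 1 (hTY 0), hTY,
    fun i => ev_retract_left ι q hq i (hYA i), hOrth, fun Z _ _ hZ => exists_cover k Z hZ,
    inferInstance⟩
  have hNY : Nice R T A₂ Y := ⟨inferInstance, hTY 0, hYA⟩
  have : Module.Finite k T := Module.Finite.trans R T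
  have hfinA : Module.Finite k (EndOp R T) := by
    have : Module.Finite k (Module.End R T) :=
      Module.Finite.of_injective (LinearMap.restrictScalarsₗ k R T T k)
        (LinearMap.restrictScalars_injective k)
    exact Module.Finite.equiv (MulOpposite.opLinearEquiv k)
  obtain ⟨n, π, hsurj, -, -⟩ := H.step hNY
  refine ⟨EndOp R T, inferInstance, inferInstance, ModuleCat.of (EndOp R T) (HomT R T Y), hfinA,
    Module.Finite.of_surjective (freeCover π) (freeCover_surjective π hsurj),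
    H.not_projective hNY ι q hq f hf hS, fun i hi => ?_⟩
  obtain ⟨j, rfl⟩ : ∃ j, i = j + 1 := ⟨i - 1, by omega⟩
  have h1 := H.ev_hom j Y hNY (hYY j)
  let toA : HomT R T Y →ₗ[EndOp R T] EndOp R T :=
    { toFun := fun h => MulOpposite.op (q.comp h.map)
      map_add' := fun g h => MulOpposite.unop_injective (LinearMap.comp_add _ _ _)
      map_smul' := fun a h => MulOpposite.unop_injective rfl }
  let ofA : EndOp R T →ₗ[EndOp R T] HomT R T Y :=
    { toFun := fun a => ⟨ι.comp a.unop⟩
      map_add' := fun g h => HomT.ext (LinearMap.comp_add _ _ _)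
      map_smul' := fun a h => HomT.ext rfl }
  refine ⟨h1, ev_retract ofA toA (LinearMap.ext fun a => MulOpposite.unop_injective ?_) (j + 1) h1⟩
  show q.comp (ι.comp a.unop) = a.unop
  rw [← LinearMap.comp_assoc, hq, LinearMap.id_comp]

end Vale.Agent.P195.Disproof.FF
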