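import Vale.Agent.P195.Disproof.Weyl

/-!
# P195: factoring operators through a variable or a derivative

An operator of given weight and order is a sum of products with a variable on the left (or on the
right) plus pure derivatives, and a sum of products with a derivative on the left (or on the right)
plus pure variables.
-/

noncomputable section

namespace Vale.Agent.P195.Disproof

variable (k : Type) [Field k]

/-- The pure derivatives of given bidegree. -/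
def varRem (d : Deg) : Submodule k (DOp k) :=
  Submodule.span k ((fun β => op k 0 β) '' {β : Ix | -(tot β : ℤ) = d.1 ∧ (tot β : ℤ) ≤ d.2})

/-- The pure monomials of given bidegree. -/
def derivRem (d : Deg) : Submodule k (DOp k) :=
  Submodule.span k ((fun α => op k α 0) '' {α : Ix | (tot α : ℤ) = d.1 ∧ 0 ≤ d.2})

variable {k}

theorem opR_zero_left (α : Ix) : opR k 0 α = op k α 0 := by rw [opR, op_zero_zero, one_mul]

theorem opR_zero_right (β : Ix) : opR k β 0 = op k 0 β := by rw [opR, op_zero_zero, mul_one]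

theorem deriv_mul_deriv (β : Ix) (i : Fin 3) :
    op k 0 (unit i) * op k 0 β = op k 0 (β + unit i) := by
  rw [deriv_mul_op, Pi.zero_apply, Nat.cast_zero, zero_smul, zero_add]

theorem varRem_le_Fil (d : Deg) : varRem k d ≤ Fil k d :=
  Submodule.span_le.2 <| by
    rintro _ ⟨β, ⟨h1, h2⟩, rfl⟩
    exact op_mem_Fil (by simp [tot_zero, h1]) h2

theorem derivRem_le_Fil (d : Deg) : derivRem k d ≤ Fil k d :=
  Submodule.span_le.2 <| by
    rintro _ ⟨α, ⟨h1, h2⟩, rfl⟩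
    exact op_mem_Fil (by simp [tot_zero, h1]) (by simpa [tot_zero] using h2)

theorem derivRem_le_Fil_zero (d : Deg) : derivRem k d ≤ Fil k (d.1, 0) :=
  Submodule.span_le.2 <| by
    rintro _ ⟨α, ⟨h1, -⟩, rfl⟩
    exact op_mem_Fil (by simp [tot_zero, h1]) (by simp [tot_zero])

theorem varRem_eq_bot {d : Deg} (h : 0 < d.1 ∨ d.1 + d.2 < 0) : varRem k d = ⊥ :=
  Submodule.span_eq_bot.2 <| by
    rintro _ ⟨β, ⟨h1, h2⟩, rfl⟩
    omega

theorem derivRem_eq_bot {d : Deg} (h : d.1 < 0 ∨ d.2 < 0) : derivRem k d = ⊥ :=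
  Submodule.span_eq_bot.2 <| by
    rintro _ ⟨α, ⟨h1, h2⟩, rfl⟩
    omega

theorem varRem_le_span_one {d : Deg} (h : d.1 = 0) :
    varRem k d ≤ Submodule.span k {(1 : DOp k)} :=
  Submodule.span_le.2 <| by
    rintro _ ⟨β, ⟨h1, -⟩, rfl⟩
    obtain rfl : β = 0 := tot_eq_zero.1 (by omega)
    exact Submodule.subset_span op_zero_zero

theorem derivRem_le_span_one {d : Deg} (h : d.1 = 0) :
    derivRem k d ≤ Submodule.span k {(1 : DOp k)} :=
  Submodule.span_le.2 <| by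
    rintro _ ⟨α, ⟨h1, -⟩, rfl⟩
    obtain rfl : α = 0 := tot_eq_zero.1 (by omega)
    exact Submodule.subset_span op_zero_zero

/-- A generator criterion for decompositions into products with three fixed operators and a
remainder. -/
theorem exists_decomp {S : Set (DOp k)} {A R : Submodule k (DOp k)}
    (T : Fin 3 → DOp k →ₗ[k] DOp k)
    (h : ∀ g ∈ S, (∃ i Q, Q ∈ A ∧ g = T i Q) ∨ g ∈ R) {f : DOp k}
    (hf : f ∈ Submodule.span k S) :
    ∃ (Q : Fin 3 → DOp k) (r : DOp k), (∀ i, Q i ∈ A) ∧ r ∈ R ∧ f = (∑ i, T i (Q i)) + r := by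
  classical
  induction hf using Submodule.span_induction with
  | mem g hg =>
    rcases h g hg with ⟨i, Q, hQ, rfl⟩ | hR
    · refine ⟨Pi.single i Q, 0, fun j => ?_, zero_mem _, ?_⟩
      · rcases eq_or_ne j i with rfl | hj
        · simpa using hQ
        · simp [hj]
      · rw [add_zero, Finset.sum_eq_single i (fun j _ hj => by simp [hj]) (by simp)]
        simp
    · exact ⟨0, g, fun _ => zero_mem _, hR, by simp⟩
  | zero => exact ⟨0, 0, fun _ => zero_mem _, zero_mem _, by simp⟩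
  | add a b _ _ ha hb =>
    obtain ⟨Q, r, hQ, hr, rfl⟩ := ha
    obtain ⟨Q', r', hQ', hr', rfl⟩ := hb
    refine ⟨Q + Q', r + r', fun i => add_mem (hQ i) (hQ' i), add_mem hr hr', ?_⟩
    simp only [Pi.add_apply, map_add, Finset.sum_add_distrib]
    rw [add_add_add_comm]
  | smul c a _ ha =>
    obtain ⟨Q, r, hQ, hr, rfl⟩ := ha
    exact ⟨c • Q, c • r, fun i => Submodule.smul_mem _ c (hQ i), Submodule.smul_mem _ c hr, by
      simp only [Pi.smul_apply, map_smul, smul_add, Finset.smul_sum]⟩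

/-- A variable split off on the left. -/
theorem exists_var_mul {d : Deg} {f : DOp k} (hf : f ∈ Fil k d) :
    ∃ (Q : Fin 3 → DOp k) (r : DOp k), (∀ i, Q i ∈ Fil k (d + (-1, 0))) ∧ r ∈ varRem k d ∧
      f = (∑ i, op k (unit i) 0 * Q i) + r := by
  refine exists_decomp (fun i => LinearMap.mulLeft k (op k (unit i) 0)) ?_ hf
  rintro _ ⟨⟨α, β⟩, ⟨h1, h2⟩, rfl⟩
  simp only at h1 h2 ⊢
  by_cases hα : α = 0
  · subst hα
    rw [tot_zero] at h1
    exact Or.inr (Submodule.subset_span ⟨β, ⟨by omega, h2⟩, rfl⟩)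
  · obtain ⟨i, a, rfl⟩ := exists_unit_of_ne_zero hα
    rw [tot_add, tot_unit] at h1
    refine Or.inl ⟨i, op k a β, op_mem_Fil ?_ ?_, ?_⟩
    · simp only [Prod.fst_add]; omega
    · simp only [Prod.snd_add]; omega
    · rw [LinearMap.mulLeft_apply, op_zero_right_mul, add_comm]

/-- A variable split off on the right. -/
theorem exists_mul_var {d : Deg} {f : DOp k} (hf : f ∈ Fil k d) :
    ∃ (Q : Fin 3 → DOp k) (r : DOp k), (∀ i, Q i ∈ Fil k (d + (-1, 0))) ∧ r ∈ varRem k d ∧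
      f = (∑ i, Q i * op k (unit i) 0) + r := by
  rw [Fil_eq_span_opR] at hf
  refine exists_decomp (fun i => LinearMap.mulRight k (op k (unit i) 0)) ?_ hf
  rintro _ ⟨⟨α, β⟩, ⟨h1, h2⟩, rfl⟩
  simp only at h1 h2 ⊢
  by_cases hα : α = 0
  · subst hα
    rw [tot_zero] at h1
    exact Or.inr (Submodule.subset_span ⟨β, ⟨by omega, h2⟩, (opR_zero_right β).symm⟩)
  · obtain ⟨i, a, rfl⟩ := exists_unit_of_ne_zero hα
    rw [tot_add, tot_unit] at h1
    refine Or.inl ⟨i, opR k β a, opR_mem_Fil ?_ ?_, ?_⟩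
    · simp only [Prod.fst_add]; omega
    · simp only [Prod.snd_add]; omega
    · rw [LinearMap.mulRight_apply, opR, opR, mul_assoc, op_zero_right_mul]

/-- A derivative split off on the left. -/
theorem exists_deriv_mul {d : Deg} {f : DOp k} (hf : f ∈ Fil k d) :
    ∃ (Q : Fin 3 → DOp k) (r : DOp k), (∀ i, Q i ∈ Fil k (d + (1, -1))) ∧ r ∈ derivRem k d ∧
      f = (∑ i, op k 0 (unit i) * Q i) + r := by
  rw [Fil_eq_span_opR] at hf
  refine exists_decomp (fun i => LinearMap.mulLeft k (op k 0 (unit i))) ?_ hf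
  rintro _ ⟨⟨α, β⟩, ⟨h1, h2⟩, rfl⟩
  simp only at h1 h2 ⊢
  by_cases hβ : β = 0
  · subst hβ
    rw [tot_zero] at h1 h2
    exact Or.inr (Submodule.subset_span ⟨α, ⟨by omega, by omega⟩, (opR_zero_left α).symm⟩)
  · obtain ⟨i, b, rfl⟩ := exists_unit_of_ne_zero hβ
    rw [tot_add, tot_unit] at h1 h2
    refine Or.inl ⟨i, opR k b α, opR_mem_Fil ?_ ?_, ?_⟩
    · simp only [Prod.fst_add]; omega
    · simp only [Prod.snd_add]; omega
    · rw [LinearMap.mulLeft_apply, opR, opR, ← mul_assoc, deriv_mul_deriv]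

/-- A derivative split off on the right. -/
theorem exists_mul_deriv {d : Deg} {f : DOp k} (hf : f ∈ Fil k d) :
    ∃ (Q : Fin 3 → DOp k) (r : DOp k), (∀ i, Q i ∈ Fil k (d + (1, -1))) ∧ r ∈ derivRem k d ∧
      f = (∑ i, Q i * op k 0 (unit i)) + r := by
  refine exists_decomp (fun i => LinearMap.mulRight k (op k 0 (unit i))) ?_ hf
  rintro _ ⟨⟨α, β⟩, ⟨h1, h2⟩, rfl⟩
  simp only at h1 h2 ⊢
  by_cases hβ : β = 0
  · subst hβ
    rw [tot_zero] at h1 h2
    exact Or.inr (Submodule.subset_span ⟨α, ⟨by omega, by omega⟩, rfl⟩)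
  · obtain ⟨i, b, rfl⟩ := exists_unit_of_ne_zero hβ
    rw [tot_add, tot_unit] at h1 h2
    refine Or.inl ⟨i, op k α b, op_mem_Fil ?_ ?_, ?_⟩
    · simp only [Prod.fst_add]; omega
    · simp only [Prod.snd_add]; omega
    · rw [LinearMap.mulRight_apply, op_mul_deriv]

theorem exists_var_mul_of_pos {d : Deg} (h : 0 < d.1 ∨ d.1 + d.2 < 0) {f : DOp k}
    (hf : f ∈ Fil k d) :
    ∃ Q : Fin 3 → DOp k, (∀ i, Q i ∈ Fil k (d + (-1, 0))) ∧ f = ∑ i, op k (unit i) 0 * Q i := by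
  obtain ⟨Q, r, hQ, hr, rfl⟩ := exists_var_mul hf
  rw [varRem_eq_bot h, Submodule.mem_bot] at hr
  exact ⟨Q, hQ, by rw [hr, add_zero]⟩

theorem exists_mul_var_of_pos {d : Deg} (h : 0 < d.1 ∨ d.1 + d.2 < 0) {f : DOp k}
    (hf : f ∈ Fil k d) :
    ∃ Q : Fin 3 → DOp k, (∀ i, Q i ∈ Fil k (d + (-1, 0))) ∧ f = ∑ i, Q i * op k (unit i) 0 := by
  obtain ⟨Q, r, hQ, hr, rfl⟩ := exists_mul_var hf
  rw [varRem_eq_bot h, Submodule.mem_bot] at hr
  exact ⟨Q, hQ, by rw [hr, add_zero]⟩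

theorem exists_deriv_mul_of_neg {d : Deg} (h : d.1 < 0 ∨ d.2 < 0) {f : DOp k}
    (hf : f ∈ Fil k d) :
    ∃ Q : Fin 3 → DOp k, (∀ i, Q i ∈ Fil k (d + (1, -1))) ∧ f = ∑ i, op k 0 (unit i) * Q i := by
  obtain ⟨Q, r, hQ, hr, rfl⟩ := exists_deriv_mul hf
  rw [derivRem_eq_bot h, Submodule.mem_bot] at hr
  exact ⟨Q, hQ, by rw [hr, add_zero]⟩

theorem exists_mul_deriv_of_neg {d : Deg} (h : d.1 < 0 ∨ d.2 < 0) {f : DOp k}
    (hf : f ∈ Fil k d) :
    ∃ Q : Fin 3 → DOp k, (∀ i, Q i ∈ Fil k (d + (1, -1))) ∧ f = ∑ i, Q i * op k 0 (unit i) := by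
  obtain ⟨Q, r, hQ, hr, rfl⟩ := exists_mul_deriv hf
  rw [derivRem_eq_bot h, Submodule.mem_bot] at hr
  exact ⟨Q, hQ, by rw [hr, add_zero]⟩

theorem exists_var_mul_of_zero {d : Deg} (h : d.1 = 0) {f : DOp k} (hf : f ∈ Fil k d) :
    ∃ (Q : Fin 3 → DOp k) (c : k), (∀ i, Q i ∈ Fil k (d + (-1, 0))) ∧
      f = (∑ i, op k (unit i) 0 * Q i) + c • 1 := by
  obtain ⟨Q, r, hQ, hr, rfl⟩ := exists_var_mul hf
  obtain ⟨c, rfl⟩ := Submodule.mem_span_singleton.1 (varRem_le_span_one h hr)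
  exact ⟨Q, c, hQ, rfl⟩

theorem exists_mul_var_of_zero {d : Deg} (h : d.1 = 0) {f : DOp k} (hf : f ∈ Fil k d) :
    ∃ (Q : Fin 3 → DOp k) (c : k), (∀ i, Q i ∈ Fil k (d + (-1, 0))) ∧
      f = (∑ i, Q i * op k (unit i) 0) + c • 1 := by
  obtain ⟨Q, r, hQ, hr, rfl⟩ := exists_mul_var hf
  obtain ⟨c, rfl⟩ := Submodule.mem_span_singleton.1 (varRem_le_span_one h hr)
  exact ⟨Q, c, hQ, rfl⟩

theorem exists_deriv_mul_of_zero {d : Deg} (h : d.1 = 0) {f : DOp k} (hf : f ∈ Fil k d) :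
    ∃ (Q : Fin 3 → DOp k) (c : k), (∀ i, Q i ∈ Fil k (d + (1, -1))) ∧
      f = (∑ i, op k 0 (unit i) * Q i) + c • 1 := by
  obtain ⟨Q, r, hQ, hr, rfl⟩ := exists_deriv_mul hf
  obtain ⟨c, rfl⟩ := Submodule.mem_span_singleton.1 (derivRem_le_span_one h hr)
  exact ⟨Q, c, hQ, rfl⟩

theorem exists_mul_deriv_of_zero {d : Deg} (h : d.1 = 0) {f : DOp k} (hf : f ∈ Fil k d) :
    ∃ (Q : Fin 3 → DOp k) (c : k), (∀ i, Q i ∈ Fil k (d + (1, -1))) ∧
      f = (∑ i, Q i * op k 0 (unit i)) + c • 1 := by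
  obtain ⟨Q, r, hQ, hr, rfl⟩ := exists_mul_deriv hf
  obtain ⟨c, rfl⟩ := Submodule.mem_span_singleton.1 (derivRem_le_span_one h hr)
  exact ⟨Q, c, hQ, rfl⟩

end Vale.Agent.P195.Disproof
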