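import Vale.Agent.P195.Disproof.Proj
import Vale.Agent.P195.Corner.Transfer

/-!
# P195: the presentation of the partial tilting module

The sequence `0 → ∏ P (srcVtx s) → ∏ P (genVtx j) → Te → 0` over `Rk k` given by `psi` is exact
and its first two terms are projective.
-/

noncomputable section

namespace Vale.Agent.P195.Disproof

open TrivSqZeroExt (fst snd inl inr)

variable {k : Type} [Field k] {W : Type} [AddCommGroup W] [Module k W] [Module (DOp k) W]

/-- Right multiplications of the free family at a vertex, into any extended module. -/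
theorem toRk_smul_mkE (Y : GMod k W) (v : Vtx) (w : W) (hw : w ∈ Y.comp (pos v))
    (f g : Vec (DOp k)) (hf : ∀ u, f u ∈ (P k (pos v)).comp (pos u))
    (hg : ∀ u, g u ∈ (P k (pos v)).comp (pos u + tau)) :
    toRk k v ((P k (pos v)).mkE f g hf hg) •
        Y.mkE (sgl v w) 0 (Y.sgl_mem₀ hw) (fun _ => zero_mem _) =
      Y.mkE (fun u => f u • w) (fun u => g u • w)
        (fun u => Y.smul_comp_of_eq (hf u) hw (by abel))
        (fun u => Y.smul_comp_of_eq (hg u) hw (by abel)) := by
  refine congrArg Submodule.Quotient.mk (Subtype.ext (pair_ext ?_ ?_))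
  · show fst (inl (colMat k v f) + inr (colMat k v g)) • sgl v w = fun u => f u • w
    rw [TrivSqZeroExt.fst_add, TrivSqZeroExt.fst_inl, TrivSqZeroExt.fst_inr, add_zero]
    exact vec_ext fun u => (colMat_sgl v _ f u).trans (congrArg (f u • ·) (sgl_self v w))
  · show fst (inl (colMat k v f) + inr (colMat k v g)) • (0 : Vec W) +
      snd (inl (colMat k v f) + inr (colMat k v g)) • sgl v w = fun u => g u • w
    rw [TrivSqZeroExt.snd_add, TrivSqZeroExt.snd_inl, TrivSqZeroExt.snd_inr, zero_add]
    refine vec_ext fun u => ?_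
    refine (vec_add_apply _ _ u).trans ?_
    rw [mat_smul_vec_zero, vec_zero_apply, zero_add]
    exact (colMat_sgl v _ g u).trans (congrArg (g u • ·) (sgl_self v w))

variable (k)

/-- The projective module of the sources. -/
abbrev SrcP : Type := ∀ s : Src, (P k (pos (srcVtx s))).EMod

/-- The projective module of the generators. -/
abbrev GenP : Type := ∀ j : Gen, (P k (pos (genVtx j))).EMod

instance instAddCommGroupSrcP : AddCommGroup (SrcP k) := Pi.addCommGroup

instance instAddCommGroupGenP : AddCommGroup (GenP k) := Pi.addCommGroup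

instance instModuleSrcP : Module (Rk k) (SrcP k) := Pi.module _ _ _

instance instModuleGenP : Module (Rk k) (GenP k) := Pi.module _ _ _

/-- The coefficients of the presentation. -/
def psiC (s : Src) (j : Gen) : DOp k := psi k (Pi.single s 1) j

variable {k}

theorem psiC_mem (s : Src) (j : Gen) :
    psiC k s j ∈ (P k (pos (genVtx j))).comp (pos (srcVtx s)) := by
  refine (Tmod k).le (pos (srcVtx s)) ⟨Pi.single s 1, fun t _ => ?_, rfl⟩ j (Set.mem_univ j)
  by_cases h : t = s
  · subst h
    rw [Pi.single_eq_same]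
    exact one_mem_P_comp _
  · rw [Pi.single_eq_of_ne h]
    exact zero_mem _

theorem psi_eq_sum (f : Src → DOp k) (j : Gen) : psi k f j = ∑ s, f s • psiC k s j := by
  have h : f = ∑ s, f s • (Pi.single s 1 : Src → DOp k) := by
    funext t
    simp [Pi.single_apply]
  conv_lhs => rw [h, map_sum, Finset.sum_apply]
  exact Finset.sum_congr rfl fun s _ => by rw [psi_smul, Pi.smul_apply]; rfl

theorem single_mem_genComp (j : Gen) :
    (Pi.single j 1 : Gen → DOp k) ∈ (Tmod k).comp (pos (genVtx j)) := by
  intro i _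
  by_cases h : i = j
  · subst h
    rw [Pi.single_eq_same]
    exact one_mem_P_comp _
  · rw [Pi.single_eq_of_ne h]
    exact zero_mem _

variable (k)

/-- A generator of the partial tilting module. -/
def genT (j : Gen) : Te k :=
  (Tmod k).mkE (sgl (genVtx j) (Pi.single j 1)) 0
    ((Tmod k).sgl_mem₀ (single_mem_genComp j)) fun _ => zero_mem _

/-- The image of a source in the projective module at a generator. -/
def srcImg (s : Src) (j : Gen) : (P k (pos (genVtx j))).EMod :=
  (P k (pos (genVtx j))).mkE (sgl (srcVtx s) (psiC k s j)) 0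
    ((P k (pos (genVtx j))).sgl_mem₀ (psiC_mem s j)) fun _ => zero_mem _

/-- The surjection of the presentation. -/
def presπ : GenP k →ₗ[Rk k] Te k :=
  ∑ j : Gen, ((LinearMap.toSpanSingleton (Rk k) (Te k) (genT k j)).comp
    (toRk k (genVtx j))).comp (LinearMap.proj j)

/-- The injection of the presentation. -/
def presι : SrcP k →ₗ[Rk k] GenP k :=
  LinearMap.pi fun j => ∑ s : Src, ((LinearMap.toSpanSingleton (Rk k) _ (srcImg k s j)).comp
    (toRk k (srcVtx s))).comp (LinearMap.proj s)

variable {k}

theorem GMod.mkE_congr (Y : GMod k W) {y y' z z' : Vec W} {hy : ∀ v, y v ∈ Y.comp (pos v)}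
    {hy' : ∀ v, y' v ∈ Y.comp (pos v)} {hz : ∀ v, z v ∈ Y.comp (pos v + tau)}
    {hz' : ∀ v, z' v ∈ Y.comp (pos v + tau)} (h1 : ∀ v, y v = y' v) (h2 : ∀ v, z v = z' v) :
    Y.mkE y z hy hz = Y.mkE y' z' hy' hz' := by
  obtain rfl : y = y' := vec_ext h1
  obtain rfl : z = z' := vec_ext h2
  rfl

theorem GMod.sum_mkE {α : Type} (t : Finset α) (Y : GMod k W) (y z : α → Vec W)
    (hy : ∀ a v, y a v ∈ Y.comp (pos v)) (hz : ∀ a v, z a v ∈ Y.comp (pos v + tau)) :
    ∑ a ∈ t, Y.mkE (y a) (z a) (hy a) (hz a) =
      Y.mkE (fun v => ∑ a ∈ t, y a v) (fun v => ∑ a ∈ t, z a v)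
        (fun v => Submodule.sum_mem _ fun a _ => hy a v)
        (fun v => Submodule.sum_mem _ fun a _ => hz a v) := by
  classical
  induction t using Finset.induction with
  | empty =>
    rw [Finset.sum_empty]
    exact (Y.mkE_eq_zero.2 ⟨fun v => by simp, fun v => by simp⟩).symm
  | insert a t ha ih =>
    rw [Finset.sum_insert ha, ih]
    refine congrArg Submodule.Quotient.mk (Subtype.ext (pair_ext ?_ ?_))
    · refine vec_ext fun v => ?_
      show y a v + ∑ b ∈ t, y b v = ∑ b ∈ insert a t, y b v
      exact (Finset.sum_insert (f := fun b => y b v) ha).symm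
    · refine vec_ext fun v => ?_
      show z a v + ∑ b ∈ t, z b v = ∑ b ∈ insert a t, z b v
      exact (Finset.sum_insert (f := fun b => z b v) ha).symm

theorem presπ_mk (p q : Gen → Vec (DOp k))
    (hp : ∀ j u, p j u ∈ (P k (pos (genVtx j))).comp (pos u))
    (hq : ∀ j u, q j u ∈ (P k (pos (genVtx j))).comp (pos u + tau)) :
    presπ k (fun j => (P k (pos (genVtx j))).mkE (p j) (q j) (hp j) (hq j)) =
      (Tmod k).mkE (fun u j => p j u) (fun u j => q j u) (fun u j _ => hp j u)
        (fun u j _ => hq j u) := by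
  simp only [presπ, LinearMap.sum_apply, LinearMap.comp_apply, LinearMap.proj_apply,
    LinearMap.toSpanSingleton_apply, genT]
  rw [Finset.sum_congr rfl fun j _ => toRk_smul_mkE (Tmod k) (genVtx j) (Pi.single j 1)
    (single_mem_genComp j) (p j) (q j) (hp j) (hq j)]
  refine (GMod.sum_mkE _ _ _ _ _ _).trans (GMod.mkE_congr _ (fun u => ?_) (fun u => ?_)) <;>
  · funext i
    simp [Finset.sum_apply, Pi.single_apply]

theorem presι_mk (p q : Src → Vec (DOp k))
    (hp : ∀ s u, p s u ∈ (P k (pos (srcVtx s))).comp (pos u))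
    (hq : ∀ s u, q s u ∈ (P k (pos (srcVtx s))).comp (pos u + tau)) (j : Gen) :
    presι k (fun s => (P k (pos (srcVtx s))).mkE (p s) (q s) (hp s) (hq s)) j =
      (P k (pos (genVtx j))).mkE (fun u => psi k (fun s => p s u) j)
        (fun u => psi k (fun s => q s u) j)
        (fun u => (Tmod k).le (pos u) ⟨_, fun s _ => hp s u, rfl⟩ j (Set.mem_univ j))
        (fun u => (Tmod k).le (pos u + tau) ⟨_, fun s _ => hq s u, rfl⟩ j (Set.mem_univ j)) := by
  simp only [presι, LinearMap.pi_apply, LinearMap.sum_apply, LinearMap.comp_apply,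
    LinearMap.proj_apply, LinearMap.toSpanSingleton_apply, srcImg]
  rw [Finset.sum_congr rfl fun s _ => toRk_smul_mkE (P k (pos (genVtx j))) (srcVtx s) (psiC k s j)
    (psiC_mem s j) (p s) (q s) (hp s) (hq s)]
  exact (GMod.sum_mkE _ _ _ _ _ _).trans (GMod.mkE_congr _
    (fun u => (psi_eq_sum (fun s => p s u) j).symm) (fun u => (psi_eq_sum (fun s => q s u) j).symm))

theorem presπ_surjective : Function.Surjective (presπ k) := by
  intro x
  obtain ⟨y, z, hy, hz, rfl⟩ := (Tmod k).exists_mkE x
  exact ⟨_, presπ_mk (fun j u => y u j) (fun j u => z u j) (fun j u => hy u j (Set.mem_univ j))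
    (fun j u => hz u j (Set.mem_univ j))⟩

theorem presι_injective : Function.Injective (presι k) := by
  refine (injective_iff_map_eq_zero _).2 fun x hx => ?_
  choose p q hp hq hpq using fun s => (P k (pos (srcVtx s))).exists_mkE (x s)
  obtain rfl : x = fun s => (P k (pos (srcVtx s))).mkE (p s) (q s) (hp s) (hq s) :=
    funext fun s => (hpq s).symm
  funext s
  have h := congrFun hx (Sum.inr (s, none))
  rw [presι_mk, Pi.zero_apply] at h
  replace h := (GMod.mkE_eq_zero _).1 h
  refine (GMod.mkE_eq_zero _).2 ⟨fun u => ?_, fun u => ?_⟩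
  · simpa [psi_none, P_base] using h.1 u
  · simpa [psi_none, P_base] using h.2 u

theorem pres_exact : Function.Exact (presι k) (presπ k) := by
  intro x
  choose p q hp hq hpq using fun j => (P k (pos (genVtx j))).exists_mkE (x j)
  obtain rfl : x = fun j => (P k (pos (genVtx j))).mkE (p j) (q j) (hp j) (hq j) :=
    funext fun j => (hpq j).symm
  constructor
  · intro h
    rw [presπ_mk] at h
    replace h := (GMod.mkE_eq_zero _).1 h
    choose f hf hpf using h.1
    choose g hg hqg using h.2
    refine ⟨fun s => (P k (pos (srcVtx s))).mkE (fun u => f u s) (fun u => g u s)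
      (fun u => hf u s (Set.mem_univ s)) (fun u => hg u s (Set.mem_univ s)), funext fun j => ?_⟩
    exact (presι_mk _ _ _ _ j).trans
      (GMod.mkE_congr _ (fun u => congrFun (hpf u) j) (fun u => congrFun (hqg u) j))
  · rintro ⟨y, hy⟩
    choose f g hf hg hfg using fun s => (P k (pos (srcVtx s))).exists_mkE (y s)
    obtain rfl : y = fun s => (P k (pos (srcVtx s))).mkE (f s) (g s) (hf s) (hg s) :=
      funext fun s => (hfg s).symm
    rw [← hy]
    refine (congrArg (presπ k) (funext (presι_mk f g hf hg))).trans ((presπ_mk _ _ _ _).trans ?_)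
    exact (GMod.mkE_eq_zero _).2 ⟨fun u => ⟨_, fun s _ => hf s u, rfl⟩, fun u => ⟨_, fun s _ => hg s u, rfl⟩⟩

theorem projective_vertices {α : Type} [Fintype α] [DecidableEq α] (f : α → Vtx) :
    Module.Projective (Rk k) (∀ a, (P k (pos (f a))).EMod) := by
  let i : (α → Rk k) →ₗ[Rk k] ∀ a, (P k (pos (f a))).EMod :=
    LinearMap.pi fun a =>
      (LinearMap.toSpanSingleton (Rk k) _ (genE k (f a))).comp (LinearMap.proj a)
  let s : (∀ a, (P k (pos (f a))).EMod) →ₗ[Rk k] (α → Rk k) :=
    LinearMap.pi fun a => (toRk k (f a)).comp (LinearMap.proj a)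
  exact Module.Projective.of_split s i
    (LinearMap.ext fun x => funext fun a => toRk_smul_genE (f a) (x a))

instance projective_SrcP : Module.Projective (Rk k) (SrcP k) := projective_vertices srcVtx

instance projective_GenP : Module.Projective (Rk k) (GenP k) := projective_vertices genVtx

/-- Extensions out of the partial tilting module vanish from degree two on. -/
theorem ev_Te_add_two (N : Type) [AddCommGroup N] [Module (Rk k) N] (i : ℕ) :
    EV (Rk k) (Te k) N (i + 2) :=
  @Corner.ev_unshift (Rk k) _ (SrcP k) (GenP k) (Te k) N (instAddCommGroupSrcP k) (instModuleSrcP k)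
    (instAddCommGroupGenP k) (instModuleGenP k) _ _ _ _ (presι k) (presπ k) presι_injective
    presπ_surjective pres_exact (projective_GenP (k := k)) i
    (evPos_of_projective (R := Rk k) (X := SrcP k) i)

/-- Maps out of the partial tilting module are determined by the generators. -/
theorem homTe_ext {N : Type} [AddCommGroup N] [Module (Rk k) N] {f g : Te k →ₗ[Rk k] N}
    (h : ∀ j, f (genT k j) = g (genT k j)) : f = g := by
  refine LinearMap.ext fun x => ?_
  obtain ⟨y, rfl⟩ := presπ_surjective x
  simp only [presπ, LinearMap.sum_apply, LinearMap.comp_apply, LinearMap.proj_apply,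
    LinearMap.toSpanSingleton_apply, map_sum, map_smul, h]

end Vale.Agent.P195.Disproof
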