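import Vale.Agent.P195.Disproof.Good
import Vale.Agent.P195.Disproof.Pres
import Vale.Agent.P195.Disproof.FF

/-!
# P195: the E-lemma for the shifted cokernel `Tmod`

The presentation `0 → ∏ P (srcVtx s - tau) → ∏ P (genVtx j - tau) → Tmod.shift tau → 0` transports
goodness from the free families.
-/

noncomputable section

namespace Vale.Agent.P195.Disproof

variable {k : Type} [Field k]

section VecMap

variable {W W' : Type} [AddCommGroup W] [Module k W] [Module (DOp k) W] [AddCommGroup W']
  [Module k W'] [Module (DOp k) W']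

/-- A map of operator modules, applied to columns. -/
def vecMap (φ : W →ₗ[DOp k] W') : Vec W →ₗ[Bk k] Vec W' where
  toFun y v := φ (y v)
  map_add' _ _ := vec_ext fun _ => map_add φ _ _
  map_smul' b y := vec_ext fun w => by
    show φ (∑ v, (b : Mat k) w v • y v) = ∑ v, (b : Mat k) w v • φ (y v)
    rw [map_sum]
    exact Finset.sum_congr rfl fun v _ => map_smul φ _ _

theorem vecMap_apply (φ : W →ₗ[DOp k] W') (y : Vec W) (v : Vtx) : vecMap φ y v = φ (y v) := rfl

end VecMap

/-- The degree of a shifted source. -/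
def srcT (s : Src) : Deg := pos (srcVtx s) - tau

/-- The degree of a shifted generator. -/
def genT' (j : Gen) : Deg := pos (genVtx j) - tau

variable (k)

/-- The free families at the shifted sources. -/
abbrev SrcR : Type := ∀ s : Src, (P k (srcT s)).Res

/-- The free families at the shifted generators. -/
abbrev GenR : Type := ∀ j : Gen, (P k (genT' j)).Res

instance instAddCommGroupSrcR : AddCommGroup (SrcR k) := Pi.addCommGroup

instance instAddCommGroupGenR : AddCommGroup (GenR k) := Pi.addCommGroup

instance instModuleSrcR : Module (Bk k) (SrcR k) := Pi.module _ _ _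

instance instModuleGenR : Module (Bk k) (GenR k) := Pi.module _ _ _

instance instSMulSrcR : SMul (Bk k) (SrcR k) := (instModuleSrcR k).toSMul

instance instSMulGenR : SMul (Bk k) (GenR k) := (instModuleGenR k).toSMul

/-- A row supported at one generator. -/
def genSingle (j : Gen) : DOp k →ₗ[DOp k] (Gen → DOp k) where
  toFun a := Pi.single j a
  map_add' a b := funext fun i => by
    rw [Pi.add_apply]
    by_cases h : i = j
    · rw [h, Pi.single_eq_same, Pi.single_eq_same, Pi.single_eq_same]
    · rw [Pi.single_eq_of_ne h, Pi.single_eq_of_ne h, Pi.single_eq_of_ne h, add_zero]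
  map_smul' a b := funext fun i => by
    rw [RingHom.id_apply, Pi.smul_apply, smul_eq_mul, smul_eq_mul]
    by_cases h : i = j
    · rw [h, Pi.single_eq_same, Pi.single_eq_same]
    · rw [Pi.single_eq_of_ne h, Pi.single_eq_of_ne h, mul_zero]

/-- A row supported at one source. -/
def srcInj (s : Src) : DOp k →ₗ[DOp k] (Src → DOp k) where
  toFun a := Pi.single s a
  map_add' a b := funext fun i => by
    rw [Pi.add_apply]
    by_cases h : i = s
    · rw [h, Pi.single_eq_same, Pi.single_eq_same, Pi.single_eq_same]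
    · rw [Pi.single_eq_of_ne h, Pi.single_eq_of_ne h, Pi.single_eq_of_ne h, add_zero]
  map_smul' a b := funext fun i => by
    rw [RingHom.id_apply, Pi.smul_apply, smul_eq_mul, smul_eq_mul]
    by_cases h : i = s
    · rw [h, Pi.single_eq_same, Pi.single_eq_same]
    · rw [Pi.single_eq_of_ne h, Pi.single_eq_of_ne h, mul_zero]

/-- The entry of a row at a generator, after the map of the presentation. -/
def psiRow (j : Gen) : (Src → DOp k) →ₗ[DOp k] DOp k where
  toFun f := psi k f j
  map_add' f g := by rw [map_add, Pi.add_apply]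
  map_smul' a f := by rw [psi_smul, Pi.smul_apply, RingHom.id_apply]

/-- The columns of an element of the free families at the generators. -/
def genVec : GenR k →ₗ[Bk k] Vec (Gen → DOp k) :=
  ∑ j : Gen, ((vecMap (k := k) (genSingle k j)).comp
    (coordL k (genT' j))).comp (LinearMap.proj j)

/-- The columns of an element of the free families at the sources. -/
def srcVec : SrcR k →ₗ[Bk k] Vec (Src → DOp k) :=
  ∑ s : Src, ((vecMap (k := k) (srcInj k s)).comp
    (coordL k (srcT s))).comp (LinearMap.proj s)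

variable {k}

omit [Field k] in
theorem vec_sum_apply {W : Type} [AddCommGroup W] {α : Type} (t : Finset α)
    (y : α → Vec W) (v : Vtx) : (∑ a ∈ t, y a) v = ∑ a ∈ t, y a v :=
  Finset.sum_apply v t _

theorem genVec_apply (w : GenR k) (v : Vtx) (j : Gen) :
    genVec k w v j = coordL k (genT' j) (w j) v := by
  simp only [genVec, LinearMap.sum_apply, LinearMap.comp_apply, LinearMap.proj_apply]
  rw [vec_sum_apply, Finset.sum_apply, Finset.sum_eq_single j]
  · exact Pi.single_eq_same (M := fun _ => DOp k) _ _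
  · intro i _ hi
    exact Pi.single_eq_of_ne (M := fun _ => DOp k) hi.symm _
  · simp

theorem srcVec_apply (w : SrcR k) (v : Vtx) (s : Src) :
    srcVec k w v s = coordL k (srcT s) (w s) v := by
  simp only [srcVec, LinearMap.sum_apply, LinearMap.comp_apply, LinearMap.proj_apply]
  rw [vec_sum_apply, Finset.sum_apply, Finset.sum_eq_single s]
  · exact Pi.single_eq_same (M := fun _ => DOp k) _ _
  · intro i _ hi
    exact Pi.single_eq_of_ne (M := fun _ => DOp k) hi.symm _
  · simp

theorem coordL_mem (e : Deg) (x : (P k e).Res) (v : Vtx) :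
    coordL k e x v ∈ Fil k (pos v - e) := by
  obtain ⟨f, hf, rfl⟩ := (P k e).exists_mkRes x
  rw [coordL_mkRes]
  exact hf v

theorem srcVec_mem (w : SrcR k) (v : Vtx) : srcVec k w v ∈ srcComp k (pos v + tau) := fun s _ => by
  show srcVec k w v s ∈ Fil k (pos v + tau - pos (srcVtx s))
  rw [srcVec_apply]
  convert coordL_mem (srcT s) (w s) v using 2
  rw [srcT]; abel_nf

theorem genVec_mem (w : GenR k) (v : Vtx) :
    genVec k w v ∈ ((Tmod k).shift tau).comp (pos v) := fun j _ => by
  show genVec k w v j ∈ Fil k (pos v + tau - pos (genVtx j))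
  rw [genVec_apply]
  convert coordL_mem (genT' j) (w j) v using 2
  rw [genT']; abel_nf

theorem psi_comp_mem {v : Deg} {f : Src → DOp k} (hf : f ∈ srcComp k (v + tau)) (j : Gen) :
    psi k f j ∈ (P k (genT' j)).comp v := by
  have h := (Tmod k).le (v + tau) ⟨f, hf, rfl⟩ j (Set.mem_univ j)
  show _ ∈ Fil k (v - genT' j)
  rwa [show v - genT' j = v + tau - pos (genVtx j) by rw [genT']; abel]

variable (k)

/-- The surjection. -/
def resπ : GenR k →ₗ[Bk k] ((Tmod k).shift tau).Res :=
  ((Tmod k).shift tau).bs.mkQ.comp ((genVec k).codRestrict _ genVec_mem)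

/-- The columns of the image at a generator of an element at the sources. -/
def imgVec (j : Gen) : SrcR k →ₗ[Bk k] Vec (DOp k) :=
  (vecMap (k := k) (W := Src → DOp k) (W' := DOp k) (psiRow k j)).comp (srcVec k)

variable {k}

theorem imgVec_apply (j : Gen) (w : SrcR k) (v : Vtx) :
    imgVec k j w v = psi k (srcVec k w v) j := rfl

theorem imgVec_mem (j : Gen) (w : SrcR k) (v : Vtx) :
    imgVec k j w v ∈ (P k (genT' j)).comp (pos v) :=
  psi_comp_mem (srcVec_mem w v) j

variable (k)

/-- The injection. -/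
def resι : SrcR k →ₗ[Bk k] GenR k :=
  LinearMap.pi fun j => (P k (genT' j)).bs.mkQ.comp
    ((imgVec k j).codRestrict _ (imgVec_mem j))

variable {k}

theorem resπ_apply (w : GenR k) :
    resπ k w = ((Tmod k).shift tau).mkRes (genVec k w) (genVec_mem w) := rfl

theorem resι_apply (w : SrcR k) (j : Gen) :
    resι k w j = (P k (genT' j)).mkRes (fun v => psi k (srcVec k w v) j)
      (fun v => psi_comp_mem (srcVec_mem w v) j) := rfl

theorem coordL_injective (e : Deg) : Function.Injective (coordL k e) := by
  refine (injective_iff_map_eq_zero _).2 fun x hx => ?_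
  obtain ⟨f, hf, rfl⟩ := (P k e).exists_mkRes x
  rw [coordL_mkRes] at hx
  exact (P k e).mkRes_eq_zero.2 fun v => congrFun hx v

theorem genVec_resι (w : SrcR k) (v : Vtx) :
    genVec k (resι k w) v = psi k (srcVec k w v) := funext fun j => by
  rw [genVec_apply, resι_apply]
  exact congrFun (coordL_mkRes (genT' j) _ _) v

theorem resι_injective : Function.Injective (resι k) := by
  refine (injective_iff_map_eq_zero _).2 fun w hw => funext fun s => coordL_injective _ ?_
  rw [Pi.zero_apply, map_zero]
  refine vec_ext fun v => ?_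
  have h := congrArg (fun z : GenR k => genVec k z v (Sum.inr (s, none))) hw
  simp only [genVec_resι, psi_none, srcVec_apply, map_zero] at h
  exact h

theorem resπ_surjective : Function.Surjective (resπ k) := by
  intro x
  obtain ⟨y, hy, rfl⟩ := ((Tmod k).shift tau).exists_mkRes x
  refine ⟨fun j => (P k (genT' j)).mkRes (fun v => y v j) fun v => ?_, ?_⟩
  · have h := hy v j (Set.mem_univ j)
    show _ ∈ Fil k (pos v - genT' j)
    rwa [show pos v - genT' j = pos v + tau - pos (genVtx j) by rw [genT']; abel]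
  · rw [resπ_apply]
    refine congrArg Submodule.Quotient.mk (Subtype.ext (vec_ext fun v => funext fun j => ?_))
    exact (genVec_apply _ v j).trans (congrFun (coordL_mkRes _ _ _) v)

theorem res_exact : Function.Exact (resι k) (resπ k) := by
  intro w
  rw [resπ_apply, GMod.mkRes_eq_zero]
  constructor
  · intro h
    choose f hf he using h
    refine ⟨fun s => (P k (srcT s)).mkRes (fun v => f v s) fun v => ?_, funext fun j => ?_⟩
    · have h := hf v s (Set.mem_univ s)
      show _ ∈ Fil k (pos v - srcT s)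
      rwa [show pos v - srcT s = pos v + tau - pos (srcVtx s) by rw [srcT]; abel]
    · refine coordL_injective _ (vec_ext fun v => ?_)
      rw [resι_apply]
      refine (congrFun (coordL_mkRes (genT' j) _ _) v).trans ?_
      rw [← genVec_apply w v j, ← he v]
      refine congrArg (fun g => psi k g j) (funext fun s => ?_)
      exact (srcVec_apply _ v s).trans (congrFun (coordL_mkRes (srcT s) _ _) v)
  · rintro ⟨u, rfl⟩ v
    exact ⟨srcVec k u v, srcVec_mem u v, (genVec_resι u v).symm⟩

theorem coordL_ev (e e' : Deg) (a : DOp k) (ha : a ∈ (P k e').comp e) (x : (P k e).Res) (v : Vtx) :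
    coordL k e' (ev (P k e') e a ha x) v = coordL k e x v * a :=
  coord_ev e e' a ha x v

theorem mem_genT_comp {e : Deg} {y : Gen → DOp k} (hy : y ∈ ((Tmod k).shift tau).comp e)
    (j : Gen) : y j ∈ (P k (genT' j)).comp e := by
  have h : y j ∈ Fil k (e + tau - pos (genVtx j)) := hy j (Set.mem_univ j)
  show y j ∈ Fil k (e - genT' j)
  rwa [show e - genT' j = e + tau - pos (genVtx j) by rw [genT']; abel]

/-- The vectors of maps out of a free family given by a row. -/
def genEv {e : Deg} (y : Gen → DOp k) (hy : y ∈ ((Tmod k).shift tau).comp e) :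
    (P k e).Res →ₗ[Bk k] GenR k :=
  LinearMap.pi fun j => ev (P k (genT' j)) e (y j) (mem_genT_comp hy j)

theorem genEv_apply {e : Deg} (y : Gen → DOp k) (hy : y ∈ ((Tmod k).shift tau).comp e)
    (x : (P k e).Res) (j : Gen) :
    genEv y hy x j = ev (P k (genT' j)) e (y j) (mem_genT_comp hy j) x := rfl

theorem coordL_genEv {e : Deg} (y : Gen → DOp k) (hy : y ∈ ((Tmod k).shift tau).comp e)
    (x : (P k e).Res) (j : Gen) (v : Vtx) :
    coordL k (genT' j) (genEv y hy x j) v = coordL k e x v * y j :=
  (congrArg (fun w => coordL k (genT' j) w v) (genEv_apply y hy x j)).trans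
    (coordL_ev e (genT' j) (y j) (mem_genT_comp hy j) x v)

theorem resπ_genEv {e : Deg} (y : Gen → DOp k) (hy : y ∈ ((Tmod k).shift tau).comp e)
    (x : (P k e).Res) : resπ k (genEv y hy x) = ev ((Tmod k).shift tau) e y hy x := by
  obtain ⟨f, hf, rfl⟩ := (P k e).exists_mkRes x
  rw [resπ_apply, ev_mkRes]
  refine congrArg Submodule.Quotient.mk (Subtype.ext (vec_ext fun v => funext fun j => ?_))
  refine (genVec_apply _ v j).trans ((coordL_genEv y hy _ j v).trans ?_)
  exact congrArg (· * y j) (congrFun (coordL_mkRes e f hf) v)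

theorem surj_Tmod_shift {e : Deg} (hgen : ∀ j, Good (P k (genT' j)) e)
    (hS : EV (Bk k) (P k e).Res (SrcR k) 1)
    (f : (P k e).Res →ₗ[Bk k] ((Tmod k).shift tau).Res) :
    ∃ y, ∃ hy : y ∈ ((Tmod k).shift tau).comp e, ev ((Tmod k).shift tau) e y hy = f := by
  obtain ⟨g, rfl⟩ := FF.ev_lift (R := Bk k) (K := SrcR k) (P := GenR k)
    (X := ((Tmod k).shift tau).Res) (W := (P k e).Res) (ι := resι k) (π := resπ k)
    resι_injective resπ_surjective res_exact hS f
  choose y hy hg using fun j => (hgen j).surj ((LinearMap.proj j).comp g)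
  have hy' : y ∈ ((Tmod k).shift tau).comp e := fun j _ => by
    show y j ∈ Fil k (e + tau - pos (genVtx j))
    rw [show e + tau - pos (genVtx j) = e - genT' j by rw [genT']; abel]
    exact hy j
  refine ⟨y, hy', LinearMap.ext fun x => ?_⟩
  rw [← resπ_genEv y hy' x, LinearMap.comp_apply]
  exact congrArg (resπ k) (funext fun j => LinearMap.congr_fun (hg j) x)

theorem exists_lift_range {e : Deg} (G : (P k e).Res →ₗ[Bk k] GenR k)
    (hG : ∀ x, G x ∈ LinearMap.range (resι k)) :
    ∃ g : (P k e).Res →ₗ[Bk k] SrcR k, ∀ x, resι k (g x) = G x := by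
  choose g hg using hG
  refine ⟨⟨⟨g, fun a b => resι_injective (by rw [hg, map_add, map_add, hg, hg])⟩,
    fun b a => resι_injective ?_⟩, hg⟩
  show resι k (g (b • a)) = resι k (b • g a)
  rw [hg, map_smul, map_smul, hg]

theorem srcVec_comp_apply {e : Deg} (g : (P k e).Res →ₗ[Bk k] SrcR k) (z : Src → DOp k)
    (hz : ∀ s, z s ∈ (P k (srcT s)).comp e)
    (hgz : ∀ s, ev (P k (srcT s)) e (z s) (hz s) = (LinearMap.proj s).comp g)
    (x : (P k e).Res) (v : Vtx) (s : Src) :
    srcVec k (g x) v s = coordL k e x v * z s := by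
  rw [srcVec_apply]
  refine Eq.trans ?_ (coordL_ev e (srcT s) (z s) (hz s) x v)
  exact congrArg (fun w => coordL k (srcT s) w v) (LinearMap.congr_fun (hgz s) x).symm

theorem psi_mul (a : DOp k) (z f : Src → DOp k) (hf : ∀ s, f s = a * z s) (j : Gen) :
    psi k f j = a * psi k z j := by
  rw [show f = a • z from funext hf, psi_smul]
  rfl

theorem coordL_resι (w : SrcR k) (j : Gen) (v : Vtx) :
    coordL k (genT' j) (resι k w j) v = psi k (srcVec k w v) j := by
  rw [resι_apply]
  exact congrFun (coordL_mkRes (genT' j) _ _) v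

theorem ev_psi_sub {e : Deg} (g : (P k e).Res →ₗ[Bk k] SrcR k) (z : Src → DOp k)
    (hz : ∀ s, z s ∈ (P k (srcT s)).comp e)
    (hgz : ∀ s, ev (P k (srcT s)) e (z s) (hz s) = (LinearMap.proj s).comp g)
    (y : Gen → DOp k) (hy : y ∈ ((Tmod k).shift tau).comp e)
    (hg : ∀ x, resι k (g x) = genEv y hy x) (j : Gen)
    (hd : psi k z j - y j ∈ (P k (genT' j)).comp e) :
    ev (P k (genT' j)) e (psi k z j - y j) hd = 0 := by
  refine LinearMap.ext fun x => coordL_injective _ (vec_ext fun v => ?_)
  have h2 : (coordL k e x v : DOp k) * psi k z j = coordL k e x v * y j :=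
    ((psi_mul _ z _ (srcVec_comp_apply g z hz hgz x v) j).symm.trans
      (coordL_resι (g x) j v).symm).trans
      ((congrArg (fun w : GenR k => coordL k (genT' j) (w j) v) (hg x)).trans
        (coordL_genEv y hy x j v))
  rw [LinearMap.zero_apply, map_zero, vec_zero_apply, coordL_ev]
  exact (mul_sub (coordL k e x v : DOp k) _ _).trans (sub_eq_zero.2 h2)

theorem Fil_sub_mem {d : Deg} {a b : DOp k} (ha : a ∈ Fil k d) (hb : b ∈ Fil k d) :
    a - b ∈ Fil k d := by
  have h : a - b = a + (-1 : k) • b := LinearMap.ext fun z => by simp [sub_eq_add_neg]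
  rw [h]
  exact Submodule.add_mem _ ha ((Fil k d).smul_mem _ hb)

theorem psi_eq_of_good {e : Deg} {j : Gen} (hgen : Good (P k (genT' j)) e) (a b : DOp k)
    (ha : a ∈ Fil k (e - genT' j)) (hb : b ∈ Fil k (e - genT' j))
    (h : ∀ hd : a - b ∈ (P k (genT' j)).comp e, ev (P k (genT' j)) e (a - b) hd = 0) : a = b := by
  have hd : a - b ∈ (P k (genT' j)).comp e := Fil_sub_mem ha hb
  exact sub_eq_zero.1 ((Submodule.mem_bot k).1 (hgen.inj (a - b) hd (h hd)))

theorem inj_Tmod_shift {e : Deg} (hgen : ∀ j, Good (P k (genT' j)) e)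
    (hsrc : ∀ s, Good (P k (srcT s)) e) (y : Gen → DOp k)
    (hy : y ∈ ((Tmod k).shift tau).comp e) (h0 : ev ((Tmod k).shift tau) e y hy = 0) :
    y ∈ ((Tmod k).shift tau).base e := by
  obtain ⟨g, hg⟩ := exists_lift_range (genEv y hy) fun x =>
    (res_exact (genEv y hy x)).1 ((resπ_genEv y hy x).trans (LinearMap.congr_fun h0 x))
  choose z hz hgz using fun s => (hsrc s).surj ((LinearMap.proj s).comp g)
  have hz' : z ∈ srcComp k (e + tau) := fun s _ => by
    show z s ∈ Fil k (e + tau - pos (srcVtx s))
    rw [show e + tau - pos (srcVtx s) = e - srcT s by rw [srcT]; abel]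
    exact hz s
  refine ⟨z, hz', funext fun j => ?_⟩
  exact psi_eq_of_good (hgen j) (psi k z j) (y j) (psi_comp_mem hz' j) (mem_genT_comp hy j)
    fun hd => ev_psi_sub g z hz hgz y hy hg j hd

/-- The shifted cokernel is good wherever the free families at sources and generators are. -/
theorem good_Tmod_shift_of {e : Deg} (hgen : ∀ j, Good (P k (genT' j)) e)
    (hsrc : ∀ s, Good (P k (srcT s)) e) : Good ((Tmod k).shift tau) e :=
  have hS : ∀ n, EV (Bk k) (P k e).Res (SrcR k) (n + 1) := fun n =>
    ev_pi_right fun s => (hsrc s).ext n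
  have hG : ∀ n, EV (Bk k) (P k e).Res (GenR k) (n + 1) := fun n =>
    ev_pi_right fun j => (hgen j).ext n
  ⟨fun n => FF.ev_cov₃ (R := Bk k) (K := SrcR k) (P := GenR k)
      (X := ((Tmod k).shift tau).Res) (W := (P k e).Res) (ι := resι k) (π := resπ k)
      resι_injective resπ_surjective res_exact (n + 1) (hG n) (hS (n + 1)),
    surj_Tmod_shift hgen (hS 0), inj_Tmod_shift hgen hsrc⟩

variable [CharZero k]

/-- **E-lemma, shifted cokernel.** -/
theorem good_Tmod_shift {e : Deg} (h1 : -1 ≤ e.1) (h1' : e.1 ≤ 2) (h2 : -3 ≤ e.2)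
    (h2' : e.2 ≤ 3) : Good ((Tmod k).shift tau) e := by
  refine good_Tmod_shift_of (fun j => ?_) fun s => ?_
  · obtain ⟨b, hb⟩ : ∃ v : Vtx, genVtx j = v := ⟨_, rfl⟩
    refine good_P h1' h2' ?_ ?_ ?_ ?_ <;>
      simp only [genT', hb, pos, tau, Prod.fst_sub, Prod.snd_sub] <;>
      (have := b.1.isLt; have := b.2.isLt; omega)
  · refine good_P h1' h2' ?_ ?_ ?_ ?_ <;>
      simp only [srcT, pos, tau, Prod.fst_sub, Prod.snd_sub] <;>
      (have := (srcVtx s).1.isLt; have := (srcVtx s).2.isLt; omega)

/-- The hypothesis of the vanishing theorem for the cokernel. -/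
theorem good_Tmod_shift_col (v : Vtx) : Good ((Tmod k).shift tau) (pos v - tau) := by
  refine good_Tmod_shift ?_ ?_ ?_ ?_ <;>
    simp only [pos, tau, Prod.fst_sub, Prod.snd_sub] <;>
    (have := v.1.isLt; have := v.2.isLt; omega)

end Vale.Agent.P195.Disproof
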