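import Vale.Agent.P195.Homol

/-!
# P195: vanishing of extensions along finite resolutions and coresolutions

If `Z` has a finite resolution by modules without higher extensions into `Y` whose complex of
homomorphisms into `Y` is exact, then `Z` has no higher extensions into `Y`; dually for finite
coresolutions of `Y`.
-/

universe u

open CategoryTheory CategoryTheory.Abelian

namespace Vale.Agent.P195.Disproof

variable (R : Type u) [Ring R]

/-- All extension groups of positive degree vanish. -/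
def EVPos (X Y : Type u) [AddCommGroup X] [Module R X] [AddCommGroup Y] [Module R Y] : Prop :=
  ∀ i : ℕ, EV R X Y (i + 1)

variable {R}

section Basic

variable {X Y : Type u} [AddCommGroup X] [Module R X] [AddCommGroup Y] [Module R Y]

theorem evPos_of_projective [Module.Projective R X] : EVPos R X Y := fun i => by
  have : Projective (ModuleCat.of R X) := (IsProjective.iff_projective X).1 inferInstance
  exact subsingleton_of_forall_eq 0 fun x => Ext.eq_zero_of_projective x

theorem ev_zero_iff : EV R X Y 0 ↔ ∀ f : X →ₗ[R] Y, f = 0 := by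
  refine ⟨fun h f => ?_, fun h => subsingleton_of_forall_eq 0 fun x => ?_⟩
  · have h1 := (Ext.mk₀_bijective (ModuleCat.of R X) (ModuleCat.of R Y)).1
      (h.elim (Ext.mk₀ (ModuleCat.ofHom f)) (Ext.mk₀ (ModuleCat.ofHom (0 : X →ₗ[R] Y))))
    exact congrArg ModuleCat.Hom.hom h1
  · obtain ⟨f, rfl⟩ := (Ext.mk₀_bijective _ _).2 x
    rw [show f = 0 from ModuleCat.hom_ext (h f.hom), Ext.mk₀_zero]

/-- Extensions out of a module in which the identity factors through modules without them. -/
theorem ev_of_sum {κ : Type*} [Fintype κ] {W : κ → Type u} [∀ j, AddCommGroup (W j)]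
    [∀ j, Module R (W j)] (a : ∀ j, W j →ₗ[R] X) (b : ∀ j, X →ₗ[R] W j)
    (hid : ∀ x, ∑ j, a j (b j x) = x) {i : ℕ} (h : ∀ j, EV R (W j) Y i) : EV R X Y i := by
  refine subsingleton_of_forall_eq 0 fun x => ?_
  let Φ : (X →ₗ[R] X) →+ Ext (ModuleCat.of R X) (ModuleCat.of R Y) i :=
    AddMonoidHom.mk' (fun g => (Ext.mk₀ (ModuleCat.ofHom g)).comp x (zero_add i)) fun g g' => by
      rw [← Ext.add_comp, ← Ext.mk₀_add]; rfl
  have hΦ : Φ LinearMap.id = x := Ext.mk₀_id_comp x
  have key : (LinearMap.id : X →ₗ[R] X) = ∑ j, (a j).comp (b j) := by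
    ext y
    simp [LinearMap.sum_apply, hid]
  rw [← hΦ, key, map_sum]
  refine Finset.sum_eq_zero fun j _ => ?_
  show (Ext.mk₀ (ModuleCat.ofHom (b j) ≫ ModuleCat.ofHom (a j))).comp x (zero_add i) = 0
  rw [← Ext.mk₀_comp_mk₀, Ext.comp_assoc_of_second_deg_zero]
  have h0 : (Ext.mk₀ (ModuleCat.ofHom (a j))).comp x (zero_add i) = 0 := (h j).elim _ _
  rw [h0, Ext.comp_zero]

theorem ev_pi {κ : Type} [Fintype κ] {W : κ → Type u} [∀ j, AddCommGroup (W j)]
    [∀ j, Module R (W j)] {i : ℕ} (h : ∀ j, EV R (W j) Y i) : EV R (∀ j, W j) Y i := by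
  classical
  exact ev_of_sum (fun j => LinearMap.single R W j) (fun j => LinearMap.proj j)
    (fun x => Finset.univ_sum_single x) h

theorem evPos_pi {κ : Type} [Fintype κ] {W : κ → Type u} [∀ j, AddCommGroup (W j)]
    [∀ j, Module R (W j)] (h : ∀ j, EVPos R (W j) Y) : EVPos R (∀ j, W j) Y :=
  fun i => ev_pi fun j => h j i

theorem ev_of_retract {W : Type u} [AddCommGroup W] [Module R W] (a : W →ₗ[R] X) (b : X →ₗ[R] W)
    (hid : ∀ x, a (b x) = x) {i : ℕ} (h : EV R W Y i) : EV R X Y i :=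
  ev_of_sum (κ := Fin 1) (W := fun _ => W) (fun _ => a) (fun _ => b) (fun x => by simp [hid])
    fun _ => h

theorem ev_congr {W : Type u} [AddCommGroup W] [Module R W] (e : X ≃ₗ[R] W) {i : ℕ}
    (h : EV R W Y i) : EV R X Y i :=
  ev_of_retract e.symm.toLinearMap e.toLinearMap e.symm_apply_apply h

theorem ev_of_subsingleton [Subsingleton X] (i : ℕ) : EV R X Y i :=
  ev_of_sum (κ := Fin 0) (W := fun _ => X) (fun _ => LinearMap.id) (fun _ => LinearMap.id)
    (fun _ => Subsingleton.elim _ _) fun j => j.elim0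

end Basic

section Short

variable {K X Z Y : Type u} [AddCommGroup K] [Module R K] [AddCommGroup X] [Module R X]
  [AddCommGroup Z] [Module R Z] [AddCommGroup Y] [Module R Y] {ι : K →ₗ[R] X} {π : X →ₗ[R] Z}
  (hι : Function.Injective ι) (hπ : Function.Surjective π) (hex : Function.Exact ι π)

include hι hπ hex

theorem ev_quot (i : ℕ) (h₁ : EV R K Y i) (h₂ : EV R X Y (i + 1)) : EV R Z Y (i + 1) := by
  refine subsingleton_of_forall_eq 0 fun x => ?_
  obtain ⟨y, hy⟩ := Ext.contravariant_sequence_exact₃ (ses hι hπ hex) (ModuleCat.of R Y) x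
    (h₂.elim _ _) (n₀ := i) (by omega)
  have hy0 : y = 0 := h₁.elim _ _
  rw [← hy, hy0, Ext.comp_zero]

theorem ev_quot_one (h : ∀ f : K →ₗ[R] Y, ∃ F : X →ₗ[R] Y, F.comp ι = f) (h₂ : EV R X Y 1) :
    EV R Z Y 1 := by
  refine subsingleton_of_forall_eq 0 fun x => ?_
  obtain ⟨y, hy⟩ := Ext.contravariant_sequence_exact₃ (ses hι hπ hex) (ModuleCat.of R Y) x
    (h₂.elim _ _) (n₀ := 0) (by omega)
  obtain ⟨f, rfl⟩ := (Ext.mk₀_bijective _ _).2 y
  obtain ⟨F, hF⟩ := h f.hom
  have hf : f = (ModuleCat.shortComplexOfCompEqZero ι π hex.linearMap_comp_eq_zero).f ≫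
      ModuleCat.ofHom F := ModuleCat.hom_ext hF.symm
  rw [← hy, hf, ← Ext.mk₀_comp_mk₀, ← Ext.comp_assoc_of_second_deg_zero,
    (ses hι hπ hex).extClass_comp, Ext.zero_comp]

theorem ev_cov_one {W : Type u} [AddCommGroup W] [Module R W]
    (h : ∀ f : W →ₗ[R] Z, ∃ F : W →ₗ[R] X, π.comp F = f) (h₂ : EV R W X 1) : EV R W K 1 := by
  refine subsingleton_of_forall_eq 0 fun x => ?_
  obtain ⟨y, hy⟩ := Ext.covariant_sequence_exact₁ (ModuleCat.of R W) (ses hι hπ hex) x
    (h₂.elim _ _) (n₀ := 0) rfl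
  obtain ⟨f, rfl⟩ := (Ext.mk₀_bijective _ _).2 y
  obtain ⟨F, hF⟩ := h f.hom
  have hf : f = ModuleCat.ofHom F ≫
      (ModuleCat.shortComplexOfCompEqZero ι π hex.linearMap_comp_eq_zero).g :=
    ModuleCat.hom_ext hF.symm
  rw [← hy, hf, ← Ext.mk₀_comp_mk₀, Ext.comp_assoc_of_second_deg_zero,
    (ses hι hπ hex).comp_extClass, Ext.comp_zero]

end Short

/-- **Resolutions**: a finite resolution by modules without higher extensions into `Y`, with exact
complex of homomorphisms into `Y`. -/
theorem evPos_of_resolution {Y : Type u} [AddCommGroup Y] [Module R Y] :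
    ∀ (m : ℕ) {Z : Type u} [AddCommGroup Z] [Module R Z] (X : ℕ → Type u) [∀ i, AddCommGroup (X i)]
      [∀ i, Module R (X i)] (d : ∀ i, X (i + 1) →ₗ[R] X i) (ε : X 0 →ₗ[R] Z),
      Function.Surjective ε → Function.Exact (d 0) ε →
      (∀ i, Function.Exact (d (i + 1)) (d i)) → (∀ i, m < i → Subsingleton (X i)) →
      (∀ i, EVPos R (X i) Y) →
      (∀ i (f : X (i + 1) →ₗ[R] Y), f.comp (d (i + 1)) = 0 →
        ∃ g : X i →ₗ[R] Y, g.comp (d i) = f) →
      EVPos R Z Y := by
  intro m
  induction m with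
  | zero =>
    intro Z _ _ X _ _ d ε hε h0 _ hsub hX _ i
    have hs : Subsingleton (LinearMap.ker ε) := by
      refine ⟨fun a b => Subtype.ext ?_⟩
      have : ∀ c : LinearMap.ker ε, (c : X 0) = 0 := fun c => by
        obtain ⟨y, hy⟩ := (h0 c.1).1 c.2
        have := hsub 1 Nat.one_pos
        rw [← hy, Subsingleton.elim y 0, map_zero]
      rw [this a, this b]
    exact ev_quot (Submodule.injective_subtype _) hε (LinearMap.exact_subtype_ker_map ε) i
      (ev_of_subsingleton i) (hX 0 i)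
  | succ m ih =>
    intro Z _ _ X _ _ d ε hε h0 hd hsub hX hHom i
    let ε' : X 1 →ₗ[R] LinearMap.ker ε := (d 0).codRestrict _ fun y => (h0 _).2 ⟨y, rfl⟩
    have hε' : Function.Surjective ε' := fun c => by
      obtain ⟨y, hy⟩ := (h0 c.1).1 c.2
      exact ⟨y, Subtype.ext hy⟩
    have hex' : Function.Exact (d 1) ε' := fun y => by
      rw [← hd 0 y]
      exact ⟨fun h => congrArg Subtype.val h, fun h => Subtype.ext h⟩
    have hK : EVPos R (LinearMap.ker ε) Y :=
      ih (fun i => X (i + 1)) (fun i => d (i + 1)) ε' hε' hex' (fun i => hd (i + 1))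
        (fun i hi => hsub (i + 1) (Nat.succ_lt_succ hi)) (fun i => hX (i + 1))
        fun i f hf => hHom (i + 1) f hf
    cases i with
    | zero =>
      refine ev_quot_one (Submodule.injective_subtype _) hε (LinearMap.exact_subtype_ker_map ε)
        (fun f => ?_) (hX 0 0)
      have hf : (f.comp ε').comp (d 1) = 0 := by
        rw [LinearMap.comp_assoc, hex'.linearMap_comp_eq_zero, LinearMap.comp_zero]
      obtain ⟨g, hg⟩ := hHom 0 _ hf
      refine ⟨g, LinearMap.ext fun c => ?_⟩
      obtain ⟨y, rfl⟩ := hε' c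
      exact LinearMap.congr_fun hg y
    | succ i =>
      exact ev_quot (Submodule.injective_subtype _) hε (LinearMap.exact_subtype_ker_map ε) (i + 1)
        (hK i) (hX 0 (i + 1))

/-- Homomorphisms out of a quotient vanish when those of the first two terms detect them. -/
theorem ev_zero_of_resolution {X₁ X₀ Z Y : Type u} [AddCommGroup X₁] [Module R X₁]
    [AddCommGroup X₀] [Module R X₀] [AddCommGroup Z] [Module R Z] [AddCommGroup Y] [Module R Y]
    (d : X₁ →ₗ[R] X₀) {ε : X₀ →ₗ[R] Z} (hε : Function.Surjective ε) (hex : Function.Exact d ε)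
    (h : ∀ g : X₀ →ₗ[R] Y, g.comp d = 0 → g = 0) : EV R Z Y 0 := by
  refine ev_zero_iff.2 fun f => LinearMap.ext fun z => ?_
  obtain ⟨x, rfl⟩ := hε z
  have h1 := h (f.comp ε) (by
    rw [LinearMap.comp_assoc, hex.linearMap_comp_eq_zero, LinearMap.comp_zero])
  exact LinearMap.congr_fun h1 x

/-- **Coresolutions**: a finite coresolution of `Y` by modules without higher extensions from `Z`,
with exact complex of homomorphisms from `Z`. -/
theorem evPos_of_coresolution {Z : Type u} [AddCommGroup Z] [Module R Z] :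
    ∀ (m : ℕ) {Y : Type u} [AddCommGroup Y] [Module R Y] (X : ℕ → Type u) [∀ i, AddCommGroup (X i)]
      [∀ i, Module R (X i)] (d : ∀ i, X i →ₗ[R] X (i + 1)) (ι : Y →ₗ[R] X 0),
      Function.Injective ι → Function.Exact ι (d 0) →
      (∀ i, Function.Exact (d i) (d (i + 1))) → (∀ i, m < i → Subsingleton (X i)) →
      (∀ i, EVPos R Z (X i)) →
      (∀ i (f : Z →ₗ[R] X (i + 1)), (d (i + 1)).comp f = 0 →
        ∃ g : Z →ₗ[R] X i, (d i).comp g = f) →
      EVPos R Z Y := by
  intro m
  induction m with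
  | zero =>
    intro Y _ _ X _ _ d ι hι h0 _ hsub hX _ i
    have hs : ∀ y : X 0, y ∈ LinearMap.range ι := fun y => by
      have := hsub 1 Nat.one_pos
      exact (h0 y).1 (Subsingleton.elim _ _)
    have h : EV R Z (X 0) (i + 1) := hX 0 i
    refine subsingleton_of_forall_eq 0 fun x => ?_
    let e : Y ≃ₗ[R] X 0 := LinearEquiv.ofBijective ι ⟨hι, hs⟩
    have hx : x.comp (Ext.mk₀ (ModuleCat.ofHom e.toLinearMap)) (add_zero (i + 1)) = 0 := h.elim _ _
    have h2 : x = (x.comp (Ext.mk₀ (ModuleCat.ofHom e.toLinearMap)) (add_zero (i + 1))).comp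
        (Ext.mk₀ (ModuleCat.ofHom e.symm.toLinearMap)) (add_zero (i + 1)) := by
      rw [Ext.comp_assoc_of_second_deg_zero, Ext.mk₀_comp_mk₀]
      have : ModuleCat.ofHom e.toLinearMap ≫ ModuleCat.ofHom e.symm.toLinearMap =
          𝟙 (ModuleCat.of R Y) := ModuleCat.hom_ext (LinearMap.ext fun y => e.symm_apply_apply y)
      rw [this, Ext.comp_mk₀_id]
    rw [h2, hx, Ext.zero_comp]
  | succ m ih =>
    intro Y _ _ X _ _ d ι hι h0 hd hsub hX hHom i
    let ι' : LinearMap.range (d 0) →ₗ[R] X 1 := (LinearMap.range (d 0)).subtype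
    have hex' : Function.Exact ι' (d 1) := fun y => by
      rw [hd 0 y]
      exact ⟨fun h => ⟨⟨y, h⟩, rfl⟩, fun ⟨c, hc⟩ => hc ▸ c.2⟩
    have hC : EVPos R Z (LinearMap.range (d 0)) :=
      ih (fun i => X (i + 1)) (fun i => d (i + 1)) ι' (Submodule.injective_subtype _) hex'
        (fun i => hd (i + 1)) (fun i hi => hsub (i + 1) (Nat.succ_lt_succ hi))
        (fun i => hX (i + 1)) fun i f hf => hHom (i + 1) f hf
    have hsur : Function.Surjective (d 0).rangeRestrict := (d 0).surjective_rangeRestrict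
    have hexY : Function.Exact ι (d 0).rangeRestrict := fun y => by
      rw [← h0 y]
      exact ⟨fun h => congrArg Subtype.val h, fun h => Subtype.ext h⟩
    cases i with
    | zero =>
      refine ev_cov_one hι hsur hexY (fun f => ?_) (hX 0 0)
      have hf : (d 1).comp (ι'.comp f) = 0 := by
        rw [← LinearMap.comp_assoc, hex'.linearMap_comp_eq_zero, LinearMap.zero_comp]
      obtain ⟨g, hg⟩ := hHom 0 _ hf
      exact ⟨g, LinearMap.ext fun z => Subtype.ext (LinearMap.congr_fun hg z)⟩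
    | succ i => exact ev_cov hι hsur hexY (i + 1) (hC i) (hX 0 (i + 1))

end Vale.Agent.P195.Disproof
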