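import Vale.Agent.P195.Disproof.Mods
import Vale.Agent.P195.Disproof.LongShift

/-!
# P195: the projective modules at the vertices

For a vertex `v` the free families generated at `pos v` give the columns of the two algebras: they
are projective and cyclic, and maps out of them are evaluations at the generators.
-/

noncomputable section

namespace Vale.Agent.P195.Disproof

open TrivSqZeroExt (fst snd inl inr)

variable {k : Type} [Field k] {W : Type} [AddCommGroup W] [Module k W] [Module (DOp k) W]

/-- A column supported at one vertex. -/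
def sgl (v : Vtx) (w : W) : Vec W := fun u => if u = v then w else 0

theorem sgl_self (v : Vtx) (w : W) : sgl v w v = w := if_pos rfl

theorem sgl_ne {u v : Vtx} (h : u ≠ v) (w : W) : sgl v w u = 0 := if_neg h

theorem mat_smul_sgl (M : Mat k) (v : Vtx) (w : W) (u : Vtx) :
    (M • sgl v w) u = M u v • w := by
  rw [vec_smul_apply, Finset.sum_eq_single v]
  · rw [sgl_self]
  · intro u' _ h
    rw [sgl_ne h, smul_zero]
  · simp

theorem GMod.sgl_mem (Y : GMod k W) {v : Vtx} {w : W} {δ : Deg} (hw : w ∈ Y.comp (pos v + δ))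
    (u : Vtx) : sgl v w u ∈ Y.comp (pos u + δ) := by
  by_cases h : u = v
  · subst h
    rwa [sgl_self]
  · rw [sgl_ne h]
    exact zero_mem _

theorem GMod.sgl_mem₀ (Y : GMod k W) {v : Vtx} {w : W} (hw : w ∈ Y.comp (pos v)) (u : Vtx) :
    sgl v w u ∈ Y.comp (pos u) := by
  simpa using Y.sgl_mem (δ := 0) (by simpa using hw) u

theorem mat_smul_vec_zero (M : Mat k) : M • (0 : Vec W) = 0 :=
  vec_ext fun u => by simp [vec_smul_apply, vec_zero_apply]

theorem one_mem_P_comp (e : Deg) : (1 : DOp k) ∈ (P k e).comp e :=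
  one_mem_Fil (by simp) (by simp)

variable (k) in
/-- The matrix with a single column. -/
def colMat (v : Vtx) : Vec (DOp k) →+ Mat k where
  toFun f := Matrix.of fun w u => if u = v then f w else 0
  map_zero' := by
    ext w u : 2
    simp [vec_zero_apply]
  map_add' f g := by
    ext w u : 2
    by_cases h : u = v <;> simp [h, vec_add_apply]

theorem colMat_apply (v : Vtx) (f : Vec (DOp k)) (w u : Vtx) :
    colMat k v f w u = if u = v then f w else 0 := rfl

theorem colMat_smul (v : Vtx) (M : Mat k) (f : Vec (DOp k)) :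
    colMat k v (M • f) = M * colMat k v f := by
  refine Matrix.ext fun w u => ?_
  rw [colMat_apply, Matrix.mul_apply]
  by_cases h : u = v
  · rw [if_pos h, vec_smul_apply]
    exact Finset.sum_congr rfl fun x _ => by rw [colMat_apply, if_pos h, smul_eq_mul]
  · rw [if_neg h, Finset.sum_eq_zero fun x _ => by rw [colMat_apply, if_neg h, mul_zero]]

theorem colMat_mem {v : Vtx} {δ : Deg} {f : Vec (DOp k)}
    (hf : ∀ w, f w ∈ Fil k (pos w + δ - pos v)) : colMat k v f ∈ matFil k δ := fun w u => by
  rw [colMat_apply]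
  by_cases h : u = v
  · subst h
    rw [if_pos rfl, show pos w - pos u + δ = pos w + δ - pos u by abel]
    exact hf w
  · rw [if_neg h]
    exact zero_mem _

theorem colMat_sgl (v : Vtx) (g : Vec W) (f : Vec (DOp k)) (u : Vtx) :
    (colMat k v f • g) u = f u • g v := by
  rw [vec_smul_apply, Finset.sum_eq_single v]
  · rw [colMat_apply, if_pos rfl]
  · intro x _ h
    rw [colMat_apply, if_neg h, zero_smul]
  · simp

theorem vec_smul_one_sgl (v : Vtx) (f : Vec (DOp k)) : colMat k v f • sgl v (1 : DOp k) = f :=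
  vec_ext fun u => by rw [colMat_sgl, sgl_self, smul_eq_mul, mul_one]

/-! ### The columns of `Bk k` -/

variable (k) in
/-- The generator of the free family at a vertex. -/
def genRes (v : Vtx) : (P k (pos v)).Res :=
  (P k (pos v)).mkRes (sgl v 1) ((P k (pos v)).sgl_mem₀ (one_mem_P_comp _))

/-- An element of the free family as an element of the algebra, before passing to the quotient. -/
def toBkCm (k : Type) [Field k] (v : Vtx) : (P k (pos v)).cm →ₗ[Bk k] Bk k where
  toFun f := ⟨colMat k v (f : Vec (DOp k)), colMat_mem (δ := 0) fun w => by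
    rw [add_zero]
    exact f.2 w⟩
  map_add' f g := Subtype.ext (map_add (colMat k v) _ _)
  map_smul' b f := Subtype.ext (colMat_smul v (b : Mat k) _)

/-- An element of the free family as an element of the algebra. -/
def toBk (k : Type) [Field k] (v : Vtx) : (P k (pos v)).Res →ₗ[Bk k] Bk k :=
  (P k (pos v)).bs.liftQ (toBkCm k v) fun f hf => Subtype.ext <| by
    have h : (f : Vec (DOp k)) = 0 := vec_ext fun w => hf w
    show colMat k v (f : Vec (DOp k)) = 0
    rw [h, map_zero]

theorem toBk_mk (v : Vtx) (f : (P k (pos v)).cm) :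
    (toBk k v (Submodule.Quotient.mk f) : Mat k) = colMat k v (f : Vec (DOp k)) := rfl

theorem toBk_smul_genRes (v : Vtx) (x : (P k (pos v)).Res) : toBk k v x • genRes k v = x := by
  obtain ⟨f, rfl⟩ := Submodule.Quotient.mk_surjective _ x
  exact congrArg Submodule.Quotient.mk (Subtype.ext (vec_smul_one_sgl v (f : Vec (DOp k))))

instance projective_Res (v : Vtx) : Module.Projective (Bk k) (P k (pos v)).Res :=
  Module.Projective.of_split (toBk k v) (LinearMap.toSpanSingleton (Bk k) _ (genRes k v))
    (LinearMap.ext fun x => toBk_smul_genRes v x)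

instance finite_Res_P (v : Vtx) : Module.Finite (Bk k) (P k (pos v)).Res :=
  Module.Finite.of_surjective (LinearMap.toSpanSingleton (Bk k) _ (genRes k v))
    fun x => ⟨toBk k v x, toBk_smul_genRes v x⟩

theorem evPos_P_Res (v : Vtx) (N : Type) [AddCommGroup N] [Module (Bk k) N] :
    EVPos (Bk k) (P k (pos v)).Res N := evPos_of_projective

theorem homRes_ext {v : Vtx} {N : Type} [AddCommGroup N] [Module (Bk k) N]
    {f g : (P k (pos v)).Res →ₗ[Bk k] N} (h : f (genRes k v) = g (genRes k v)) : f = g :=
  LinearMap.ext fun x => by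
    rw [← toBk_smul_genRes v x, map_smul, map_smul, h]

variable [IsScalarTower k (DOp k) W] (Y : GMod k W)

omit [IsScalarTower k (DOp k) W] in
theorem ev_genRes (v : Vtx) (y : W) (hy : y ∈ Y.comp (pos v)) :
    ev Y (pos v) y hy (genRes k v) = Y.mkRes (sgl v y) (Y.sgl_mem₀ hy) := by
  rw [genRes, ev_mkRes]
  refine congrArg Submodule.Quotient.mk (Subtype.ext (vec_ext fun u => ?_))
  show sgl v (1 : DOp k) u • y = sgl v y u
  by_cases h : u = v
  · rw [h, sgl_self, sgl_self, one_smul]
  · rw [sgl_ne h, sgl_ne h, zero_smul]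

variable (k) in
/-- The idempotent of a vertex. -/
def eB (v : Vtx) : Bk k := toBk k v (genRes k v)

omit [IsScalarTower k (DOp k) W] in
/-- The generators at the vertices are good for every family. -/
theorem good_pos (v : Vtx) : Good Y (pos v) where
  ext n := evPos_P_Res v _ n
  surj f := by
    obtain ⟨y, hy, hfy⟩ := Y.exists_mkRes (f (genRes k v))
    refine ⟨y v, hy v, homRes_ext ?_⟩
    rw [ev_genRes]
    have hfix : f (genRes k v) = eB k v • f (genRes k v) := by
      rw [← map_smul, eB, toBk_smul_genRes]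
    conv_rhs => rw [hfix, ← hfy]
    refine congrArg Submodule.Quotient.mk (Subtype.ext (vec_ext fun u => ?_))
    show sgl v (y v) u = (colMat k v (sgl v 1) • y) u
    rw [colMat_sgl]
    by_cases h : u = v
    · rw [h, sgl_self, sgl_self, one_smul]
    · rw [sgl_ne h, sgl_ne h, zero_smul]
  inj y hy h := by
    have h1 := LinearMap.congr_fun h (genRes k v)
    rw [ev_genRes, LinearMap.zero_apply, GMod.mkRes_eq_zero] at h1
    simpa [sgl_self] using h1 v

/-! ### The columns of `Rk k` -/

variable (k) in
/-- The generator of the extended free family at a vertex. -/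
def genE (v : Vtx) : (P k (pos v)).EMod :=
  (P k (pos v)).mkE (sgl v 1) 0 ((P k (pos v)).sgl_mem₀ (one_mem_P_comp _)) fun _ => zero_mem _

/-- An element of the extended free family as an element of the algebra, before passing to the
quotient. -/
def toRkCm (k : Type) [Field k] (v : Vtx) : (P k (pos v)).ecm →ₗ[Rk k] Rk k where
  toFun p := ⟨inl (colMat k v (p : Pair (DOp k)).1) + inr (colMat k v (p : Pair (DOp k)).2), by
    rw [mem_Rk, TrivSqZeroExt.fst_add, TrivSqZeroExt.snd_add, TrivSqZeroExt.fst_inl,
      TrivSqZeroExt.fst_inr, TrivSqZeroExt.snd_inl, TrivSqZeroExt.snd_inr, add_zero, zero_add]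
    exact ⟨colMat_mem (δ := 0) fun w => by rw [add_zero]; exact p.2.1 w,
      colMat_mem (δ := tau) fun w => p.2.2 w⟩⟩
  map_add' p q := Subtype.ext <| TrivSqZeroExt.ext
    (by simp [pair_add_fst]) (by simp [pair_add_snd])
  map_smul' r p := Subtype.ext <| TrivSqZeroExt.ext
    (by simp [Rk_smul_fst, colMat_smul])
    (by
      simp [Rk_smul_snd, colMat_smul, TrivSqZeroExt.snd_mul, MulOpposite.smul_eq_mul_unop])

/-- An element of the extended free family as an element of the algebra. -/
def toRk (k : Type) [Field k] (v : Vtx) : (P k (pos v)).EMod →ₗ[Rk k] Rk k :=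
  (P k (pos v)).ebs.liftQ (toRkCm k v) fun p hp => Subtype.ext <| by
    have h1 : (p : Pair (DOp k)).1 = 0 := vec_ext fun w => hp.1 w
    have h2 : (p : Pair (DOp k)).2 = 0 := vec_ext fun w => hp.2 w
    show inl (colMat k v (p : Pair (DOp k)).1) + inr (colMat k v (p : Pair (DOp k)).2) = 0
    rw [h1, h2, map_zero, TrivSqZeroExt.inl_zero, TrivSqZeroExt.inr_zero, add_zero]

theorem toRk_smul_genE (v : Vtx) (x : (P k (pos v)).EMod) : toRk k v x • genE k v = x := by
  obtain ⟨p, rfl⟩ := Submodule.Quotient.mk_surjective _ x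
  refine congrArg Submodule.Quotient.mk (Subtype.ext (pair_ext ?_ ?_))
  · show fst (inl (colMat k v (p : Pair (DOp k)).1) + inr (colMat k v (p : Pair (DOp k)).2)) •
      sgl v (1 : DOp k) = _
    simp [vec_smul_one_sgl]
  · show fst (inl (colMat k v (p : Pair (DOp k)).1) + inr (colMat k v (p : Pair (DOp k)).2)) •
        (0 : Vec (DOp k)) +
      snd (inl (colMat k v (p : Pair (DOp k)).1) + inr (colMat k v (p : Pair (DOp k)).2)) •
        sgl v (1 : DOp k) = _
    rw [TrivSqZeroExt.snd_add, TrivSqZeroExt.snd_inl, TrivSqZeroExt.snd_inr, zero_add]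
    refine (congrArg₂ (· + ·) (mat_smul_vec_zero _) (vec_smul_one_sgl v _)).trans ?_
    exact vec_ext fun u => by rw [vec_add_apply, vec_zero_apply, zero_add]

instance projective_EMod (v : Vtx) : Module.Projective (Rk k) (P k (pos v)).EMod :=
  Module.Projective.of_split (toRk k v) (LinearMap.toSpanSingleton (Rk k) _ (genE k v))
    (LinearMap.ext fun x => toRk_smul_genE v x)

instance finite_EMod_P (v : Vtx) : Module.Finite (Rk k) (P k (pos v)).EMod :=
  Module.Finite.of_surjective (LinearMap.toSpanSingleton (Rk k) _ (genE k v))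
    fun x => ⟨toRk k v x, toRk_smul_genE v x⟩

instance projective_P20 : Module.Projective (Rk k) (P20 k) := projective_EMod _

instance finite_P20 : Module.Finite (Rk k) (P20 k) := finite_EMod_P _

theorem evPos_P_EMod (v : Vtx) (N : Type) [AddCommGroup N] [Module (Rk k) N] :
    EVPos (Rk k) (P k (pos v)).EMod N := evPos_of_projective

variable (k) in
/-- The idempotent of a vertex in the extended algebra. -/
def eR (v : Vtx) : Rk k := inlHom (eB k v)

theorem eR_smul_genE (v : Vtx) : eR k v • genE k v = genE k v := by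
  refine congrArg Submodule.Quotient.mk (Subtype.ext (pair_ext ?_ ?_))
  · show fst (inl (colMat k v (sgl v 1))) • sgl v (1 : DOp k) = sgl v 1
    simp [vec_smul_one_sgl]
  · show fst (inl (colMat k v (sgl v 1))) • (0 : Vec (DOp k)) +
      snd (inl (colMat k v (sgl v 1))) • sgl v (1 : DOp k) = (0 : Vec (DOp k))
    refine vec_ext fun u => ?_
    simp [vec_add_apply, vec_smul_apply, vec_zero_apply]

theorem homE_ext {v : Vtx} {N : Type} [AddCommGroup N] [Module (Rk k) N]
    {f g : (P k (pos v)).EMod →ₗ[Rk k] N} (h : f (genE k v) = g (genE k v)) : f = g :=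
  LinearMap.ext fun x => by
    rw [← toRk_smul_genE v x, map_smul, map_smul, h]

theorem exists_homE (v : Vtx) {N : Type} [AddCommGroup N] [Module (Rk k) N] (x : N)
    (hx : eR k v • x = x) : ∃ f : (P k (pos v)).EMod →ₗ[Rk k] N, f (genE k v) = x := by
  refine ⟨(LinearMap.toSpanSingleton (Rk k) N x).comp (toRk k v), ?_⟩
  show toRk k v (genE k v) • x = x
  have h : toRk k v (genE k v) = eR k v := Subtype.ext <| by
    show inl (colMat k v (sgl v 1)) + inr (colMat k v (0 : Vec (DOp k))) =
      inl (colMat k v (sgl v 1))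
    rw [map_zero, TrivSqZeroExt.inr_zero, add_zero]
  rw [h, hx]

omit [IsScalarTower k (DOp k) W] in
theorem eR_smul_mkE (v : Vtx) (y z : Vec W) (hy : ∀ u, y u ∈ Y.comp (pos u))
    (hz : ∀ u, z u ∈ Y.comp (pos u + tau)) :
    eR k v • Y.mkE y z hy hz =
      Y.mkE (sgl v (y v)) (sgl v (z v)) (Y.sgl_mem₀ (hy v)) (Y.sgl_mem (hz v)) := by
  have key : ∀ g : Vec W, colMat k v (sgl v 1) • g = sgl v (g v) := fun g => vec_ext fun u => by
    rw [colMat_sgl]
    by_cases h : u = v
    · rw [h, sgl_self, sgl_self, one_smul]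
    · rw [sgl_ne h, sgl_ne h, zero_smul]
  refine congrArg Submodule.Quotient.mk (Subtype.ext (pair_ext ?_ ?_))
  · show fst (inl (colMat k v (sgl v 1))) • y = sgl v (y v)
    simp [key]
  · show fst (inl (colMat k v (sgl v 1))) • z + snd (inl (colMat k v (sgl v 1))) • y = sgl v (z v)
    simp [key]

omit [IsScalarTower k (DOp k) W] in
/-- Maps out of the extended free family at a vertex are given by the two components there. -/
theorem exists_homE_mk (v : Vtx) (y z : W) (hy : y ∈ Y.comp (pos v))
    (hz : z ∈ Y.comp (pos v + tau)) : ∃ f : (P k (pos v)).EMod →ₗ[Rk k] Y.EMod,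
      f (genE k v) = Y.mkE (sgl v y) (sgl v z) (Y.sgl_mem₀ hy) (Y.sgl_mem hz) := by
  refine exists_homE v _ ?_
  rw [eR_smul_mkE]
  exact congrArg Submodule.Quotient.mk (Subtype.ext (pair_ext
    (by simp [sgl_self]) (by simp [sgl_self])))

omit [IsScalarTower k (DOp k) W] in
theorem homE_apply_genE (v : Vtx) (f : (P k (pos v)).EMod →ₗ[Rk k] Y.EMod) :
    ∃ (y z : W) (hy : y ∈ Y.comp (pos v)) (hz : z ∈ Y.comp (pos v + tau)),
      f (genE k v) = Y.mkE (sgl v y) (sgl v z) (Y.sgl_mem₀ hy) (Y.sgl_mem hz) := by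
  obtain ⟨y, z, hy, hz, h⟩ := Y.exists_mkE (f (genE k v))
  refine ⟨y v, z v, hy v, hz v, ?_⟩
  rw [← eR_smul_mkE Y v y z hy hz, h, ← map_smul, eR_smul_genE]

end Vale.Agent.P195.Disproof
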