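import Vale.Agent.P195.Disproof.PolyRows
import Vale.Agent.P195.Disproof.Proj
import Vale.Agent.P195.Disproof.Finite
import Vale.Agent.P195.Disproof.GoodTmod

/-!
# P195: no extensions out of the polynomials

The polynomial module is resolved over `Bk k` by the free modules at `(2, 0)`, `(1, 1)`, `(0, 2)`
and `(-1, 3)`.  So all its extensions into `Y.Res` vanish when these four degrees are good for `Y`
and the row of the derivations on `Y` is exact.
-/

noncomputable section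

namespace Vale.Agent.P195.Disproof

variable {k : Type} [Field k] {W : Type} [AddCommGroup W] [Module k W] [Module (DOp k) W]

theorem mkRes_congr {Y : GMod k W} {y z : Vec W} {hy : ∀ v, y v ∈ Y.comp (pos v)}
    {hz : ∀ v, z v ∈ Y.comp (pos v)} (h : y = z) : Y.mkRes y hy = Y.mkRes z hz := by
  subst h; rfl

theorem mkRes_add (Y : GMod k W) (y z : Vec W) (hy : ∀ v, y v ∈ Y.comp (pos v))
    (hz : ∀ v, z v ∈ Y.comp (pos v)) :
    Y.mkRes (y + z) (fun v => add_mem (hy v) (hz v)) = Y.mkRes y hy + Y.mkRes z hz := rfl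

/-- Evaluation, additive in the element. -/
def evH (Y : GMod k W) (e : Deg) : Y.comp e →+ ((P k e).Res →ₗ[Bk k] Y.Res) :=
  AddMonoidHom.mk' (fun y => ev Y e y.1 y.2) fun a b => LinearMap.ext fun x => by
    obtain ⟨f, hf, rfl⟩ := (P k e).exists_mkRes x
    rw [LinearMap.add_apply]
    exact (mkRes_congr (vec_ext fun v => smul_add _ _ _)).trans (mkRes_add Y _ _ _ _)

theorem evH_mkRes (Y : GMod k W) (e : Deg) (y : Y.comp e) (f : Vec (DOp k))
    (hf : ∀ v, f v ∈ (P k e).comp (pos v)) :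
    evH Y e y ((P k e).mkRes f hf) =
      Y.mkRes (fun v => f v • (y : W)) fun v => Y.smul_comp_of_eq (hf v) y.2 (by abel) := rfl

theorem evH_eq_zero (Y : GMod k W) (e : Deg) (y : Y.comp e) (h : (y : W) ∈ Y.base e) :
    evH Y e y = 0 := LinearMap.ext fun x => by
  obtain ⟨f, hf, rfl⟩ := (P k e).exists_mkRes x
  exact Y.mkRes_eq_zero.2 fun v => Y.smul_base_of_eq (hf v) h (by abel)

theorem evH_congr (Y : GMod k W) (e : Deg) (y y' : Y.comp e) (h : (y : W) - y' ∈ Y.base e) :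
    evH Y e y = evH Y e y' := by
  rw [← sub_eq_zero, ← map_sub]
  exact evH_eq_zero Y e _ h

theorem Good.evH_surjective {Y : GMod k W} {e : Deg} (h : Good Y e) :
    Function.Surjective (evH Y e) := fun f => by
  obtain ⟨y, hy, e'⟩ := h.surj f
  exact ⟨⟨y, hy⟩, e'⟩

theorem Good.mem_base {Y : GMod k W} {e : Deg} (h : Good Y e) {y : Y.comp e}
    (h0 : evH Y e y = 0) : (y : W) ∈ Y.base e := h.inj y.1 y.2 h0

/-! ### The resolution -/

/-- A representative of an element of a free module. -/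
theorem exists_rep_P {κ : Type} {e : Deg} (x : κ → (P k e).Res) :
    ∃ (f : κ → Vec (DOp k)) (hf : ∀ i v, f i v ∈ (P k e).comp (pos v)),
      x = fun i => (P k e).mkRes (f i) (hf i) := by
  choose f hf he using fun i => (P k e).exists_mkRes (x i)
  exact ⟨f, hf, funext fun i => (he i).symm⟩

variable (k) in
/-- The free module at the top. -/
abbrev X3 : Type := (P k (-1, 3)).Res

variable (k) in
/-- The third term of the resolution. -/
abbrev X2 : Type := Fin 3 → (P k (0, 2)).Res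

variable (k) in
/-- The second term of the resolution. -/
abbrev X1 : Type := Fin 3 → (P k (1, 1)).Res

variable (k) in
/-- The free module covering the polynomials. -/
abbrev X0 : Type := (P k (2, 0)).Res

variable (k) in
/-- The derivations from `(-1,3)` to `(0,2)`. -/
def r2 (i : Fin 3) : X3 k →ₗ[Bk k] (P k (0, 2)).Res :=
  ev (P k (0, 2)) (-1, 3) (xDer k i) (by
    rw [P_comp, show ((-1, 3) : Deg) - (0, 2) = (-1, 1) from rfl]; exact xDer_mem i)

variable (k) in
/-- The derivations from `(0,2)` to `(1,1)`. -/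
def r1 (i : Fin 3) : (P k (0, 2)).Res →ₗ[Bk k] (P k (1, 1)).Res :=
  ev (P k (1, 1)) (0, 2) (xDer k i) (by
    rw [P_comp, show ((0, 2) : Deg) - (1, 1) = (-1, 1) from rfl]; exact xDer_mem i)

variable (k) in
/-- The derivations from `(1,1)` to `(2,0)`. -/
def r0 (i : Fin 3) : (P k (1, 1)).Res →ₗ[Bk k] X0 k :=
  ev (P k (2, 0)) (1, 1) (xDer k i) (by
    rw [P_comp, show ((1, 1) : Deg) - (2, 0) = (-1, 1) from rfl]; exact xDer_mem i)

variable (k) in
/-- The constant polynomial. -/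
def polyEps : X0 k →ₗ[Bk k] (polyMod k).Res :=
  ev (polyMod k) (2, 0) (Finsupp.single 0 1)
    (Finsupp.single_mem_supported k 1 ⟨fun _ => le_rfl, by simp⟩)

variable (k) in
/-- The gradient of the resolution. -/
def D3 : X3 k →ₗ[Bk k] X2 k := LinearMap.pi (r2 k)

variable (k) in
/-- The curl of the resolution. -/
def D2 : X2 k →ₗ[Bk k] X1 k :=
  LinearMap.pi ![(r1 k 1).comp (LinearMap.proj 2) - (r1 k 2).comp (LinearMap.proj 1),
    (r1 k 2).comp (LinearMap.proj 0) - (r1 k 0).comp (LinearMap.proj 2),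
    (r1 k 0).comp (LinearMap.proj 1) - (r1 k 1).comp (LinearMap.proj 0)]

variable (k) in
/-- The divergence of the resolution. -/
def D1 : X1 k →ₗ[Bk k] X0 k :=
  (r0 k 0).comp (LinearMap.proj 0) + (r0 k 1).comp (LinearMap.proj 1) +
    (r0 k 2).comp (LinearMap.proj 2)

theorem D3_mk (f : Vec (DOp k)) (hf : ∀ v, f v ∈ (P k (-1, 3)).comp (pos v)) (i : Fin 3) :
    ∃ h, D3 k ((P k (-1, 3)).mkRes f hf) i =
      (P k (0, 2)).mkRes (fun v => derR k i (f v)) h := ⟨_, rfl⟩

theorem D2_mk (f : Fin 3 → Vec (DOp k)) (hf : ∀ i v, f i v ∈ (P k (0, 2)).comp (pos v))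
    (i : Fin 3) : ∃ h, D2 k (fun j => (P k (0, 2)).mkRes (f j) (hf j)) i =
      (P k (1, 1)).mkRes (fun v => curl (derR k) (fun j => f j v) i) h := by
  fin_cases i <;> exact ⟨_, rfl⟩

theorem D1_mk (f : Fin 3 → Vec (DOp k)) (hf : ∀ i v, f i v ∈ (P k (1, 1)).comp (pos v)) :
    ∃ h, D1 k (fun j => (P k (1, 1)).mkRes (f j) (hf j)) =
      (P k (2, 0)).mkRes
        (fun v => derR k 0 (f 0 v) + derR k 1 (f 1 v) + derR k 2 (f 2 v)) h := ⟨_, rfl⟩

theorem P_mkRes_eq_zero {e : Deg} {f : Vec (DOp k)} {hf : ∀ v, f v ∈ (P k e).comp (pos v)} :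
    (P k e).mkRes f hf = 0 ↔ ∀ v, f v = 0 :=
  (P k e).mkRes_eq_zero.trans (forall_congr' fun _ => Submodule.mem_bot k)

attribute [local irreducible] D1 D2 D3

variable [CharZero k]

omit [CharZero k] in
theorem polyEps_surjective : Function.Surjective (polyEps k) := fun x => by
  obtain ⟨y, hy, rfl⟩ := (polyMod k).exists_mkRes x
  choose z hz he using fun v => eval_one_surj (v := pos v) (Int.natCast_nonneg _) (hy v)
  exact ⟨(P k (2, 0)).mkRes z hz, mkRes_congr (funext he)⟩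

theorem D3_injective : Function.Injective (D3 k) := by
  refine (injective_iff_map_eq_zero _).2 fun x hx => ?_
  obtain ⟨f, hf, rfl⟩ := (P k (-1, 3)).exists_mkRes x
  refine P_mkRes_eq_zero.2 fun v => res_exact₃ (hf v) fun i => ?_
  obtain ⟨h, e⟩ := D3_mk f hf i
  exact P_mkRes_eq_zero.1 (e.symm.trans (congrFun hx i)) v

omit [CharZero k] in
theorem curl_derR_grad (z : DOp k) (i : Fin 3) :
    curl (derR k) (fun j => derR k j z) i = 0 := by
  fin_cases i <;> simp [curl, derR, mul_assoc, der_comm 1 0, der_comm 2 0, der_comm 2 1]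

omit [CharZero k] in
theorem dot_curl_derR (w : Fin 3 → DOp k) :
    derR k 0 (curl (derR k) w 0) + derR k 1 (curl (derR k) w 1) + derR k 2 (curl (derR k) w 2) =
      0 := by
  have hc : ∀ (i j : Fin 3) (z : DOp k), derR k i (derR k j z) = derR k j (derR k i z) :=
    fun i j z => by simp only [derR, LinearMap.mulRight_apply, mul_assoc, der_comm i j]
  simp only [curl, Matrix.cons_val_zero, Matrix.cons_val_one, Matrix.cons_val_two,
    Matrix.head_cons, Matrix.tail_cons, map_sub]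
  rw [hc 1 0, hc 2 0, hc 2 1]
  abel

theorem exact_D3_D2 : Function.Exact (D3 k) (D2 k) := fun x => by
  obtain ⟨f, hf, rfl⟩ := exists_rep_P x
  constructor
  · intro hx
    choose z hz he using fun v => res_exact₂ (v := pos v) (w := fun i => f i v) (fun i => hf i v)
      (funext fun i => by
        obtain ⟨h, e⟩ := D2_mk f hf i
        exact P_mkRes_eq_zero.1 (e.symm.trans (congrFun hx i)) v)
    refine ⟨(P k (-1, 3)).mkRes z hz, funext fun i => ?_⟩
    obtain ⟨h, e⟩ := D3_mk z hz i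
    exact e.trans (mkRes_congr (funext fun v => congrFun (he v) i))
  · rintro ⟨a, ha⟩
    rw [← ha]
    obtain ⟨z, hz, rfl⟩ := (P k (-1, 3)).exists_mkRes a
    choose h e using D3_mk z hz
    rw [show D3 k ((P k (-1, 3)).mkRes z hz) = fun i => _ from funext e]
    funext i
    obtain ⟨h', e'⟩ := D2_mk (fun i v => derR k i (z v)) h i
    exact e'.trans (P_mkRes_eq_zero.2 fun v => curl_derR_grad (z v) i)

omit [CharZero k] in
theorem D1_D2 (b : X2 k) : D1 k (D2 k b) = 0 := by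
  obtain ⟨z, hz, rfl⟩ := exists_rep_P b
  choose h e using D2_mk z hz
  rw [show D2 k (fun i => (P k (0, 2)).mkRes (z i) (hz i)) = fun i => _ from funext e]
  obtain ⟨h', e'⟩ := D1_mk _ h
  exact e'.trans (P_mkRes_eq_zero.2 fun v => dot_curl_derR fun j => z j v)

theorem exact_D2_D1 : Function.Exact (D2 k) (D1 k) := fun x => by
  obtain ⟨f, hf, rfl⟩ := exists_rep_P x
  obtain ⟨h, e⟩ := D1_mk f hf
  constructor
  · intro hx
    choose z hz he using fun v => res_exact₁ (v := pos v) (y := fun i => f i v) (fun i => hf i v)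
      (P_mkRes_eq_zero.1 (e.symm.trans hx) v)
    refine ⟨fun i => (P k (0, 2)).mkRes (fun v => z v i) (fun v => hz v i), funext fun i => ?_⟩
    obtain ⟨h', e'⟩ := D2_mk (fun i v => z v i) (fun i v => hz v i) i
    exact e'.trans (mkRes_congr (funext fun v => congrFun (he v) i))
  · rintro ⟨a, ha⟩
    rw [← ha]
    exact D1_D2 a

theorem exact_D1_polyEps : Function.Exact (D1 k) (polyEps k) := fun x => by
  obtain ⟨f, hf, rfl⟩ := (P k (2, 0)).exists_mkRes x
  constructor
  · intro hx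
    choose z hz he using fun v => res_exact₀ (v := pos v) (hf v)
      (by simpa [polyMod] using ((polyMod k).mkRes_eq_zero.1 hx) v)
    refine ⟨fun i => (P k (1, 1)).mkRes (fun v => z v i) (fun v => hz v i), ?_⟩
    obtain ⟨h', e'⟩ := D1_mk (fun i v => z v i) (fun i v => hz v i)
    exact e'.trans (mkRes_congr (funext he))
  · rintro ⟨a, ha⟩
    rw [← ha]
    obtain ⟨z, hz, rfl⟩ := exists_rep_P a
    obtain ⟨h', e'⟩ := D1_mk z hz
    rw [e']
    refine (polyMod k).mkRes_eq_zero.2 fun v => ?_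
    show (derR k 0 (z 0 v) + derR k 1 (z 1 v) + derR k 2 (z 2 v)) (Finsupp.single 0 1) ∈ _
    rw [LinearMap.add_apply, LinearMap.add_apply, derR_eval_one, derR_eval_one, derR_eval_one,
      add_zero, add_zero]
    exact zero_mem _

attribute [local irreducible] polyEps

/-! ### Extensions -/

variable (Y : GMod k W)

/-- The map out of a power of a free module given by elements. -/
def hom3 (e : Deg) (z : Fin 3 → Y.comp e) : (Fin 3 → (P k e).Res) →ₗ[Bk k] Y.Res :=
  (evH Y e (z 0)).comp (LinearMap.proj 0) + (evH Y e (z 1)).comp (LinearMap.proj 1) +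
    (evH Y e (z 2)).comp (LinearMap.proj 2)

omit [CharZero k] in
theorem hom3_single (e : Deg) (z : Fin 3 → Y.comp e) (i : Fin 3) (a : (P k e).Res) :
    hom3 Y e z (Pi.single i a) = evH Y e (z i) a := by
  fin_cases i <;> simp [hom3]

omit [CharZero k] in
theorem exists_hom3 {e : Deg} (hg : Good Y e) (f : (Fin 3 → (P k e).Res) →ₗ[Bk k] Y.Res) :
    ∃ z, hom3 Y e z = f := by
  choose z hz using fun i =>
    hg.evH_surjective (f.comp (LinearMap.single (Bk k) (fun _ : Fin 3 => (P k e).Res) i))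
  refine ⟨z, LinearMap.pi_ext fun i a => ?_⟩
  rw [hom3_single, hz]
  rfl

variable {Y} {x : Fin 3 → W →ₗ[k] W}

omit [CharZero k] in
theorem evH_step {e e' : Deg} (h : e' + (-1, 1) = e) (i : Fin 3) (y : Y.comp e')
    (hx : ∀ i z, x i z = xDer k i • z)
    (r : (P k e).Res →ₗ[Bk k] (P k e').Res) (hr : ∃ hm, r = ev (P k e') e (xDer k i) hm) :
    ∃ hm, (evH Y e' y).comp r = evH Y e ⟨x i y, hm⟩ := by
  obtain ⟨hm, rfl⟩ := hr
  refine ⟨by rw [hx]; exact Y.smul_comp_of_eq (xDer_mem i) y.2 h, LinearMap.ext fun a => ?_⟩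
  obtain ⟨f, hf, rfl⟩ := (P k e).exists_mkRes a
  refine mkRes_congr (vec_ext fun v => ?_)
  show (f v • xDer k i) • (y : W) = f v • x i (y : W)
  rw [smul_eq_mul, mul_smul, hx]

omit [CharZero k] in
theorem mem_shiftDeg (hx : ∀ i z, x i z = xDer k i • z) {v v' : Deg} (h : v + (-1, 1) = v')
    {y : W} (hy : y ∈ Y.comp v) (i : Fin 3) : x i y ∈ Y.comp v' := by
  rw [hx]; exact Y.smul_comp_of_eq (xDer_mem i) hy h

omit [CharZero k] in
theorem mem_curl (hx : ∀ i z, x i z = xDer k i • z) {v v' : Deg} (h : v + (-1, 1) = v')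
    {w : Fin 3 → W} (hw : ∀ i, w i ∈ Y.comp v) (i : Fin 3) : curl x w i ∈ Y.comp v' := by
  fin_cases i <;> exact sub_mem (mem_shiftDeg hx h (hw _) _) (mem_shiftDeg hx h (hw _) _)

omit [CharZero k] in
/-- Composition with the divergence of the resolution. -/
theorem comp_D1 (hx : ∀ i z, x i z = xDer k i • z) (y : Y.comp (2, 0)) :
    ∃ h : ∀ i, x i (y : W) ∈ Y.comp (1, 1),
      (evH Y (2, 0) y).comp (D1 k) = hom3 Y (1, 1) fun i => ⟨x i (y : W), h i⟩ := by
  obtain ⟨ha, a⟩ := evH_step (Y := Y) (e := (1, 1)) (e' := (2, 0)) rfl 0 y hx (r0 k 0) ⟨_, rfl⟩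
  obtain ⟨hb, b⟩ := evH_step (Y := Y) (e := (1, 1)) (e' := (2, 0)) rfl 1 y hx (r0 k 1) ⟨_, rfl⟩
  obtain ⟨hc, c⟩ := evH_step (Y := Y) (e := (1, 1)) (e' := (2, 0)) rfl 2 y hx (r0 k 2) ⟨_, rfl⟩
  refine ⟨fun i => mem_shiftDeg hx rfl y.2 i, LinearMap.ext fun t => ?_⟩
  have a' := LinearMap.congr_fun a (t 0)
  have b' := LinearMap.congr_fun b (t 1)
  have c' := LinearMap.congr_fun c (t 2)
  rw [LinearMap.comp_apply] at a' b' c'
  simp only [D1, hom3, LinearMap.comp_apply, LinearMap.add_apply, LinearMap.proj_apply, map_add]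
  rw [a', b', c']

omit [CharZero k] in
/-- Composition with the curl of the resolution. -/
theorem comp_D2 (hx : ∀ i z, x i z = xDer k i • z) (w : Fin 3 → Y.comp (1, 1)) :
    ∃ h : ∀ i, curl x (fun j => (w j : W)) i ∈ Y.comp (0, 2), (hom3 Y (1, 1) w).comp (D2 k) =
      hom3 Y (0, 2) fun i => -⟨curl x (fun j => (w j : W)) i, h i⟩ := by
  have hm : ∀ i j, x i (w j : W) ∈ Y.comp (0, 2) := fun i j => mem_shiftDeg hx rfl (w j).2 i
  refine ⟨fun i => mem_curl hx rfl (fun j => (w j).2) i, LinearMap.ext fun a => ?_⟩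
  have st : ∀ i j b, evH Y (1, 1) (w j) (r1 k i b) = evH Y (0, 2) ⟨x i (w j), hm i j⟩ b :=
    fun i j b => by
      obtain ⟨_, e⟩ := evH_step (Y := Y) (e := (0, 2)) (e' := (1, 1)) rfl i (w j) hx (r1 k i)
        ⟨_, rfl⟩
      exact LinearMap.congr_fun e b
  have hneg : ∀ (p q : Y.comp (0, 2)) (h : (p : W) - q ∈ Y.comp (0, 2)) (b : (P k (0, 2)).Res),
      evH Y (0, 2) (-⟨(p : W) - q, h⟩) b = evH Y (0, 2) q b - evH Y (0, 2) p b :=
    fun p q h b => by
      rw [show (-⟨(p : W) - q, h⟩ : Y.comp (0, 2)) = q - p from Subtype.ext (neg_sub _ _),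
        map_sub, LinearMap.sub_apply]
  simp only [hom3, D2, LinearMap.comp_apply, LinearMap.add_apply, LinearMap.proj_apply,
    LinearMap.pi_apply, Matrix.cons_val_zero, Matrix.cons_val_one, Matrix.cons_val_two,
    Matrix.head_cons, Matrix.tail_cons, LinearMap.sub_apply, map_sub, st, curl]
  rw [hneg ⟨_, hm 1 2⟩ ⟨_, hm 2 1⟩, hneg ⟨_, hm 2 0⟩ ⟨_, hm 0 2⟩, hneg ⟨_, hm 0 1⟩ ⟨_, hm 1 0⟩]
  abel

omit [CharZero k] in
/-- Composition with the gradient of the resolution. -/
theorem comp_D3 (hx : ∀ i z, x i z = xDer k i • z) (z : Fin 3 → Y.comp (0, 2)) :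
    ∃ h, (hom3 Y (0, 2) z).comp (D3 k) =
      evH Y (-1, 3) ⟨x 0 (z 0) + x 1 (z 1) + x 2 (z 2), h⟩ := by
  obtain ⟨ha, a⟩ := evH_step (Y := Y) (e := (-1, 3)) (e' := (0, 2)) rfl 0 (z 0) hx (r2 k 0)
    ⟨_, rfl⟩
  obtain ⟨hb, b⟩ := evH_step (Y := Y) (e := (-1, 3)) (e' := (0, 2)) rfl 1 (z 1) hx (r2 k 1)
    ⟨_, rfl⟩
  obtain ⟨hc, c⟩ := evH_step (Y := Y) (e := (-1, 3)) (e' := (0, 2)) rfl 2 (z 2) hx (r2 k 2)
    ⟨_, rfl⟩
  refine ⟨add_mem (add_mem ha hb) hc, LinearMap.ext fun t => ?_⟩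
  have a' := LinearMap.congr_fun a t
  have b' := LinearMap.congr_fun b t
  have c' := LinearMap.congr_fun c t
  rw [LinearMap.comp_apply] at a' b' c'
  simp only [D3, hom3, LinearMap.comp_apply, LinearMap.add_apply, LinearMap.proj_apply,
    LinearMap.pi_apply]
  rw [a', b', c', ← LinearMap.add_apply, ← LinearMap.add_apply, ← map_add, ← map_add]
  rfl

theorem exact_D3_range : Function.Exact (D3 k) (D2 k).rangeRestrict := fun a => by
  rw [← exact_D3_D2 a]
  exact ⟨fun h => congrArg Subtype.val h, fun h => Subtype.ext h⟩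

theorem exact_range_D1 :
    Function.Exact (LinearMap.range (D2 k)).subtype (D1 k).rangeRestrict := fun a => by
  constructor
  · intro h
    obtain ⟨b, hb⟩ := (exact_D2_D1 a).1 (congrArg Subtype.val h)
    exact ⟨⟨a, b, hb⟩, rfl⟩
  · rintro ⟨⟨_, b, rfl⟩, rfl⟩
    exact Subtype.ext ((exact_D2_D1 _).2 ⟨b, rfl⟩)

theorem exact_range_polyEps :
    Function.Exact (LinearMap.range (D1 k)).subtype (polyEps k) := fun a => by
  constructor
  · intro h
    obtain ⟨b, hb⟩ := (exact_D1_polyEps a).1 h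
    exact ⟨⟨a, b, hb⟩, rfl⟩
  · rintro ⟨⟨_, b, rfl⟩, rfl⟩
    exact (exact_D1_polyEps _).2 ⟨b, rfl⟩

theorem evPos_range_D2 (hx : ∀ i z, x i z = xDer k i • z)
    (hQ : QRow Y x ((-1, 1) : Deg) (2, 0)) (g2 : Good Y (0, 2)) (g3 : Good Y (-1, 3)) :
    EVPos (Bk k) (LinearMap.range (D2 k)) Y.Res := by
  intro i
  have hX2 : EV (Bk k) (X2 k) Y.Res (i + 1) := ev_pi fun _ => g2.ext i
  have hr : Function.Surjective (D2 k).rangeRestrict := (D2 k).surjective_rangeRestrict
  cases i with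
  | zero =>
    refine ev_quot_one D3_injective hr exact_D3_range (fun f => ?_) hX2
    obtain ⟨q, rfl⟩ := g3.evH_surjective f
    obtain ⟨y, hy, hyq⟩ := hQ.top q.1 q.2
    refine ⟨hom3 Y (0, 2) fun i => ⟨y i, hy i⟩, ?_⟩
    obtain ⟨h, e⟩ := comp_D3 hx fun i => (⟨y i, hy i⟩ : Y.comp (0, 2))
    rw [e]
    exact evH_congr Y _ _ _ hyq
  | succ i =>
    exact ev_quot (K := X3 k) (X := X2 k) (Z := LinearMap.range (D2 k)) (ι := D3 k)
      (π := (D2 k).rangeRestrict) D3_injective hr exact_D3_range (i + 1) (g3.ext i) hX2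

theorem ev_range_D1_one (hx : ∀ i z, x i z = xDer k i • z)
    (hQ : QRow Y x ((-1, 1) : Deg) (2, 0)) (g1 : Good Y (1, 1)) (g2 : Good Y (0, 2))
    (g3 : Good Y (-1, 3)) : EV (Bk k) (LinearMap.range (D1 k)) Y.Res 1 := by
  have hX1 : EV (Bk k) (X1 k) Y.Res 1 := ev_pi fun _ => g1.ext 0
  have hr : Function.Surjective (D1 k).rangeRestrict := (D1 k).surjective_rangeRestrict
  refine ev_quot_one (Submodule.injective_subtype _) hr exact_range_D1 (fun f => ?_) hX1
  obtain ⟨z, hz⟩ := exists_hom3 Y g2 (f.comp (D2 k).rangeRestrict)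
  obtain ⟨hm, e3⟩ := comp_D3 hx z
  have c0 : (D2 k).rangeRestrict.comp (D3 k) = 0 :=
    LinearMap.ext fun b => (exact_D3_range _).2 ⟨b, rfl⟩
  have h0 : evH Y (-1, 3) ⟨_, hm⟩ = 0 := by
    rw [← e3, hz, LinearMap.comp_assoc, c0, LinearMap.comp_zero]
  obtain ⟨w, hw, hwz⟩ := hQ.curl (fun i => z i) (fun i => (z i).2) (g3.mem_base h0)
  obtain ⟨hc, e2⟩ := comp_D2 hx fun i => -(⟨w i, hw i⟩ : Y.comp (1, 1))
  refine ⟨hom3 Y (1, 1) fun i => -⟨w i, hw i⟩, LinearMap.ext fun c => ?_⟩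
  obtain ⟨b, rfl⟩ := (D2 k).surjective_rangeRestrict c
  refine Eq.trans ?_ (LinearMap.congr_fun hz b)
  refine (LinearMap.congr_fun e2 b).trans ?_
  have key : ∀ i, evH Y (0, 2) (-⟨_, hc i⟩) = evH Y (0, 2) (z i) := by
    intro i
    refine evH_congr Y _ _ _ ?_
    have e : -curl x (fun j => -w j) i = curl x w i := by
      fin_cases i <;> simp [curl, map_neg] <;> abel
    show -curl x (fun j => -w j) i - (z i : W) ∈ _
    rw [e]
    exact hwz i
  simp only [hom3, key]

theorem ev_range_D1_succ (i : ℕ) (h2 : EVPos (Bk k) (LinearMap.range (D2 k)) Y.Res)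
    (g1 : Good Y (1, 1)) : EV (Bk k) (LinearMap.range (D1 k)) Y.Res (i + 1 + 1) :=
  ev_quot (K := LinearMap.range (D2 k)) (X := X1 k) (Z := LinearMap.range (D1 k))
    (ι := (LinearMap.range (D2 k)).subtype) (π := (D1 k).rangeRestrict)
    (Submodule.injective_subtype _) (D1 k).surjective_rangeRestrict exact_range_D1 (i + 1)
    (h2 i) (ev_pi fun _ => g1.ext (i + 1))

theorem evPos_range_D1 (hx : ∀ i z, x i z = xDer k i • z)
    (hQ : QRow Y x ((-1, 1) : Deg) (2, 0)) (g1 : Good Y (1, 1)) (g2 : Good Y (0, 2))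
    (g3 : Good Y (-1, 3)) : EVPos (Bk k) (LinearMap.range (D1 k)) Y.Res
  | 0 => ev_range_D1_one hx hQ g1 g2 g3
  | i + 1 => ev_range_D1_succ i (evPos_range_D2 hx hQ g2 g3) g1

/-- **All extensions out of the polynomials vanish** when the row of the derivations is exact. -/
theorem ev_poly (hx : ∀ i z, x i z = xDer k i • z) (hQ : QRow Y x ((-1, 1) : Deg) (2, 0))
    (g0 : Good Y (2, 0)) (g1 : Good Y (1, 1)) (g2 : Good Y (0, 2)) (g3 : Good Y (-1, 3)) :
    ∀ n, EV (Bk k) (polyMod k).Res Y.Res n := by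
  intro n
  match n with
  | 0 =>
    refine ev_zero_of_resolution (D1 k) polyEps_surjective exact_D1_polyEps fun g hg => ?_
    obtain ⟨q, rfl⟩ := g0.evH_surjective g
    obtain ⟨hm, e1⟩ := comp_D1 hx q
    refine evH_eq_zero Y _ _ (hQ.bot _ q.2 fun i => g1.mem_base (y := ⟨_, hm i⟩)
      (LinearMap.ext fun a => ?_))
    have := LinearMap.congr_fun (e1.symm.trans hg) (Pi.single i a)
    rw [hom3_single] at this
    exact this
  | 1 =>
    refine ev_quot_one (Submodule.injective_subtype _) polyEps_surjective exact_range_polyEps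
      (fun f => ?_) (g0.ext 0)
    obtain ⟨z, hz⟩ := exists_hom3 Y g1 (f.comp (D1 k).rangeRestrict)
    obtain ⟨hc, e2⟩ := comp_D2 hx z
    have h0 : (hom3 Y (1, 1) z).comp (D2 k) = 0 := by
      rw [hz, LinearMap.comp_assoc]
      have : (D1 k).rangeRestrict.comp (D2 k) = 0 :=
        LinearMap.ext fun b => Subtype.ext ((exact_D2_D1 _).2 ⟨b, rfl⟩)
      rw [this, LinearMap.comp_zero]
    have hc0 : ∀ i, curl x (fun j => (z j : W)) i ∈ Y.base (0, 2) := fun i => by
      refine neg_mem_iff.1 (g2.mem_base (y := -⟨_, hc i⟩) (LinearMap.ext fun a => ?_))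
      have := LinearMap.congr_fun (e2.symm.trans h0) (Pi.single i a)
      rw [hom3_single] at this
      exact this
    obtain ⟨y, hy, hyz⟩ := hQ.grad (fun j => z j) (fun j => (z j).2) hc0
    obtain ⟨hm, e1⟩ := comp_D1 hx (⟨y, hy⟩ : Y.comp (2, 0))
    refine ⟨evH Y (2, 0) ⟨y, hy⟩, LinearMap.ext fun c => ?_⟩
    obtain ⟨b, rfl⟩ := (D1 k).surjective_rangeRestrict c
    refine Eq.trans ?_ (LinearMap.congr_fun hz b)
    refine (LinearMap.congr_fun e1 b).trans ?_
    have key : ∀ i, evH Y (1, 1) ⟨_, hm i⟩ = evH Y (1, 1) (z i) :=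
      fun i => evH_congr Y _ _ _ (hyz i)
    simp only [hom3, key]
  | i + 2 =>
    exact ev_quot (K := LinearMap.range (D1 k)) (X := X0 k) (Z := (polyMod k).Res)
      (ι := (LinearMap.range (D1 k)).subtype) (π := polyEps k)
      (Submodule.injective_subtype _) polyEps_surjective exact_range_polyEps (i + 1)
      (evPos_range_D1 hx hQ g1 g2 g3 i) (g0.ext (i + 1))

/-- No extensions of the polynomials into the shifted cokernel. -/
theorem ev_poly_Tmod :
    ∀ n, EV (Bk k) (polyMod k).Res ((Tmod k).shift tau).Res n :=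
  ev_poly (x := colDer Gen) (fun i z => colDer_apply i z) qrow_Tmod_shift (good_pos _ ((2, 0) : Vtx))
    (good_pos _ ((1, 1) : Vtx)) (good_pos _ ((0, 2) : Vtx))
    (good_Tmod_shift (by norm_num) (by norm_num) (by norm_num) (by norm_num))

/-- No extensions of the polynomials into the shifted free module. -/
theorem ev_poly_P20 :
    ∀ n, EV (Bk k) (polyMod k).Res ((P k (pos (2, 0))).shift tau).Res n :=
  ev_poly (x := derL k) (fun i z => derL_apply i z) qrow_P20_shift (good_pos _ ((2, 0) : Vtx))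
    (good_pos _ ((1, 1) : Vtx)) (good_pos _ ((0, 2) : Vtx)) (by
      rw [P_shift]
      exact good_P (by norm_num) (by norm_num) (by decide) (by decide) (by decide) (by decide))

/-- No extensions of the polynomials into the inverse polynomials. -/
theorem ev_poly_Dc {c : ℤ} (hc : c ≤ -3) :
    ∀ n, EV (Bk k) (polyMod k).Res (Dc k c).Res n :=
  ev_poly (x := lDer k) (fun i z => lDer_apply i z) (qrow_Dc_two hc) (good_pos _ ((2, 0) : Vtx))
    (good_pos _ ((1, 1) : Vtx)) (good_pos _ ((0, 2) : Vtx))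
    (good_Dc hc (by norm_num) (by norm_num))

end Vale.Agent.P195.Disproof
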