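import Vale.Agent.P195.Disproof.Main
import Vale.Agent.P195.Disproof.PolyExt

/-!
# P195: the counterexample to the Auslander–Reiten conjecture
-/

noncomputable section

open CategoryTheory CategoryTheory.Abelian

namespace Vale.Agent.P195.Disproof

/-- Over every field of characteristic zero there is a finite-dimensional algebra with a finitely
generated non-projective module without higher self-extensions and without higher extensions
into the algebra. -/
theorem counterexample (k : Type) [Field k] [CharZero k] :
    ∃ (A : Type) (_ : Ring A) (_ : Algebra k A) (M : ModuleCat.{0} A),
      Module.Finite k A ∧ Module.Finite A M ∧ ¬ Module.Projective A M ∧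
      ∀ i : ℕ, 1 ≤ i → Subsingleton (Ext M M i) ∧ Subsingleton (Ext M (ModuleCat.of A A) i) :=
  counterexample_of_poly k ev_poly_Tmod ev_poly_P20 (fun _ hc => ev_poly_Dc hc)

end Vale.Agent.P195.Disproof
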