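import Vale.Agent.P195.Disproof.GoodMaps

/-!
# P195: the E-lemma

Over a frame whose vertices fill the window `[0, 2] × [0, 3]` a target with exact rows is good at all
degrees below `(2, 3)`, and so is the free object of degree `f` at the degrees `e` with
`f.1 ≤ e.1 + 2`, `f.2 ≤ e.2 + 3`, when `f.1 ≤ 1` and `f.2 ≤ 0`.
-/

noncomputable section

universe u

namespace Vale.Agent.P195.Disproof

section Zero

variable {D : Type*} [Ring D] {X : Fin 3 → D} (hc : ∀ i j, X i * X j = X j * X i)
include hc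

theorem mzero_grad : MZero (gradM X) (curlM X) := by
  intro i l
  fin_cases l <;>
    simp [gradM, curlM, Fin.sum_univ_three, hc 1 0, hc 2 0, hc 2 1]

theorem mzero_curl : MZero (curlM X) (dotM X) := by
  intro i l
  fin_cases i <;>
    simp [curlM, dotM, Fin.sum_univ_three, hc 1 0, hc 2 0, hc 2 1]

theorem mzero_cone₀ : MZero (coneM₀ X) (coneM₁ X) := by
  intro i l
  fin_cases l <;>
    simp [coneM₀, coneM₁, Fin.sum_univ_succ, hc 1 0, hc 2 0, hc 2 1]

theorem mzero_cone₁ : MZero (coneM₁ X) (coneM₂ X) := by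
  intro i l
  fin_cases i <;> fin_cases l <;>
    simp [coneM₁, coneM₂, Fin.sum_univ_succ, hc 1 0, hc 2 0, hc 2 1]

theorem mzero_cone₂ : MZero (coneM₂ X) (coneM₃ X) := by
  intro i l
  fin_cases i <;> fin_cases l <;>
    simp [coneM₂, coneM₃, Fin.sum_univ_succ, hc 1 0, hc 2 0, hc 2 1]

end Zero

variable {k : Type} [Field k]

theorem xVar_comm (i j : Fin 3) : xVar k i * xVar k j = xVar k j * xVar k i := var_comm i j

theorem xDer_comm (i j : Fin 3) : xDer k i * xDer k j = xDer k j * xDer k i := der_comm i j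

theorem xVar_mem' {x y : Deg} (h1 : x.1 - y.1 = 1) (h2 : x.2 - y.2 = 0) (i : Fin 3) :
    xVar k i ∈ Fil k (x - y) := by
  rw [show x - y = ((1, 0) : Deg) from Prod.ext h1 h2]
  exact xVar_mem i

theorem xDer_mem' {x y : Deg} (h1 : x.1 - y.1 = -1) (h2 : x.2 - y.2 = 1) (i : Fin 3) :
    xDer k i ∈ Fil k (x - y) := by
  rw [show x - y = ((-1, 1) : Deg) from Prod.ext h1 h2]
  exact xDer_mem i

theorem one_mem' {x y : Deg} (h1 : x.1 - y.1 = 0) (h2 : 0 ≤ x.2 - y.2) :
    (1 : DOp k) ∈ Fil k (x - y) :=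
  one_mem_Fil h1 h2

theorem neg_mem' {s : Deg} {a : DOp k} (h : a ∈ Fil k s) : -a ∈ Fil k s := by
  rw [show -a = (-1 : k) • a from LinearMap.ext fun z => by simp]
  exact (Fil k s).smul_mem _ h

theorem curlM_mem {X : Fin 3 → DOp k} {s : Deg} (h : ∀ i, X i ∈ Fil k s) (i j : Fin 3) :
    curlM X i j ∈ Fil k s := by
  fin_cases i <;> fin_cases j <;>
    simp [curlM, h] <;> exact neg_mem' (h _)

section Mem

attribute [local irreducible] Fil xDer op

theorem coneM₃_mem (e : Deg) (i : Fin 4) (j : Fin 1) :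
    coneM₃ (xDer k) i j ∈ Fil k (cdeg₁ ((-1, 1) : Deg) (0, 1) e i - e) := by
  fin_cases i <;>
    first
      | exact xDer_mem' (by simp [cdeg₁]) (by simp [cdeg₁]) _
      | exact one_mem' (by simp [cdeg₁]) (by simp [cdeg₁])

theorem coneM₂_mem (e : Deg) (i : Fin 6) (j : Fin 4) :
    coneM₂ (xDer k) i j ∈ Fil k
      (cdeg₂' ((-1, 1) : Deg) (0, 1) e i - cdeg₁ ((-1, 1) : Deg) (0, 1) e j) := by
  fin_cases i <;> fin_cases j <;>
    first
      | exact Submodule.zero_mem _
      | exact xDer_mem' (by simp [cdeg₁, cdeg₂']) (by simp [cdeg₁, cdeg₂']) _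
      | exact neg_mem' (xDer_mem' (by simp [cdeg₁, cdeg₂']) (by simp [cdeg₁, cdeg₂']) _)
      | exact one_mem' (by simp [cdeg₁, cdeg₂']) (by simp [cdeg₁, cdeg₂'])

theorem coneM₁_mem (e : Deg) (i : Fin 4) (j : Fin 6) :
    coneM₁ (xDer k) i j ∈ Fil k
      (cdeg₃ ((-1, 1) : Deg) (0, 1) e i - cdeg₂' ((-1, 1) : Deg) (0, 1) e j) := by
  fin_cases i <;> fin_cases j <;>
    first
      | exact Submodule.zero_mem _
      | exact xDer_mem' (by simp [cdeg₂', cdeg₃]) (by simp [cdeg₂', cdeg₃]) _
      | exact neg_mem' (xDer_mem' (by simp [cdeg₂', cdeg₃]) (by simp [cdeg₂', cdeg₃]) _)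
      | exact one_mem' (by simp [cdeg₂', cdeg₃]) (by simp [cdeg₂', cdeg₃])

theorem coneM₀_mem (e : Deg) (i : Fin 1) (j : Fin 4) :
    coneM₀ (xDer k) i j ∈ Fil k
      (e + (0, 1) + (-1, 1) + (-1, 1) + (-1, 1) - cdeg₃ ((-1, 1) : Deg) (0, 1) e j) := by
  fin_cases j <;>
    first
      | exact neg_mem' (xDer_mem' (by simp [cdeg₃]) (by simp [cdeg₃]) _)
      | exact one_mem' (by simp [cdeg₃]) (by simp [cdeg₃])

end Mem

/-- The number of terms of a resolution by the Koszul complex. -/
@[reducible] def xr : ℕ → ℕ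
  | 0 => 3
  | 1 => 3
  | 2 => 1
  | _ => 0

/-- Its matrices, from the top. -/
def xN (k : Type) [Field k] : ∀ l, Fin (xr (l + 1)) → Fin (xr l) → DOp k
  | 0 => curlM (xVar k)
  | 1 => gradM (xVar k)
  | _ + 2 => fun i => i.elim0

/-- Its matrices, from the bottom. -/
def yN (k : Type) [Field k] : ∀ l, Fin (xr l) → Fin (xr (l + 1)) → DOp k
  | 0 => curlM (xVar k)
  | 1 => dotM (xVar k)
  | _ + 2 => fun _ j => j.elim0

/-- The number of terms of the cone. -/
@[reducible] def cr : ℕ → ℕ
  | 0 => 4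
  | 1 => 6
  | 2 => 4
  | 3 => 1
  | _ => 0

/-- The degrees of the terms of the cone over `e`. -/
def cd (e : Deg) : ∀ l, Fin (cr l) → Deg
  | 0 => cdeg₁ ((-1, 1) : Deg) (0, 1) e
  | 1 => cdeg₂' ((-1, 1) : Deg) (0, 1) e
  | 2 => cdeg₃ ((-1, 1) : Deg) (0, 1) e
  | 3 => fun _ => e + (0, 1) + (-1, 1) + (-1, 1) + (-1, 1)
  | _ + 4 => fun i => i.elim0

/-- The matrices of the cone. -/
def cN (k : Type) [Field k] : ∀ l, Fin (cr (l + 1)) → Fin (cr l) → DOp k
  | 0 => coneM₂ (xDer k)
  | 1 => coneM₁ (xDer k)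
  | 2 => coneM₀ (xDer k)
  | _ + 3 => fun i => i.elim0

theorem rowExact_empty {R W G D : Type*} [Ring R] [AddCommGroup W] [Module R W] [AddCommMonoid G]
    [Ring D] {A : G → Submodule R W} {φ : D →+ (W →ₗ[R] W)} {a b c : ℕ} {da : Fin a → G}
    {db : Fin b → G} {N : Fin a → Fin b → D} {N' : Fin b → Fin c → D} (h : b = 0) :
    RowExact A φ da db N N' := fun _ _ _ =>
  ⟨0, fun _ => zero_mem _, funext fun j => absurd (h ▸ j : Fin 0).elim0 id⟩

theorem rowExact_of_inj {R W G D : Type*} [Ring R] [AddCommGroup W] [Module R W] [AddCommMonoid G]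
    [Ring D] {A : G → Submodule R W} {φ : D →+ (W →ₗ[R] W)} {a b c : ℕ} {da : Fin a → G}
    {db : Fin b → G} {N : Fin a → Fin b → D} {N' : Fin b → Fin c → D}
    (h : RowInj A φ db N') : RowExact A φ da db N N' := fun y hy hy' =>
  ⟨0, fun _ => zero_mem _, by rw [h y hy hy']; funext j; simp [mrow]⟩

theorem rowExact_of_surj {R W G D : Type*} [Ring R] [AddCommGroup W] [Module R W] [AddCommMonoid G]
    [Ring D] {A : G → Submodule R W} {φ : D →+ (W →ₗ[R] W)} {a b c : ℕ} {da : Fin a → G}
    {db : Fin b → G} {N : Fin a → Fin b → D} {N' : Fin b → Fin c → D}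
    (h : RowSurj A φ da db N) : RowExact A φ da db N N' := fun y hy _ => h y hy

variable [CharZero k]

section Frame

variable {R : Type u} [Ring R] {ι : Type} {F : Frame k R ι}

/-- The step along the variables. -/
theorem Target.good_x (T : Target F) (e : Deg) (hv : ∀ v, e.1 < (F.vd v).1)
    (hrow : KRow T.A (fun i => T.act (xVar k i)) ((1, 0) : Deg) e)
    (hgood : ∀ j : ℕ, 1 ≤ j → j ≤ 3 → T.Good (e + ((j : ℤ), 0))) : T.Good e := by
  have hg : ∀ v, KRow (R := k) (W := DOp k) (Fil k) (varR k) ((1, 0) : Deg)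
      (F.vd v - e - (3, 0)) := fun v => by
    refine krow_varR ?_
    have := hv v
    simp only [Prod.fst_sub]
    omega
  have hx : ∀ i, actR k (xVar k i) = varR k i := fun _ => rfl
  have hT : ∀ i, T.act (xVar k i) = (fun i => T.act (xVar k i)) i := fun _ => rfl
  refine T.good_of_matrices 2 (r := xr) (fun i hi => ?_)
    (fun l _ => e + ((l : ℤ) + 1, 0)) e (dotM (xVar k)) (xN k) ?_ ?_ (mzero_curl xVar_comm) ?_
    ?_ ?_ ?_ ?_ ?_ ?_ ?_
  · match i, hi with
    | i + 3, _ => rfl
  · intro i j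
    exact xVar_mem' (by simp) (by simp) i
  · intro l i j
    match l with
    | 0 => exact curlM_mem (xVar_mem' (by simp) (by simp)) i j
    | 1 => exact xVar_mem' (by simp) (by simp) j
    | _ + 2 => exact i.elim0
  · intro l
    match l with
    | 0 => exact mzero_grad xVar_comm
    | _ + 1 => exact fun i => i.elim0
  · intro v
    exact ((hg v).surj_dotM hx).congr (fun i => by ext <;> simp <;> ring)
      (fun i => by ext <;> simp <;> ring)
  · intro v
    exact ((hg v).exact_curlM hx).congr (fun i => by ext <;> simp <;> ring)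
      (fun i => by ext <;> simp <;> ring)
  · intro v l
    match l with
    | 0 =>
      exact ((hg v).exact_gradM hx).congr (fun i => by ext <;> simp <;> ring)
        (fun i => by ext <;> simp <;> ring)
    | 1 =>
      exact rowExact_of_inj (((hg v).inj_gradM hx).congr fun i => by ext <;> simp <;> ring)
    | _ + 2 => exact rowExact_empty rfl
  · exact hrow.inj_tr hT
  · exact (hrow.exact_tr₀ hT).congr (fun _ => rfl) (fun i => by ext <;> simp)
  · intro l
    match l with
    | 0 =>
      exact (hrow.exact_tr₁ hT).congr (fun i => by ext <;> simp)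
        (fun i => by ext <;> simp; ring)
    | 1 =>
      exact rowExact_of_surj ((hrow.surj_tr hT).congr (fun i => by ext <;> simp; ring)
        (fun i => by ext <;> simp; ring))
    | _ + 2 => exact rowExact_empty rfl
  · intro l j
    have : l < 3 := by
      by_contra h
      match l, h with
      | _ + 3, _ => exact j.elim0
    have := hgood (l + 1) (by omega) (by omega)
    simpa using this

/-- The step along the derivations and the inclusion. -/
theorem Target.good_d (T : Target F) (e : Deg) (hv : ∀ v, e.2 < (F.vd v).2)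
    (h1 : T.act 1 = LinearMap.id)
    (hrow : CRow T.A (fun i => T.act (xDer k i)) ((-1, 1) : Deg) (0, 1) e)
    (hgood : ∀ e', e.1 - 3 ≤ e'.1 → e'.1 ≤ e.1 → e.2 < e'.2 → e'.2 ≤ e.2 + 4 → T.Good e') :
    T.Good e := by
  have hg : ∀ v, CRow (R := k) (W := DOp k) (Fil k) (derR k) ((-1, 1) : Deg) (0, 1)
      (F.vd v - e - (-3, 4)) := fun v => by
    refine crow_derR ?_
    have := hv v
    simp only [Prod.snd_sub]
    omega
  have hx : ∀ i, actR k (xDer k i) = derR k i := fun _ => rfl
  have hT : ∀ i, T.act (xDer k i) = (fun i => T.act (xDer k i)) i := fun _ => rfl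
  refine T.good_of_matrices 3 (r := cr) (fun i hi => ?_) (cd e) e (coneM₃ (xDer k)) (cN k)
    ?_ ?_ (mzero_cone₂ xDer_comm) ?_ ?_ ?_ ?_ ?_ ?_ ?_ ?_
  · match i, hi with
    | i + 4, _ => rfl
  · exact fun i j => coneM₃_mem e i j
  · intro l i j
    match l with
    | 0 => exact coneM₂_mem e i j
    | 1 => exact coneM₁_mem e i j
    | 2 => exact coneM₀_mem e i j
    | _ + 3 => exact i.elim0
  · intro l
    match l with
    | 0 => exact mzero_cone₁ xDer_comm
    | 1 => exact mzero_cone₀ xDer_comm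
    | _ + 2 => exact fun i => i.elim0
  · intro v
    exact ((hg v).surj hx actR_one).congr
      (fun i => by fin_cases i <;> ext <;> simp [cd, cdeg₁, cdeg₃] <;> ring)
      (fun i => by ext <;> simp <;> ring)
  · intro v
    exact ((hg v).exact₂ hx actR_one).congr
      (fun i => by fin_cases i <;> ext <;> simp [cd, cdeg₂, cdeg₂'] <;> ring)
      (fun i => by fin_cases i <;> ext <;> simp [cd, cdeg₁, cdeg₃] <;> ring)
  · intro v l
    match l with
    | 0 =>
      exact ((hg v).exact₁ hx actR_one).congr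
        (fun i => by fin_cases i <;> ext <;> simp [cd, cdeg₁, cdeg₃] <;> ring)
        (fun i => by fin_cases i <;> ext <;> simp [cd, cdeg₂, cdeg₂'] <;> ring)
    | 1 =>
      exact ((hg v).exact₀ hx actR_one).congr (fun i => by ext <;> simp [cd] <;> ring)
        (fun i => by fin_cases i <;> ext <;> simp [cd, cdeg₁, cdeg₃] <;> ring)
    | 2 =>
      exact rowExact_of_inj
        ((inj_coneM₀ (g := F.vd v - e - (-3, 4)) actR_one).congr
          fun i => by ext <;> simp [cd] <;> ring)
    | _ + 3 => exact rowExact_empty rfl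
  · exact inj_tr_coneM₃ h1
  · exact hrow.exact_tr₀ hT h1
  · intro l
    match l with
    | 0 => exact hrow.exact_tr₁ hT h1
    | 1 => exact hrow.exact_tr₂ hT h1
    | 2 => exact rowExact_of_surj (hrow.surj_tr hT h1)
    | _ + 3 => exact rowExact_empty rfl
  · intro l j
    refine hgood _ ?_ ?_ ?_ ?_
    all_goals
      match l with
      | 0 | 1 | 2 | 3 => fin_cases j <;> simp [cd, cdeg₁, cdeg₂', cdeg₃] <;> omega
      | _ + 4 => exact j.elim0

variable (F)

/-- The step lowering the degree of the free object. -/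
theorem Frame.good_cores (e f : Deg) (hv : ∀ v, f.1 < (F.vd v).1 + 3) (he : f.1 < e.1 + 3)
    (hgood : ∀ j : ℕ, 1 ≤ j → j ≤ 3 → (F.target (f - ((j : ℤ), 0))).Good e) :
    (F.target f).Good e := by
  have hg : ∀ x : Deg, f.1 < x.1 + 3 →
      KRow (R := k) (W := DOp k) (Fil k) (varR k) ((1, 0) : Deg) (x - f) := fun x hxf =>
    krow_varR (by simp only [Prod.fst_sub]; omega)
  have hx : ∀ i, actR k (xVar k i) = varR k i := fun _ => rfl
  have e₀ : ∀ x : Deg, f.1 < x.1 + 3 → ∀ {c : ℕ} (_N : Fin 3 → Fin c → DOp k),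
      RowExact (R := k) (W := DOp k) (Fil k) (actR k) (fun _ => x - f)
        (fun _ => x - f + (1, 0)) (gradM (xVar k)) (curlM (xVar k)) := fun x hxf _ _ =>
    (hg x hxf).exact_gradM hx
  have e₁ : ∀ (x : Deg) (l : ℕ), f.1 < x.1 + 3 →
      RowExact (R := k) (W := DOp k) (Fil k) (actR k)
        (fun _ : Fin (xr l) => x - (f - ((l : ℤ) + 1, 0)))
        (fun _ : Fin (xr (l + 1)) => x - (f - (((l + 1 : ℕ) : ℤ) + 1, 0)))
        (yN k l) (yN k (l + 1)) := fun x l hxf => by
    match l with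
    | 0 =>
      exact ((hg x hxf).exact_curlM hx).congr (fun i => by ext <;> simp; ring)
        (fun i => by ext <;> simp; ring)
    | 1 =>
      exact rowExact_of_surj (((hg x hxf).surj_dotM hx).congr (fun i => by ext <;> simp; ring)
        (fun i => by ext <;> simp; ring))
    | _ + 2 => exact rowExact_empty rfl
  refine F.good_of_comatrices 2 (r := xr) (fun i hi => ?_)
    (fun l _ => f - ((l : ℤ) + 1, 0)) e f (gradM (xVar k)) (yN k) ?_ ?_ (mzero_grad xVar_comm)
    ?_ ?_ ?_ ?_ ?_ ?_ ?_ ?_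
  · match i, hi with
    | i + 3, _ => rfl
  · intro i j
    exact xVar_mem' (by simp) (by simp) j
  · intro l i j
    match l with
    | 0 => exact curlM_mem (xVar_mem' (by simp) (by simp)) i j
    | 1 => exact xVar_mem' (by simp) (by simp) i
    | _ + 2 => exact j.elim0
  · intro l
    match l with
    | 0 => exact mzero_curl xVar_comm
    | _ + 1 => exact fun i j => j.elim0
  · exact fun v => (hg _ (hv v)).inj_gradM hx
  · exact fun v => (e₀ _ (hv v) (curlM (xVar k))).congr (fun _ => rfl)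
      (fun i => by ext <;> simp; ring)
  · exact fun v l => e₁ _ l (hv v)
  · exact (hg e he).inj_gradM hx
  · exact (e₀ e he (curlM (xVar k))).congr (fun _ => rfl) (fun i => by ext <;> simp; ring)
  · exact fun l => e₁ e l he
  · intro l j
    have : l < 3 := by
      by_contra h
      match l, h with
      | _ + 3, _ => exact j.elim0
    have := hgood (l + 1) (by omega) (by omega)
    simpa using this

/-- The pieces of the target of degree `f` have exact rows of the variables. -/
theorem Frame.krow_target (e f : Deg) (h : f.1 < e.1 + 3) :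
    KRow (F.target f).A (fun i => (F.target f).act (xVar k i)) ((1, 0) : Deg) e := by
  have K : KRow (R := k) (W := DOp k) (Fil k) (varL k) ((1, 0) : Deg) (e - f) :=
    krow_varL (by simp only [Prod.fst_sub]; omega)
  refine ⟨fun z hz h => K.bot z hz h, ?_, ?_, ?_⟩
  · intro w hw hc
    exact K.grad w (fun i => by simpa only [sub_add_eq_add_sub] using hw i) hc
  · intro y hy hc
    obtain ⟨w, hw, he⟩ := K.curl y (fun i => by simpa only [sub_add_eq_add_sub] using hy i) hc
    exact ⟨w, fun i => by simpa only [sub_add_eq_add_sub] using hw i, he⟩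
  · intro z hz
    obtain ⟨y, hy, he⟩ := K.top z (by simpa only [sub_add_eq_add_sub] using hz)
    exact ⟨y, fun i => by simpa only [sub_add_eq_add_sub] using hy i, he⟩

/-- The pieces of the target of degree `f` have exact cones. -/
theorem Frame.crow_target (e f : Deg) (h : f.2 < e.2 + 4) :
    CRow (F.target f).A (fun i => (F.target f).act (xDer k i)) ((-1, 1) : Deg) (0, 1) e := by
  have K : CRow (R := k) (W := DOp k) (Fil k) (derL k) ((-1, 1) : Deg) (0, 1) (e - f) :=
    crow_derL (by simp only [Prod.snd_sub]; omega)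
  refine ⟨?_, ?_, ?_, ?_⟩
  · intro Z w hZ hw hc
    exact K.grad Z w (by simpa only [sub_add_eq_add_sub] using hZ)
      (fun i => by simpa only [sub_add_eq_add_sub] using hw i) hc
  · intro w y hw hy hc
    obtain ⟨Z, a, hZ, ha, h1, h2⟩ := K.curl w y
      (fun i => by simpa only [sub_add_eq_add_sub] using hw i)
      (fun i => by simpa only [sub_add_eq_add_sub] using hy i) hc
    exact ⟨Z, a, by simpa only [sub_add_eq_add_sub] using hZ,
      fun i => by simpa only [sub_add_eq_add_sub] using ha i, h1, h2⟩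
  · intro y z hy hz hc
    obtain ⟨w, b, hw, hb, h1, h2⟩ := K.dot y z
      (fun i => by simpa only [sub_add_eq_add_sub] using hy i)
      (by simpa only [sub_add_eq_add_sub] using hz) hc
    exact ⟨w, b, fun i => by simpa only [sub_add_eq_add_sub] using hw i,
      fun i => by simpa only [sub_add_eq_add_sub] using hb i, h1, h2⟩
  · intro Z hZ
    obtain ⟨y, z, hy, hz, he⟩ := K.top Z (by simpa only [sub_add_eq_add_sub] using hZ)
    exact ⟨y, z, fun i => by simpa only [sub_add_eq_add_sub] using hy i,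
      by simpa only [sub_add_eq_add_sub] using hz, he⟩

/-- **E-lemma, free objects.** -/
theorem Frame.good_free (hv : ∀ v, 0 ≤ (F.vd v).1 ∧ 0 ≤ (F.vd v).2)
    (base : ∀ e f : Deg, 0 ≤ e.1 → e.1 ≤ 2 → 0 ≤ e.2 → e.2 ≤ 3 → (F.target f).Good e)
    (e f : Deg) (he1 : e.1 ≤ 2) (he2 : e.2 ≤ 3) (hf1 : f.1 ≤ 1) (hf2 : f.2 ≤ 0)
    (h1 : f.1 ≤ e.1 + 2) (h2 : f.2 ≤ e.2 + 3) : (F.target f).Good e := by
  obtain ⟨n, hn⟩ : ∃ n, (-e.2).toNat = n := ⟨_, rfl⟩
  induction n using Nat.strong_induction_on generalizing e f with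
  | _ n ihn => ?_
  by_cases h0 : 0 ≤ e.2
  · obtain ⟨m, hm⟩ : ∃ m, (-e.1).toNat = m := ⟨_, rfl⟩
    induction m using Nat.strong_induction_on generalizing e with
    | _ m ihm => ?_
    by_cases h1' : 0 ≤ e.1
    · exact base e f h1' he1 h0 he2
    refine (F.target f).good_x e (fun v => by have := (hv v).1; omega)
      (F.krow_target e f (by omega)) fun j hj hj' => ?_
    refine ihm _ ?_ (e + ((j : ℤ), 0)) ?_ ?_ ?_ ?_ ?_ ?_ rfl <;>
      simp only [Prod.fst_add, Prod.snd_add, add_zero] <;> omega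
  · obtain ⟨m, hm⟩ : ∃ m, (f.1 - e.1 + 1).toNat = m := ⟨_, rfl⟩
    induction m using Nat.strong_induction_on generalizing f with
    | _ m ihm => ?_
    by_cases hlo : f.1 ≤ e.1 - 1
    · refine (F.target f).good_d e (fun v => by have := (hv v).2; omega) actL_one
        (F.crow_target e f (by omega)) fun e' a b c d => ?_
      exact ihn _ (by omega) e' f (by omega) (by omega) hf1 hf2 (by omega) (by omega) rfl
    · refine F.good_cores e f (fun v => by have := (hv v).1; omega) (by omega) fun j hj hj' => ?_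
      refine ihm _ ?_ (f - ((j : ℤ), 0)) ?_ ?_ ?_ ?_ rfl <;>
        simp only [Prod.fst_sub, Prod.snd_sub, sub_zero] <;> omega

variable {F}

/-- **E-lemma, targets with exact rows.** -/
theorem Target.good_all (T : Target F) (hv : ∀ v, 0 ≤ (F.vd v).1 ∧ 0 ≤ (F.vd v).2)
    (h1 : T.act 1 = LinearMap.id)
    (hk : ∀ e : Deg, e.1 < 0 → KRow T.A (fun i => T.act (xVar k i)) ((1, 0) : Deg) e)
    (hc : ∀ e : Deg, CRow T.A (fun i => T.act (xDer k i)) ((-1, 1) : Deg) (0, 1) e)
    (base : ∀ e : Deg, 0 ≤ e.1 → e.1 ≤ 2 → 0 ≤ e.2 → e.2 ≤ 3 → T.Good e)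
    (e : Deg) (he1 : e.1 ≤ 2) (he2 : e.2 ≤ 3) : T.Good e := by
  obtain ⟨n, hn⟩ : ∃ n, (-e.2).toNat = n := ⟨_, rfl⟩
  induction n using Nat.strong_induction_on generalizing e with
  | _ n ihn => ?_
  by_cases h0 : 0 ≤ e.2
  · obtain ⟨m, hm⟩ : ∃ m, (-e.1).toNat = m := ⟨_, rfl⟩
    induction m using Nat.strong_induction_on generalizing e with
    | _ m ihm => ?_
    by_cases h1' : 0 ≤ e.1
    · exact base e h1' he1 h0 he2
    refine T.good_x e (fun v => by have := (hv v).1; omega) (hk e (by omega)) fun j hj hj' => ?_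
    refine ihm _ ?_ (e + ((j : ℤ), 0)) ?_ ?_ ?_ ?_ rfl <;>
      simp only [Prod.fst_add, Prod.snd_add, add_zero] <;> omega
  · refine T.good_d e (fun v => by have := (hv v).2; omega) h1 (hc e) fun e' a b c d => ?_
    exact ihn _ (by omega) e' (by omega) (by omega) rfl

end Frame

end Vale.Agent.P195.Disproof
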