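import Vale.Agent.P195.Disproof.Proj
import Vale.Agent.P195.Disproof.GoodSteps

/-!
# P195: the E-lemma for the free families and the inverse polynomials

`(P k f).Res` and `(Dc k c).Res` have no extensions from the free families `(P k e).Res` in the
stated ranges, and all maps out of these are evaluations.  `bkFrame` is the frame of the free
families over `Bk k`, giving their sums and the maps between them by matrices of operators.
-/

noncomputable section

namespace Vale.Agent.P195.Disproof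

variable {k : Type} [Field k]

instance instAddCommGroupFil (d : Deg) : AddCommGroup (Fil k d) :=
  @Submodule.addCommGroup k (DOp k) _ _ _ (Fil k d)

/-- The column of an element of a free family. -/
def coordL (k : Type) [Field k] (e : Deg) : (P k e).Res →ₗ[Bk k] Vec (DOp k) :=
  (P k e).bs.liftQ (P k e).cm.subtype fun _ hf => vec_ext fun v => hf v

theorem coordL_mkRes (e : Deg) (f : Vec (DOp k)) (hf : ∀ v, f v ∈ (P k e).comp (pos v)) :
    coordL k e ((P k e).mkRes f hf) = f := rfl

/-- The coordinates of an element of a free family. -/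
def coord (k : Type) [Field k] (e : Deg) : (P k e).Res →+ (Vtx → DOp k) where
  toFun x v := coordL k e x v
  map_zero' := funext fun v => by rw [map_zero]; rfl
  map_add' x y := funext fun v => by rw [map_add]; rfl

theorem coord_mkRes (e : Deg) (f : Vec (DOp k)) (hf : ∀ v, f v ∈ (P k e).comp (pos v)) :
    coord k e ((P k e).mkRes f hf) = f := funext fun v => congrFun (coordL_mkRes e f hf) v

theorem coord_ev (e e' : Deg) (a : DOp k) (ha : a ∈ (P k e').comp e) (x : (P k e).Res) (v : Vtx) :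
    coord k e' (ev (P k e') e a ha x) v = coord k e x v * a := by
  obtain ⟨f, hf, rfl⟩ := (P k e).exists_mkRes x
  refine ((congrArg (fun z => coord k e' z v) (ev_mkRes (P k e') e a ha f hf)).trans
    (congrFun (coord_mkRes e' _ _) v)).trans ?_
  exact congrArg (· * a) (congrFun (coord_mkRes e f hf) v).symm

variable (k) in
/-- The frame of the free families. -/
def bkFrame : Frame k (Bk k) Vtx where
  vd := pos
  Pm e := (P k e).Res
  acg e := GMod.instAddCommGroupRes _
  mod e := GMod.instModuleRes _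
  co := coord k
  co_inj e := by
    refine (injective_iff_map_eq_zero _).2 fun x hx => ?_
    obtain ⟨f, hf, rfl⟩ := (P k e).exists_mkRes x
    rw [coord_mkRes] at hx
    exact (P k e).mkRes_eq_zero.2 fun v => congrFun hx v
  co_mem e x v := by
    obtain ⟨f, hf, rfl⟩ := (P k e).exists_mkRes x
    rw [coord_mkRes]
    exact hf v
  co_surj e y hy := ⟨(P k e).mkRes y hy, coord_mkRes e y hy⟩
  rm e e' a ha := ev (P k e') e a ha
  co_rm := coord_ev

theorem pos_nonneg (v : Vtx) : 0 ≤ (pos v).1 ∧ 0 ≤ (pos v).2 :=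
  ⟨Int.natCast_nonneg _, Int.natCast_nonneg _⟩

theorem exists_pos {e : Deg} (h1 : 0 ≤ e.1) (h1' : e.1 ≤ 2) (h2 : 0 ≤ e.2) (h2' : e.2 ≤ 3) :
    ∃ v : Vtx, pos v = e :=
  ⟨(⟨e.1.toNat, by omega⟩, ⟨e.2.toNat, by omega⟩),
    Prod.ext (Int.toNat_of_nonneg h1) (Int.toNat_of_nonneg h2)⟩

theorem goodHom_P_of_good {e f : Deg} (h : Good (P k f) e) :
    ((bkFrame k).target f).Good e := by
  refine ⟨h.ext, (injective_iff_map_eq_zero _).2 fun a ha => Subtype.ext ?_, fun g => ?_⟩
  · exact h.inj a.1 a.2 ha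
  · obtain ⟨y, hy, hg⟩ := h.surj g
    exact ⟨⟨y, hy⟩, hg⟩

theorem good_P_of_goodHom {e f : Deg} (h : ((bkFrame k).target f).Good e) :
    Good (P k f) e where
  ext := h.1
  surj g := by
    obtain ⟨a, ha⟩ := h.2.2 g
    exact ⟨a.1, a.2, ha⟩
  inj y hy hz := by
    have h0 : (⟨y, hy⟩ : ((bkFrame k).target f).A e) = 0 := h.2.1 (by rw [map_zero]; exact hz)
    exact congrArg Subtype.val h0

section Dc

variable (k)

/-- The lift of a class to the monomials with negative exponents only. -/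
def negLift : LQ k →ₗ[k] LP k :=
  (nonneg k).liftQ
    ({ toFun := Finsupp.filter fun m : Xp => ∀ i, m i < 0
       map_add' := fun _ _ => Finsupp.filter_add
       map_smul' := fun _ _ => Finsupp.filter_smul } : LP k →ₗ[k] LP k)
    fun z hz => by
      show Finsupp.filter (fun m : Xp => ∀ i, m i < 0) z = 0
      rw [Finsupp.filter_eq_zero_iff]
      intro m hm
      by_contra hne
      obtain ⟨i, hi⟩ := (Finsupp.mem_supported k z).1 hz (Finsupp.mem_support_iff.2 hne)
      exact (hm i).not_ge hi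

variable {k}

theorem negLift_mk (z : LP k) :
    negLift k ((nonneg k).mkQ z) = Finsupp.filter (fun m : Xp => ∀ i, m i < 0) z := rfl

theorem negLift_sub_mem (z : LP k) : z - negLift k ((nonneg k).mkQ z) ∈ nonneg k := by
  refine (Finsupp.mem_supported k _).2 ?_
  rw [negLift_mk]
  intro m hm
  rw [SetLike.mem_coe, Finsupp.mem_support_iff, Finsupp.sub_apply] at hm
  by_contra hne
  refine hm ?_
  rw [Finsupp.filter_apply_pos (fun m : Xp => ∀ i, m i < 0) z
    (fun i => not_le.1 fun h => hne ⟨i, h⟩), sub_self]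

theorem Dc_comp_eq (c : ℤ) (e : Deg) : (Dc k c).comp e = homog k (e.1 + c) := by
  show Finsupp.supported k k (degIdx (e.1 + c)) = _
  rw [homog]
  congr 1
  ext m
  simp [degIdx, xdeg, Fin.sum_univ_three]

theorem Dc_base_iff (c : ℤ) (e : Deg) (y : LP k) :
    y ∈ (Dc k c).base e ↔ y ∈ (Dc k c).comp e ∧ y ∈ nonneg k := by
  show y ∈ Finsupp.supported k k (negIdx (e.1 + c)) ↔
    y ∈ Finsupp.supported k k (degIdx (e.1 + c)) ∧ _
  simp only [nonneg, Finsupp.mem_supported]
  refine ⟨fun h => ⟨fun m hm => (h hm).2, fun m hm => (h hm).1⟩, fun h m hm => ⟨h.2 hm, h.1 hm⟩⟩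

theorem negLift_mem_comp (c : ℤ) (e : Deg) {z : LP k} (hz : z ∈ (Dc k c).comp e) :
    negLift k ((nonneg k).mkQ z) ∈ (Dc k c).comp e := by
  rw [negLift_mk]
  exact (Finsupp.mem_supported k _).2 fun m hm =>
    (Finsupp.mem_supported k z).1 hz (Finsupp.mem_support_iff.2 (by
      rw [SetLike.mem_coe, Finsupp.mem_support_iff, Finsupp.filter_apply] at hm
      split_ifs at hm with h
      · exact hm
      · exact absurd rfl hm))

theorem lift_mem_comp (c : ℤ) (e : Deg) {q : LQ k} (hq : q ∈ lqPiece k c e) :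
    negLift k q ∈ (Dc k c).comp e := by
  obtain ⟨z, hz, rfl⟩ := hq
  exact negLift_mem_comp c e (by rw [Dc_comp_eq]; exact hz)

variable (k) in
/-- The action on the quotient of Laurent polynomials. -/
def lqAct : DOp k →+ (LQ k →ₗ[k] LQ k) where
  toFun a := (nonneg k).mkQ.comp (LinearMap.comp (a : LP k →ₗ[k] LP k) (negLift k))
  map_zero' := LinearMap.ext fun _ => map_zero (nonneg k).mkQ
  map_add' _ _ := LinearMap.ext fun _ => map_add (nonneg k).mkQ _ _

theorem lqAct_apply (a : DOp k) (q : LQ k) :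
    lqAct k a q = (nonneg k).mkQ (a (negLift k q)) := rfl

theorem mkQ_negLift (q : LQ k) : (nonneg k).mkQ (negLift k q) = q := by
  obtain ⟨z, rfl⟩ := Submodule.Quotient.mk_surjective _ q
  exact ((Submodule.Quotient.eq _).2 (negLift_sub_mem z)).symm

theorem lqAct_one : lqAct k 1 = LinearMap.id := LinearMap.ext mkQ_negLift

theorem lqAct_xVar (i : Fin 3) : lqAct k (xVar k i) = qVar k i := by
  refine LinearMap.ext fun q => ?_
  obtain ⟨z, rfl⟩ := Submodule.Quotient.mk_surjective _ q
  show (nonneg k).mkQ (lVar k i (negLift k ((nonneg k).mkQ z))) = (nonneg k).mkQ (lVar k i z)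
  refine ((Submodule.Quotient.eq _).2 ?_).symm
  rw [← map_sub]
  exact lVar_nonneg i _ (negLift_sub_mem z)

theorem lqAct_mem (c : ℤ) (e e' : Deg) (a : DOp k) (ha : a ∈ Fil k (e' - e))
    (q : LQ k) (hq : q ∈ lqPiece k c e) : lqAct k a q ∈ lqPiece k c e' := by
  rw [lqAct_apply]
  refine Submodule.mem_map_of_mem ?_
  rw [← Dc_comp_eq]
  exact (Dc k c).smul_comp_of_eq ha (lift_mem_comp c e hq) (by abel)

theorem ev_congr_base {W : Type} [AddCommGroup W] [Module k W] [Module (DOp k) W] (Y : GMod k W)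
    (e : Deg) {y y' : W} (hy : y ∈ Y.comp e) (hy' : y' ∈ Y.comp e) (h : y - y' ∈ Y.base e) :
    ev Y e y hy = ev Y e y' hy' := by
  refine LinearMap.ext fun x => ?_
  obtain ⟨f, hf, rfl⟩ := (P k e).exists_mkRes x
  rw [ev_mkRes, ev_mkRes]
  refine (Submodule.Quotient.eq _).2 fun v => ?_
  show f v • y - f v • y' ∈ _
  rw [← smul_sub]
  exact Y.smul_base_of_eq (hf v) h (by abel)

theorem ev_add {W : Type} [AddCommGroup W] [Module k W] [Module (DOp k) W] (Y : GMod k W)
    (e : Deg) {y y' : W} (hy : y ∈ Y.comp e) (hy' : y' ∈ Y.comp e) :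
    ev Y e (y + y') (add_mem hy hy') = ev Y e y hy + ev Y e y' hy' := by
  refine LinearMap.ext fun x => ?_
  obtain ⟨f, hf, rfl⟩ := (P k e).exists_mkRes x
  rw [LinearMap.add_apply, ev_mkRes, ev_mkRes, ev_mkRes]
  exact congrArg Submodule.Quotient.mk (Subtype.ext (vec_ext fun v => smul_add _ _ _))

/-- The homomorphism given by a class. -/
def dcEv (k : Type) [Field k] (c : ℤ) (e : Deg) : lqPiece k c e →+ ((P k e).Res →ₗ[Bk k] (Dc k c).Res) :=
  AddMonoidHom.mk'
    (fun q => ev (Dc k c) e (negLift k q.1) (lift_mem_comp c e q.2))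
    fun q q' => (ev_congr_base (Dc k c) e (lift_mem_comp c e (q + q').2)
      (add_mem (lift_mem_comp c e q.2) (lift_mem_comp c e q'.2)) (by
        rw [show negLift k (q + q' : lqPiece k c e).1 = negLift k q.1 + negLift k q'.1 from
          map_add (negLift k) q.1 q'.1, sub_self]
        exact zero_mem _)).trans (ev_add _ _ _ _)

theorem dcEv_apply (c : ℤ) (e : Deg) (q : lqPiece k c e) :
    dcEv k c e q = ev (Dc k c) e (negLift k q.1) (lift_mem_comp c e q.2) := rfl

theorem dcEv_natural (c : ℤ) (e e' : Deg) (a : DOp k) (ha : a ∈ Fil k (e' - e))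
    (q : lqPiece k c e) : (dcEv k c e q).comp (ev (P k e) e' a ha) =
      dcEv k c e' ⟨lqAct k a q.1, lqAct_mem c e e' a ha q.1 q.2⟩ := by
  refine LinearMap.ext fun x => ?_
  obtain ⟨f, hf, rfl⟩ := (P k e').exists_mkRes x
  have ht : a • negLift k q.1 ∈ (Dc k c).comp e' :=
    (Dc k c).smul_comp_of_eq ha (lift_mem_comp c e q.2) (by abel)
  have hb : negLift k (lqAct k a q.1) - a • negLift k q.1 ∈ (Dc k c).base e' :=
    (Dc_base_iff c e' _).2 ⟨sub_mem (lift_mem_comp c e' (lqAct_mem c e e' a ha q.1 q.2)) ht, by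
      rw [← neg_sub]
      exact neg_mem (negLift_sub_mem _)⟩
  rw [LinearMap.comp_apply, dcEv_apply, dcEv_apply, ev_congr_base (Dc k c) e' _ ht hb, ev_mkRes]
  refine ((congrArg (ev (Dc k c) e (negLift k q.1) (lift_mem_comp c e q.2))
    (ev_mkRes (P k e) e' a ha f hf)).trans
    (ev_mkRes (Dc k c) e _ _ (fun v => f v • a) _)).trans ?_
  exact congrArg Submodule.Quotient.mk (Subtype.ext (vec_ext fun v => mul_smul _ _ _))

variable (k) in
/-- The inverse polynomials as a target. -/
abbrev dcTarget (c : ℤ) : Target (bkFrame k) where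
  Ym := (Dc k c).Res
  W := LQ k
  act := lqAct k
  A := lqPiece k c
  act_mem := lqAct_mem c
  ev e := dcEv k c e
  natural e e' a ha q := dcEv_natural c e e' a ha q

theorem goodHom_Dc_of_good {c : ℤ} {e : Deg} (h : Good (Dc k c) e) :
    (dcTarget k c).Good e := by
  refine ⟨h.ext, (injective_iff_map_eq_zero _).2 fun q hq => Subtype.ext ?_, fun g => ?_⟩
  · have h0 : negLift k q.1 ∈ (Dc k c).base e := h.inj _ (lift_mem_comp c e q.2) hq
    have := mkQ_eq_zero.2 ((Dc_base_iff c e _).1 h0).2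
    rwa [mkQ_negLift] at this
  · obtain ⟨y, hy, hg⟩ := h.surj g
    refine ⟨⟨(nonneg k).mkQ y, Submodule.mem_map_of_mem (by rwa [← Dc_comp_eq])⟩, ?_⟩
    rw [← hg]
    refine (ev_congr_base (Dc k c) e hy (negLift_mem_comp c e hy) ?_).symm
    exact (Dc_base_iff c e _).2 ⟨sub_mem hy (negLift_mem_comp c e hy), negLift_sub_mem y⟩

theorem good_Dc_of_goodHom {c : ℤ} {e : Deg} (h : (dcTarget k c).Good e) : Good (Dc k c) e where
  ext := h.1
  surj g := by
    obtain ⟨q, hq⟩ := h.2.2 g
    exact ⟨_, _, hq⟩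
  inj y hy hz := by
    have hcomp := negLift_mem_comp c e hy
    have hb : y - negLift k ((nonneg k).mkQ y) ∈ (Dc k c).base e :=
      (Dc_base_iff c e _).2 ⟨sub_mem hy hcomp, negLift_sub_mem y⟩
    have h0 : (⟨(nonneg k).mkQ y, Submodule.mem_map_of_mem (by rwa [← Dc_comp_eq])⟩ :
        lqPiece k c e) = 0 := h.2.1 (by
      rw [map_zero]
      exact ((ev_congr_base (Dc k c) e hy hcomp hb).symm.trans hz))
    exact (Dc_base_iff c e _).2 ⟨hy, mkQ_eq_zero.1 (congrArg Subtype.val h0)⟩

end Dc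

variable [CharZero k]

/-- **E-lemma, free families.** -/
theorem good_P {e f : Deg} (he1 : e.1 ≤ 2) (he2 : e.2 ≤ 3) (hf1 : f.1 ≤ 1) (hf2 : f.2 ≤ 0)
    (h1 : f.1 ≤ e.1 + 2) (h2 : f.2 ≤ e.2 + 3) : Good (P k f) e := by
  refine good_P_of_goodHom ((bkFrame k).good_free pos_nonneg (fun e' f' a b c d => ?_) e f he1 he2
    hf1 hf2 h1 h2)
  obtain ⟨v, rfl⟩ := exists_pos a b c d
  exact goodHom_P_of_good (good_pos _ v)

/-- **E-lemma, inverse polynomials.** -/
theorem good_Dc {c : ℤ} (hc : c ≤ -3) {e : Deg} (he1 : e.1 ≤ 2) (he2 : e.2 ≤ 3) :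
    Good (Dc k c) e := by
  refine good_Dc_of_goodHom ((dcTarget k c).good_all pos_nonneg lqAct_one (fun e' he' => ?_)
    (fun e' => crow_of_forall fun g => ?_) (fun e' a b c' d => ?_) e he1 he2)
  · have hfun : (fun i => (dcTarget k c).act (xVar k i)) = qVar k := funext lqAct_xVar
    rw [hfun]
    exact krow_lq (by omega)
  · show lqPiece k c (g + (0, 1)) = lqPiece k c g
    simp [lqPiece]
  · obtain ⟨v, rfl⟩ := exists_pos a b c' d
    exact goodHom_Dc_of_good (good_pos _ v)

end Vale.Agent.P195.Disproof
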