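import Vale.Agent.P195.Disproof.Koszul

/-!
# P195: Koszul complexes and their cones as matrices

The complexes of three operators and of the cone of a fourth are written with matrices, so that a
complex and the transposed complex are given by the same data.
-/

namespace Vale.Agent.P195.Disproof

variable {R W G D : Type*} [Ring R] [AddCommGroup W] [Module R W] [AddCommMonoid G] [Ring D]

/-- Applying a matrix of operators to a row. -/
def mrow (φ : D →+ (W →ₗ[R] W)) {a b : ℕ} (N : Fin a → Fin b → D) (y : Fin a → W) : Fin b → W :=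
  fun j => ∑ i, φ (N i j) (y i)

/-- The transposed matrix. -/
def tr {a b : ℕ} (N : Fin a → Fin b → D) : Fin b → Fin a → D := fun j i => N i j

omit [Ring D] in
theorem tr_tr {a b : ℕ} (N : Fin a → Fin b → D) : tr (tr N) = N := rfl

/-- Injectivity of a matrix on given pieces. -/
def RowInj (A : G → Submodule R W) (φ : D →+ (W →ₗ[R] W)) {a b : ℕ} (da : Fin a → G)
    (N : Fin a → Fin b → D) : Prop :=
  ∀ y, (∀ i, y i ∈ A (da i)) → mrow φ N y = 0 → y = 0

/-- Exactness of two matrices on given pieces. -/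
def RowExact (A : G → Submodule R W) (φ : D →+ (W →ₗ[R] W)) {a b c : ℕ} (da : Fin a → G)
    (db : Fin b → G) (N : Fin a → Fin b → D) (N' : Fin b → Fin c → D) : Prop :=
  ∀ y, (∀ i, y i ∈ A (db i)) → mrow φ N' y = 0 → ∃ w, (∀ i, w i ∈ A (da i)) ∧ mrow φ N w = y

/-- Surjectivity of a matrix on given pieces. -/
def RowSurj (A : G → Submodule R W) (φ : D →+ (W →ₗ[R] W)) {a b : ℕ} (da : Fin a → G)
    (db : Fin b → G) (N : Fin a → Fin b → D) : Prop :=
  ∀ y, (∀ i, y i ∈ A (db i)) → ∃ w, (∀ i, w i ∈ A (da i)) ∧ mrow φ N w = y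

section Matrices

variable (X : Fin 3 → D)

/-- The matrix of the gradient. -/
def gradM : Fin 1 → Fin 3 → D := fun _ j => X j

/-- The matrix of the curl. -/
def curlM : Fin 3 → Fin 3 → D :=
  ![![0, X 2, -X 1], ![-X 2, 0, X 0], ![X 1, -X 0, 0]]

/-- The matrix of the divergence. -/
def dotM : Fin 3 → Fin 1 → D := fun i _ => X i

/-- The first matrix of the cone, with the fourth operator the identity. -/
def coneM₀ : Fin 1 → Fin 4 → D := fun _ => ![-X 0, -X 1, -X 2, 1]

/-- The second matrix of the cone. -/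
def coneM₁ : Fin 4 → Fin 6 → D :=
  ![![1, 0, 0, 0, -X 2, X 1], ![0, 1, 0, X 2, 0, -X 0], ![0, 0, 1, -X 1, X 0, 0],
    ![X 0, X 1, X 2, 0, 0, 0]]

/-- The third matrix of the cone. -/
def coneM₂ : Fin 6 → Fin 4 → D :=
  ![![0, X 2, -X 1, 0], ![-X 2, 0, X 0, 0], ![X 1, -X 0, 0, 0],
    ![1, 0, 0, -X 0], ![0, 1, 0, -X 1], ![0, 0, 1, -X 2]]

/-- The last matrix of the cone. -/
def coneM₃ : Fin 4 → Fin 1 → D := ![fun _ => X 0, fun _ => X 1, fun _ => X 2, fun _ => 1]

end Matrices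

/-- The exactness of a Koszul complex of three operators of degree `s` starting at `g`. -/
structure KRow (A : G → Submodule R W) (x : Fin 3 → W →ₗ[R] W) (s g : G) : Prop where
  bot : ∀ z ∈ A g, (∀ i, x i z = 0) → z = 0
  grad : ∀ w : Fin 3 → W, (∀ i, w i ∈ A (g + s)) → curl x w = 0 →
    ∃ z ∈ A g, (fun i => x i z) = w
  curl : ∀ y : Fin 3 → W, (∀ i, y i ∈ A (g + s + s)) →
    x 0 (y 0) + x 1 (y 1) + x 2 (y 2) = 0 →
    ∃ w : Fin 3 → W, (∀ i, w i ∈ A (g + s)) ∧ curl x w = y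
  top : ∀ z ∈ A (g + s + s + s), ∃ y : Fin 3 → W, (∀ i, y i ∈ A (g + s + s)) ∧
    x 0 (y 0) + x 1 (y 1) + x 2 (y 2) = z

/-- The exactness of the cone of a fourth operator of degree `u`, the identity of `W`. -/
structure CRow (A : G → Submodule R W) (x : Fin 3 → W →ₗ[R] W) (s u g : G) : Prop where
  grad : ∀ (Z : W) (w : Fin 3 → W), Z ∈ A (g + u) → (∀ i, w i ∈ A (g + s)) →
    (∀ i, x i Z + w i = 0) → ∃ z ∈ A g, Z = z ∧ ∀ i, w i = -x i z
  curl : ∀ w y : Fin 3 → W, (∀ i, w i ∈ A (g + u + s)) → (∀ i, y i ∈ A (g + s + s)) →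
    (∀ i, Disproof.curl x w i + y i = 0) →
    ∃ (Z : W) (a : Fin 3 → W), Z ∈ A (g + u) ∧ (∀ i, a i ∈ A (g + s)) ∧
      (∀ i, w i = x i Z + a i) ∧ y = -Disproof.curl x a
  dot : ∀ (y : Fin 3 → W) (z : W), (∀ i, y i ∈ A (g + u + s + s)) → z ∈ A (g + s + s + s) →
    x 0 (y 0) + x 1 (y 1) + x 2 (y 2) + z = 0 →
    ∃ w b : Fin 3 → W, (∀ i, w i ∈ A (g + u + s)) ∧ (∀ i, b i ∈ A (g + s + s)) ∧
      (∀ i, y i = Disproof.curl x w i + b i) ∧ z = -(x 0 (b 0) + x 1 (b 1) + x 2 (b 2))
  top : ∀ Z ∈ A (g + u + s + s + s), ∃ (y : Fin 3 → W) (z : W),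
    (∀ i, y i ∈ A (g + u + s + s)) ∧ z ∈ A (g + s + s + s) ∧
      x 0 (y 0) + x 1 (y 1) + x 2 (y 2) + z = Z

section Division

variable {A : G → Submodule R W} {x : Fin 3 → W →ₗ[R] W} {s u g : G}

theorem Division.krow (S : Division A x fun _ => s)
    (hrem : ∀ z ∈ A (g + s + s + s), S.rem g z = 0) : KRow A x s g where
  bot z hz h := S.exact_bot hz h
  grad w hw h := S.exact_curl hw h
  curl y hy h := S.exact_dot (hy 0) (hy 1) (hy 2) h
  top z hz := by
    obtain ⟨y, h0, h1, h2, he⟩ := S.exact_top (g := g) hz (hrem z hz)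
    refine ⟨y, fun i => ?_, he⟩
    fin_cases i
    exacts [h0, h1, h2]

theorem ConeDivision.crow (S : ConeDivision A x (fun _ => s) LinearMap.id u)
    (hrem : ∀ z ∈ A (g + u + s + s + s),
      S.toDivision.rem (g + u) (z - S.dt (g + s + s + s) z) = 0) : CRow A x s u g where
  grad Z w hZ hw h := S.cone_grad hZ hw h
  curl w y hw hy h := S.cone_curl hw (hy 0) (hy 1) (hy 2) h
  dot y z hy hz h := by
    obtain ⟨w, b, hw, ⟨b0, b1, b2⟩, h1, h2⟩ := S.cone_dot (hy 0) (hy 1) (hy 2) hz h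
    refine ⟨w, b, hw, fun i => ?_, h1, h2⟩
    fin_cases i
    exacts [b0, b1, b2]
  top Z hZ := by
    obtain ⟨y, z, ⟨h0, h1, h2⟩, hz, he⟩ := S.cone_top hZ (by simpa using hrem Z hZ)
    refine ⟨y, z, fun i => ?_, hz, he⟩
    fin_cases i
    exacts [h0, h1, h2]

end Division

section Rows

variable {A : G → Submodule R W} {φ : D →+ (W →ₗ[R] W)} {X : Fin 3 → D} {x : Fin 3 → W →ₗ[R] W}
  {s u g : G} (hx : ∀ i, φ (X i) = x i)
include hx

theorem mrow_gradM (z : Fin 1 → W) : mrow φ (gradM X) z = fun j => x j (z 0) := by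
  funext j
  simp [mrow, gradM, hx]

theorem mrow_tr_dotM (z : Fin 1 → W) : mrow φ (tr (dotM X)) z = fun j => x j (z 0) := by
  funext j
  simp [mrow, tr, dotM, hx]

theorem mrow_dotM (y : Fin 3 → W) :
    mrow φ (dotM X) y = fun _ => x 0 (y 0) + x 1 (y 1) + x 2 (y 2) := by
  funext j
  simp [mrow, dotM, Fin.sum_univ_three, hx]

theorem mrow_tr_gradM (y : Fin 3 → W) :
    mrow φ (tr (gradM X)) y = fun _ => x 0 (y 0) + x 1 (y 1) + x 2 (y 2) := by
  funext j
  simp [mrow, tr, gradM, Fin.sum_univ_three, hx]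

theorem mrow_curlM (w : Fin 3 → W) : mrow φ (curlM X) w = curl x w := by
  funext j
  fin_cases j <;> simp [mrow, curlM, curl, Fin.sum_univ_three, hx] <;> abel

theorem mrow_tr_curlM (w : Fin 3 → W) : mrow φ (tr (curlM X)) w = -curl x w := by
  funext j
  fin_cases j <;> simp [mrow, tr, curlM, curl, Fin.sum_univ_three, hx] <;> abel

variable (K : KRow A x s g)
include K

theorem KRow.inj_gradM : RowInj A φ (fun _ => g) (gradM X) := by
  intro z hz h
  rw [mrow_gradM hx] at h
  funext j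
  rw [Subsingleton.elim j 0]
  exact K.bot _ (hz 0) fun i => congrFun h i

theorem KRow.exact_gradM : RowExact A φ (fun _ => g) (fun _ => g + s) (gradM X) (curlM X) := by
  intro w hw h
  rw [mrow_curlM hx] at h
  obtain ⟨z, hz, he⟩ := K.grad w hw h
  exact ⟨fun _ => z, fun _ => hz, by rw [mrow_gradM hx]; exact he⟩

theorem KRow.exact_curlM :
    RowExact A φ (fun _ => g + s) (fun _ => g + s + s) (curlM X) (dotM X) := by
  intro y hy h
  rw [mrow_dotM hx] at h
  obtain ⟨w, hw, he⟩ := K.curl y hy (congrFun h 0)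
  exact ⟨w, hw, by rw [mrow_curlM hx]; exact he⟩

theorem KRow.surj_dotM :
    RowSurj A φ (fun _ => g + s + s) (fun _ => g + s + s + s) (dotM X) := by
  intro z hz
  obtain ⟨y, hy, he⟩ := K.top _ (hz 0)
  refine ⟨y, hy, funext fun j => ?_⟩
  rw [mrow_dotM hx, Subsingleton.elim j 0]
  exact he

theorem KRow.inj_tr : RowInj A φ (fun _ => g) (tr (dotM X)) := by
  intro z hz h
  rw [mrow_tr_dotM hx] at h
  funext j
  rw [Subsingleton.elim j 0]
  exact K.bot _ (hz 0) fun i => congrFun h i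

theorem KRow.exact_tr₀ :
    RowExact A φ (fun _ => g) (fun _ => g + s) (tr (dotM X)) (tr (curlM X)) := by
  intro w hw h
  rw [mrow_tr_curlM hx, neg_eq_zero] at h
  obtain ⟨z, hz, he⟩ := K.grad w hw h
  exact ⟨fun _ => z, fun _ => hz, by rw [mrow_tr_dotM hx]; exact he⟩

theorem KRow.exact_tr₁ :
    RowExact A φ (fun _ => g + s) (fun _ => g + s + s) (tr (curlM X)) (tr (gradM X)) := by
  intro y hy h
  rw [mrow_tr_gradM hx] at h
  obtain ⟨w, hw, he⟩ := K.curl y hy (congrFun h 0)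
  refine ⟨-w, fun i => neg_mem (hw i), ?_⟩
  rw [mrow_tr_curlM hx, ← he]
  funext i
  fin_cases i <;> simp [Disproof.curl] <;> abel

theorem KRow.surj_tr :
    RowSurj A φ (fun _ => g + s + s) (fun _ => g + s + s + s) (tr (gradM X)) := by
  intro z hz
  obtain ⟨y, hy, he⟩ := K.top _ (hz 0)
  refine ⟨y, hy, funext fun j => ?_⟩
  rw [mrow_tr_gradM hx, Subsingleton.elim j 0]
  exact he

end Rows

section Cone

variable {A : G → Submodule R W} {φ : D →+ (W →ₗ[R] W)} {X : Fin 3 → D} {x : Fin 3 → W →ₗ[R] W}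
  {s u g : G}

/-- The degrees of the terms of the cone. -/
def cdeg₁ (s u g : G) : Fin 4 → G := ![g + s, g + s, g + s, g + u]

/-- The degrees of the middle terms of the cone. -/
def cdeg₂ (s u g : G) : Fin 6 → G :=
  ![g + u + s, g + u + s, g + u + s, g + s + s, g + s + s, g + s + s]

/-- The degrees of the fourth terms of the cone. -/
def cdeg₃ (s u g : G) : Fin 4 → G :=
  ![g + u + s + s, g + u + s + s, g + u + s + s, g + s + s + s]

variable (hx : ∀ i, φ (X i) = x i) (h1 : φ 1 = LinearMap.id)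
include h1

omit [AddCommMonoid G] in
theorem inj_coneM₀ : RowInj A φ (fun _ => g) (coneM₀ X) := by
  intro z _ h
  funext j
  rw [Subsingleton.elim j 0]
  simpa [mrow, coneM₀, h1] using congrFun h 3

omit [AddCommMonoid G] in
theorem inj_tr_coneM₃ : RowInj A φ (fun _ => g) (tr (coneM₃ X)) := by
  intro z _ h
  funext j
  rw [Subsingleton.elim j 0]
  simpa [mrow, tr, coneM₃, h1] using congrFun h 3

variable (K : CRow A x s u g)
include hx K

theorem CRow.exact₀ : RowExact A φ (fun _ => g) (cdeg₁ s u g) (coneM₀ X) (coneM₁ X) := by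
  intro y hy h
  have e : ∀ i, x i (y 3) + (![y 0, y 1, y 2] : Fin 3 → W) i = 0 := by
    intro i
    fin_cases i
    · simpa [mrow, coneM₁, Fin.sum_univ_four, hx, h1, add_comm] using congrFun h 0
    · simpa [mrow, coneM₁, Fin.sum_univ_four, hx, h1, add_comm] using congrFun h 1
    · simpa [mrow, coneM₁, Fin.sum_univ_four, hx, h1, add_comm] using congrFun h 2
  obtain ⟨z, hz, hZ, hw⟩ := K.grad (y 3) ![y 0, y 1, y 2] (hy 3)
    (fun i => by fin_cases i <;> [exact hy 0; exact hy 1; exact hy 2]) e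
  refine ⟨fun _ => z, fun _ => hz, funext fun i => ?_⟩
  fin_cases i
  · simpa [mrow, coneM₀, hx, h1] using (hw 0).symm
  · simpa [mrow, coneM₀, hx, h1] using (hw 1).symm
  · simpa [mrow, coneM₀, hx, h1] using (hw 2).symm
  · simpa [mrow, coneM₀, hx, h1] using hZ.symm

theorem CRow.exact₁ : RowExact A φ (cdeg₁ s u g) (cdeg₂ s u g) (coneM₁ X) (coneM₂ X) := by
  intro y hy h
  obtain ⟨Z, a, hZ, ha, hw, hy'⟩ := K.curl ![y 0, y 1, y 2] ![y 3, y 4, y 5]
    (fun i => by fin_cases i <;> [exact hy 0; exact hy 1; exact hy 2])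
    (fun i => by fin_cases i <;> [exact hy 3; exact hy 4; exact hy 5])
    (fun i => by
      have := congrFun h (Fin.castSucc i)
      fin_cases i <;>
        simp [mrow, coneM₂, Fin.sum_univ_succ, hx, h1, Disproof.curl] at this ⊢ <;>
        rw [← this] <;> abel)
  refine ⟨![a 0, a 1, a 2, Z], fun i => ?_, funext fun i => ?_⟩
  · fin_cases i <;> [exact ha 0; exact ha 1; exact ha 2; exact hZ]
  · fin_cases i
    · simp [mrow, coneM₁, Fin.sum_univ_four, hx, h1]; rw [show y 0 = _ from hw 0]; abel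
    · simp [mrow, coneM₁, Fin.sum_univ_four, hx, h1]; rw [show y 1 = _ from hw 1]; abel
    · simp [mrow, coneM₁, Fin.sum_univ_four, hx, h1]; rw [show y 2 = _ from hw 2]; abel
    · have := congrFun hy' 0
      simp [mrow, coneM₁, Fin.sum_univ_four, hx, Disproof.curl] at this ⊢
      rw [this]; abel
    · have := congrFun hy' 1
      simp [mrow, coneM₁, Fin.sum_univ_four, hx, Disproof.curl] at this ⊢
      rw [this]; abel
    · have := congrFun hy' 2
      simp [mrow, coneM₁, Fin.sum_univ_four, hx, Disproof.curl] at this ⊢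
      rw [this]; abel

theorem CRow.exact₂ : RowExact A φ (cdeg₂ s u g) (cdeg₃ s u g) (coneM₂ X) (coneM₃ X) := by
  intro y hy h
  obtain ⟨w, b, hw, hb, he, hz⟩ := K.dot ![y 0, y 1, y 2] (y 3)
    (fun i => by fin_cases i <;> [exact hy 0; exact hy 1; exact hy 2]) (hy 3)
    (by simpa [mrow, coneM₃, Fin.sum_univ_four, hx, h1] using congrFun h 0)
  refine ⟨![w 0, w 1, w 2, b 0, b 1, b 2], fun i => ?_, funext fun i => ?_⟩
  · fin_cases i <;>
      [exact hw 0; exact hw 1; exact hw 2; exact hb 0; exact hb 1; exact hb 2]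
  · fin_cases i
    · have := he 0
      simp [mrow, coneM₂, Fin.sum_univ_succ, hx, h1, Disproof.curl] at this ⊢
      rw [this]; abel
    · have := he 1
      simp [mrow, coneM₂, Fin.sum_univ_succ, hx, h1, Disproof.curl] at this ⊢
      rw [this]; abel
    · have := he 2
      simp [mrow, coneM₂, Fin.sum_univ_succ, hx, h1, Disproof.curl] at this ⊢
      rw [this]; abel
    · simp [mrow, coneM₂, Fin.sum_univ_succ, hx]
      rw [show y 3 = _ from hz]; abel

theorem CRow.surj : RowSurj A φ (cdeg₃ s u g) (fun _ => g + u + s + s + s) (coneM₃ X) := by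
  intro Z hZ
  obtain ⟨y, z, hy, hz, he⟩ := K.top _ (hZ 0)
  refine ⟨![y 0, y 1, y 2, z], fun i => ?_, funext fun j => ?_⟩
  · fin_cases i <;> [exact hy 0; exact hy 1; exact hy 2; exact hz]
  · rw [Subsingleton.elim j 0, ← he]
    simp [mrow, coneM₃, Fin.sum_univ_four, hx, h1]

/-- The degrees of the middle terms of the transposed cone. -/
def cdeg₂' (s u g : G) : Fin 6 → G :=
  ![g + s + s, g + s + s, g + s + s, g + u + s, g + u + s, g + u + s]

theorem CRow.exact_tr₀ :
    RowExact A φ (fun _ => g) (cdeg₁ s u g) (tr (coneM₃ X)) (tr (coneM₂ X)) := by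
  intro y hy h
  have e : ∀ i, x i (y 3) + (![-y 0, -y 1, -y 2] : Fin 3 → W) i = 0 := by
    intro i
    have h3 := congrFun h 3
    have h4 := congrFun h 4
    have h5 := congrFun h 5
    simp [mrow, tr, coneM₂, Fin.sum_univ_four, hx, h1] at h3 h4 h5
    fin_cases i
    · simp; rw [← neg_eq_zero, ← h3]; abel
    · simp; rw [← neg_eq_zero, ← h4]; abel
    · simp; rw [← neg_eq_zero, ← h5]; abel
  obtain ⟨z, hz, hZ, hw⟩ := K.grad (y 3) ![-y 0, -y 1, -y 2] (hy 3)
    (fun i => by fin_cases i <;> [exact neg_mem (hy 0); exact neg_mem (hy 1); exact neg_mem (hy 2)])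
    e
  refine ⟨fun _ => z, fun _ => hz, funext fun i => ?_⟩
  fin_cases i
  · simpa [mrow, tr, coneM₃, hx, h1] using (hw 0).symm
  · simpa [mrow, tr, coneM₃, hx, h1] using (hw 1).symm
  · simpa [mrow, tr, coneM₃, hx, h1] using (hw 2).symm
  · simpa [mrow, tr, coneM₃, hx, h1] using hZ.symm

theorem CRow.exact_tr₁ :
    RowExact A φ (cdeg₁ s u g) (cdeg₂' s u g) (tr (coneM₂ X)) (tr (coneM₁ X)) := by
  intro y hy h
  obtain ⟨Z, a, hZ, ha, hw, hy'⟩ := K.curl ![y 3, y 4, y 5] ![y 0, y 1, y 2]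
    (fun i => by fin_cases i <;> [exact hy 3; exact hy 4; exact hy 5])
    (fun i => by fin_cases i <;> [exact hy 0; exact hy 1; exact hy 2])
    (fun i => by
      have := congrFun h (Fin.castSucc i)
      fin_cases i <;>
        simp [mrow, tr, coneM₁, Fin.sum_univ_succ, hx, h1, Disproof.curl] at this ⊢ <;>
        rw [← this] <;> abel)
  refine ⟨![a 0, a 1, a 2, -Z], fun i => ?_, funext fun i => ?_⟩
  · fin_cases i <;> [exact ha 0; exact ha 1; exact ha 2; exact neg_mem hZ]
  · fin_cases i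
    · have := congrFun hy' 0
      simp [mrow, tr, coneM₂, Fin.sum_univ_four, hx, Disproof.curl] at this ⊢
      rw [this]; abel
    · have := congrFun hy' 1
      simp [mrow, tr, coneM₂, Fin.sum_univ_four, hx, Disproof.curl] at this ⊢
      rw [this]; abel
    · have := congrFun hy' 2
      simp [mrow, tr, coneM₂, Fin.sum_univ_four, hx, Disproof.curl] at this ⊢
      rw [this]; abel
    · simp [mrow, tr, coneM₂, Fin.sum_univ_four, hx, h1]; rw [show y 3 = _ from hw 0]; abel
    · simp [mrow, tr, coneM₂, Fin.sum_univ_four, hx, h1]; rw [show y 4 = _ from hw 1]; abel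
    · simp [mrow, tr, coneM₂, Fin.sum_univ_four, hx, h1]; rw [show y 5 = _ from hw 2]; abel

theorem CRow.exact_tr₂ :
    RowExact A φ (cdeg₂' s u g) (cdeg₃ s u g) (tr (coneM₁ X)) (tr (coneM₀ X)) := by
  intro y hy h
  obtain ⟨w, b, hw, hb, he, hz⟩ := K.dot ![-y 0, -y 1, -y 2] (y 3)
    (fun i => by fin_cases i <;> [exact neg_mem (hy 0); exact neg_mem (hy 1); exact neg_mem (hy 2)])
    (hy 3)
    (by simpa [mrow, tr, coneM₀, Fin.sum_univ_four, hx, h1] using congrFun h 0)
  refine ⟨![-b 0, -b 1, -b 2, -w 0, -w 1, -w 2], fun i => ?_, funext fun i => ?_⟩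
  · fin_cases i <;>
      [exact neg_mem (hb 0); exact neg_mem (hb 1); exact neg_mem (hb 2); exact neg_mem (hw 0);
        exact neg_mem (hw 1); exact neg_mem (hw 2)]
  · fin_cases i
    · have := he 0
      simp [mrow, tr, coneM₁, Fin.sum_univ_succ, hx, h1, Disproof.curl] at this ⊢
      rw [eq_comm, ← neg_neg (y 0), this]; abel
    · have := he 1
      simp [mrow, tr, coneM₁, Fin.sum_univ_succ, hx, h1, Disproof.curl] at this ⊢
      rw [eq_comm, ← neg_neg (y 1), this]; abel
    · have := he 2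
      simp [mrow, tr, coneM₁, Fin.sum_univ_succ, hx, h1, Disproof.curl] at this ⊢
      rw [eq_comm, ← neg_neg (y 2), this]; abel
    · simp [mrow, tr, coneM₁, Fin.sum_univ_succ, hx]
      rw [show y 3 = _ from hz]; abel

theorem CRow.surj_tr :
    RowSurj A φ (cdeg₃ s u g) (fun _ => g + u + s + s + s) (tr (coneM₀ X)) := by
  intro Z hZ
  obtain ⟨y, z, hy, hz, he⟩ := K.top _ (hZ 0)
  refine ⟨![-y 0, -y 1, -y 2, z], fun i => ?_, funext fun j => ?_⟩
  · fin_cases i <;> [exact neg_mem (hy 0); exact neg_mem (hy 1); exact neg_mem (hy 2); exact hz]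
  · rw [Subsingleton.elim j 0, ← he]
    simp [mrow, tr, coneM₀, Fin.sum_univ_four, hx, h1]

end Cone

end Vale.Agent.P195.Disproof
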