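import Vale.Agent.P195.Disproof.KoszulInst
import Vale.Agent.P195.Disproof.GoodRows

/-!
# P195: the exact rows on the pieces of the Weyl algebra and on the quotient of Laurent polynomials

The Koszul rows of the variables on `Fil` are exact at positive top weight and the cones of the
derivations with the inclusion at positive top order, from either side. On Laurent polynomials
modulo the monomials with a nonnegative exponent the rows of the variables are exact away from
degree `-3` and all cones are exact.
-/

noncomputable section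

namespace Vale.Agent.P195.Disproof

variable (k : Type) [Field k]

/-- Left multiplication, as a matrix entry. -/
def actL : DOp k →+ (DOp k →ₗ[k] DOp k) :=
  { toFun := fun a => LinearMap.mulLeft k a
    map_zero' := LinearMap.ext fun z => zero_mul z
    map_add' := fun a b => LinearMap.ext fun z => add_mul a b z }

/-- Right multiplication, as a matrix entry. -/
def actR : DOp k →+ (DOp k →ₗ[k] DOp k) :=
  { toFun := fun a => LinearMap.mulRight k a
    map_zero' := LinearMap.ext fun z => mul_zero z
    map_add' := fun a b => LinearMap.ext fun z => mul_add z a b }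

/-- The variables. -/
def xVar (i : Fin 3) : DOp k := op k (unit i) 0

/-- The derivations. -/
def xDer (i : Fin 3) : DOp k := op k 0 (unit i)

variable {k}

theorem xVar_mem (i : Fin 3) : xVar k i ∈ Fil k (1, 0) := var_mem_Fil i

theorem xDer_mem (i : Fin 3) : xDer k i ∈ Fil k (-1, 1) := deriv_mem_Fil i

theorem actL_one : actL k 1 = LinearMap.id := LinearMap.ext fun z => one_mul z

theorem actR_one : actR k 1 = LinearMap.id := LinearMap.ext fun z => mul_one z

variable [CharZero k]

theorem wt_eVar_fun : (fun i => wt (eVar i)) = fun _ => ((1, 0) : Deg) := funext wt_eVar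

theorem wt_eDer_fun : (fun i => wt (eDer i)) = fun _ => ((-1, 1) : Deg) := funext wt_eDer

section Instances

variable {B : MonBasis k (W := DOp k) (Fil k)} {e : Fin 3 → Ix × Ix}
  {x : Fin 3 → DOp k →ₗ[k] DOp k} {s : Deg}

/-- The division of monomials by exponents of constant weight. -/
def constDiv (H : B.Moves e x) (hs : ∀ i, wt (e i) = s) :
    Division (R := k) (W := DOp k) (Fil k) x fun _ => s where
  dv := H.division.dv
  x_mem i g z hz := hs i ▸ H.division.x_mem i g z hz
  x_comm := H.division.x_comm
  dv_mem i g z hz := H.division.dv_mem i g z ((hs i).symm ▸ hz)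
  dv_x := H.division.dv_x
  dv_comm i j hij g z hz := by
    have := H.division.dv_comm i j hij g z ((hs i).symm ▸ hz)
    exact this

/-- The cone over the division of monomials by exponents of constant weight. -/
def constCone (H : B.Moves e x) (hs : ∀ i, wt (e i) = s) :
    ConeDivision (R := k) (W := DOp k) (Fil k) x (fun _ => s) LinearMap.id (0, 1) where
  toDivision := constDiv H hs
  dt := H.cone.dt
  t_mem := H.cone.t_mem
  t_comm := H.cone.t_comm
  dt_mem := H.cone.dt_mem
  dt_t := H.cone.dt_t
  dt_comm i g z hz := hs i ▸ H.cone.dt_comm i g z hz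

omit [CharZero k] in
theorem rem_constDiv (H : B.Moves e x) (hs : ∀ i, wt (e i) = s) (g : Deg) (z : DOp k) :
    (constDiv H hs).rem g z = H.division.rem g z := rfl

omit [CharZero k] in
theorem krow_fil (H : B.Moves e x) (hs : ∀ i, wt (e i) = s) {g : Deg}
    (h : ∀ p ∈ filIdx (g + s + s + s), ∃ i, e i ≤ p) : KRow (R := k) (W := DOp k) (Fil k) x s g :=
  (constDiv H hs).krow fun _ hz => by rw [rem_constDiv]; exact H.rem_eq_zero g hz h

omit [CharZero k] in
theorem crow_fil (H : B.Moves e x) (hs : ∀ i, wt (e i) = s) {g : Deg}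
    (h : ∀ p ∈ filIdx (g + (0, 1) + s + s + s), (wt p).2 = (g + (0, 1) + s + s + s).2 →
      ∃ i, e i ≤ p) : CRow (R := k) (W := DOp k) (Fil k) x s (0, 1) g :=
  (constCone H hs).crow fun z hz => by
    show (constDiv H hs).rem _ (z - B.trunc (g + s + s + s) z) = 0
    rw [rem_constDiv]
    exact H.cone_rem _ hz (by simp only [Prod.snd_add]; ring) h

end Instances

/-- The row of the variables on the left. -/
theorem krow_varL {g : Deg} (h : 0 < g.1 + 3) : KRow (R := k) (W := DOp k) (Fil k) (varL k) ((1, 0) : Deg) g :=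
  krow_fil moves_varL wt_eVar (exists_eVar_le (by simp only [Prod.fst_add]; omega))

/-- The row of the variables on the right. -/
theorem krow_varR {g : Deg} (h : 0 < g.1 + 3) : KRow (R := k) (W := DOp k) (Fil k) (varR k) ((1, 0) : Deg) g :=
  krow_fil moves_varR wt_eVar (exists_eVar_le (by simp only [Prod.fst_add]; omega))

/-- The cone of the derivations on the left. -/
theorem crow_derL {g : Deg} (h : 0 < g.2 + 4) :
    CRow (R := k) (W := DOp k) (Fil k) (derL k) ((-1, 1) : Deg) (0, 1) g :=
  crow_fil moves_derL wt_eDer (exists_eDer_top (by simp only [Prod.snd_add]; omega))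

/-- The cone of the derivations on the right. -/
theorem crow_derR {g : Deg} (h : 0 < g.2 + 4) :
    CRow (R := k) (W := DOp k) (Fil k) (derR k) ((-1, 1) : Deg) (0, 1) g :=
  crow_fil moves_derR wt_eDer (exists_eDer_top (by simp only [Prod.snd_add]; omega))

omit [CharZero k] in
theorem actL_xVar (i : Fin 3) : actL k (xVar k i) = varL k i := rfl

omit [CharZero k] in
theorem actR_xVar (i : Fin 3) : actR k (xVar k i) = varR k i := rfl

omit [CharZero k] in
theorem actL_xDer (i : Fin 3) : actL k (xDer k i) = derL k i := rfl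

omit [CharZero k] in
theorem actR_xDer (i : Fin 3) : actR k (xDer k i) = derR k i := rfl

section Laurent

variable (k)

/-- Laurent polynomials modulo the monomials with a nonnegative exponent. -/
abbrev LQ := LP k ⧸ nonneg k

/-- The image of the homogeneous Laurent polynomials of degree `g.1 + c`. -/
def lqPiece (c : ℤ) (g : Deg) : Submodule k (LQ k) :=
  (homog k (g.1 + c)).map (nonneg k).mkQ

/-- The variables on the quotient. -/
def qVar (i : Fin 3) : LQ k →ₗ[k] LQ k :=
  (nonneg k).mapQ (nonneg k) (lVar k i) fun z hz => lVar_nonneg i z hz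

variable {k}

omit [CharZero k] in
theorem curl_qVar_mk (w : Fin 3 → LP k) (i : Fin 3) :
    curl (qVar k) (fun j => (nonneg k).mkQ (w j)) i = (nonneg k).mkQ (curl (lVar k) w i) := by
  fin_cases i <;> simp [curl, qVar]

omit [CharZero k] in
theorem mkQ_eq_zero {z : LP k} : (nonneg k).mkQ z = 0 ↔ z ∈ nonneg k :=
  Submodule.Quotient.mk_eq_zero _

omit [CharZero k] in
theorem exists_rep {c : ℤ} {g : Deg} {y : Fin 3 → LQ k} (hy : ∀ i, y i ∈ lqPiece k c g) :
    ∃ w : Fin 3 → LP k, (∀ i, w i ∈ homog k (g.1 + c)) ∧ y = fun j => (nonneg k).mkQ (w j) := by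
  choose w hw he using hy
  exact ⟨w, hw, funext fun j => (he j).symm⟩

/-- The row of the variables on the quotient is exact unless its bottom term has degree `-3`. -/
theorem krow_lq {c : ℤ} {g : Deg} (h : g.1 + c ≠ -3) :
    KRow (lqPiece k c) (qVar k) ((1, 0) : Deg) g := by
  have hY : ∀ i, ∀ z ∈ nonneg k, lDer k i z ∈ nonneg k := lDer_nonneg
  have hne : ∀ a : ℤ, a ≠ 0 → (a : k) ≠ 0 := fun a ha => Int.cast_ne_zero.2 ha
  refine ⟨?_, ?_, ?_, ?_⟩
  · rintro _ ⟨z, hz, rfl⟩ hx
    exact mkQ_eq_zero.2 (euler_lVar.exact_bot hY hz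
      (by simpa using hne (g.1 + c + 3) (by omega)) fun i => mkQ_eq_zero.1 (hx i))
  · intro y hy hc
    obtain ⟨w, hw, rfl⟩ := exists_rep hy
    obtain ⟨z, hz, he⟩ := euler_lVar.exact_curl hY hw
      (by simpa using hne (g.1 + 1 + c + 2) (by omega))
      fun i => mkQ_eq_zero.1 (by rw [← curl_qVar_mk, hc]; rfl)
    refine ⟨(nonneg k).mkQ z, Submodule.mem_map_of_mem ?_, funext fun i => ?_⟩
    · rwa [show (g + ((1, 0) : Deg)).1 + c - 1 = g.1 + c by simp only [Prod.fst_add]; ring] at hz
    · show (nonneg k).mkQ (lVar k i z) = (nonneg k).mkQ (w i)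
      exact ((Submodule.Quotient.eq _).2 (he i)).symm
  · intro y hy hc
    obtain ⟨w, hw, rfl⟩ := exists_rep hy
    obtain ⟨v, hv, he⟩ := euler_lVar.exact_dot hY hw
      (by simpa using hne (g.1 + 1 + 1 + c + 1) (by omega))
      (mkQ_eq_zero.1 (by rw [← hc, map_add, map_add]; rfl))
    refine ⟨fun j => (nonneg k).mkQ (v j), fun i => Submodule.mem_map_of_mem ?_,
      funext fun i => ?_⟩
    · have := hv i
      rwa [show (g + ((1, 0) : Deg) + ((1, 0) : Deg)).1 + c - 1 = (g + ((1, 0) : Deg)).1 + c by
        simp only [Prod.fst_add]; ring] at this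
    · rw [curl_qVar_mk]
      exact ((Submodule.Quotient.eq _).2 (he i)).symm
  · rintro _ ⟨z, hz, rfl⟩
    obtain ⟨y, hy, he⟩ := euler_lVar.exact_top hz
      (by simpa using hne (g.1 + 1 + 1 + 1 + c) (by omega))
    refine ⟨fun i => (nonneg k).mkQ (y i), fun i => Submodule.mem_map_of_mem ?_, ?_⟩
    · have := hy i
      rwa [show (g + ((1, 0) : Deg) + ((1, 0) : Deg) + ((1, 0) : Deg)).1 + c - 1 = (g + ((1, 0) : Deg) + ((1, 0) : Deg)).1 + c by
        simp only [Prod.fst_add]; ring] at this
    · rw [← he, map_add, map_add]; rfl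

end Laurent

/-- When the fourth operator is bijective all cones are exact. -/
theorem crow_of_forall {R W G : Type*} [Ring R] [AddCommGroup W] [Module R W] [AddCommMonoid G]
    {A : G → Submodule R W} {x : Fin 3 → W →ₗ[R] W} {s u : G} {g : G}
    (hu : ∀ g, A (g + u) = A g) :
    CRow A x s u g where
  grad Z w hZ _ h := ⟨Z, hu g ▸ hZ, rfl, fun i => eq_neg_of_add_eq_zero_right (h i)⟩
  curl w y hw _ h := by
    refine ⟨0, w, zero_mem _, fun i => ?_, fun i => by simp, funext fun i =>
      eq_neg_of_add_eq_zero_right (h i)⟩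
    have := hw i
    rwa [show g + u + s = g + s + u by abel, hu] at this
  dot y z hy _ h := by
    refine ⟨0, y, fun i => zero_mem _, fun i => ?_, fun i => ?_,
      eq_neg_of_add_eq_zero_right h⟩
    · have := hy i
      rwa [show g + u + s + s = g + s + s + u by abel, hu] at this
    · fin_cases i <;> simp [Disproof.curl]
  top Z hZ := by
    refine ⟨0, Z, fun i => zero_mem _, ?_, by simp⟩
    rwa [show g + u + s + s + s = g + s + s + s + u by abel, hu] at hZ

end Vale.Agent.P195.Disproof
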