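import Vale.Agent.P195.Disproof.LongShift

/-!
# P195: modules without higher extensions and with known homomorphism groups

`GoodHom φ` says that `Ext^{>0}(Z, Y) = 0` and that `φ : A → Hom(Z, Y)` is bijective.  The property
passes to finite products, along finite resolutions of `Z` and along finite coresolutions of `Y`,
whenever the induced complex of the groups `A` is exact.
-/

universe u

open CategoryTheory CategoryTheory.Abelian

namespace Vale.Agent.P195.Disproof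

variable {R : Type u} [Ring R]

/-- No positive extensions, and the homomorphisms are given by `φ`. -/
def GoodHom {A : Type*} [AddCommGroup A] {Z Y : Type u} [AddCommGroup Z] [Module R Z]
    [AddCommGroup Y] [Module R Y] (φ : A →+ (Z →ₗ[R] Y)) : Prop :=
  EVPos R Z Y ∧ Function.Bijective φ

section Products

variable {κ : Type} [Fintype κ] {A : κ → Type*} [∀ j, AddCommGroup (A j)]

/-- The homomorphisms out of a product. -/
def piLeft {W : κ → Type u} [∀ j, AddCommGroup (W j)] [∀ j, Module R (W j)] {Y : Type u}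
    [AddCommGroup Y] [Module R Y] (φ : ∀ j, A j →+ (W j →ₗ[R] Y)) :
    (∀ j, A j) →+ ((∀ j, W j) →ₗ[R] Y) :=
  ∑ j, AddMonoidHom.mk' (fun a => (φ j (a j)).comp (LinearMap.proj j)) fun a b => by
    rw [Pi.add_apply, map_add, LinearMap.add_comp]

theorem piLeft_apply {W : κ → Type u} [∀ j, AddCommGroup (W j)] [∀ j, Module R (W j)] {Y : Type u}
    [AddCommGroup Y] [Module R Y] (φ : ∀ j, A j →+ (W j →ₗ[R] Y)) (a : ∀ j, A j) (w : ∀ j, W j) :
    piLeft φ a w = ∑ j, φ j (a j) (w j) := by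
  simp [piLeft, AddMonoidHom.finsetSum_apply, LinearMap.sum_apply]

theorem goodHom_piLeft {W : κ → Type u} [∀ j, AddCommGroup (W j)] [∀ j, Module R (W j)]
    {Y : Type u} [AddCommGroup Y] [Module R Y] {φ : ∀ j, A j →+ (W j →ₗ[R] Y)}
    (h : ∀ j, GoodHom (φ j)) : GoodHom (piLeft φ) := by
  classical
  refine ⟨evPos_pi fun j => (h j).1, ?_, fun f => ?_⟩
  · refine fun a b hab => funext fun j => (h j).2.1 (LinearMap.ext fun w => ?_)
    have := LinearMap.congr_fun hab (Pi.single j w)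
    rw [piLeft_apply, piLeft_apply, Finset.sum_eq_single j, Finset.sum_eq_single j] at this
    · simpa using this
    all_goals simp +contextual
  · choose a ha using fun j => (h j).2.2 (f.comp (LinearMap.single R W j))
    refine ⟨a, LinearMap.ext fun w => ?_⟩
    conv_rhs => rw [← Finset.univ_sum_single w, map_sum]
    rw [piLeft_apply]
    exact Finset.sum_congr rfl fun j _ => LinearMap.congr_fun (ha j) (w j)

/-- Extensions into a finite product. -/
theorem ev_pi_right {Z : Type u} [AddCommGroup Z] [Module R Z] {W : κ → Type u}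
    [∀ j, AddCommGroup (W j)] [∀ j, Module R (W j)] {i : ℕ} (h : ∀ j, EV R Z (W j) i) :
    EV R Z (∀ j, W j) i := by
  classical
  refine subsingleton_of_forall_eq 0 fun x => ?_
  let Φ : ((∀ j, W j) →ₗ[R] (∀ j, W j)) →+
      Ext (ModuleCat.of R Z) (ModuleCat.of R (∀ j, W j)) i :=
    AddMonoidHom.mk' (fun g => x.comp (Ext.mk₀ (ModuleCat.ofHom g)) (add_zero i)) fun g g' => by
      rw [← Ext.comp_add, ← Ext.mk₀_add]; rfl
  have key : LinearMap.id = ∑ j, (LinearMap.single R W j).comp (LinearMap.proj j) := by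
    refine LinearMap.ext fun v => ?_
    simp [Finset.univ_sum_single]
  have hid : Φ LinearMap.id = x := Ext.comp_mk₀_id x
  rw [← hid, key, map_sum]
  refine Finset.sum_eq_zero fun j _ => ?_
  show x.comp (Ext.mk₀ (ModuleCat.ofHom (LinearMap.proj j) ≫
    ModuleCat.ofHom (LinearMap.single R W j))) (add_zero i) = 0
  rw [← Ext.mk₀_comp_mk₀, ← Ext.comp_assoc_of_second_deg_zero]
  have h0 : x.comp (Ext.mk₀ (ModuleCat.ofHom (LinearMap.proj j))) (add_zero i) = 0 :=
    (h j).elim _ _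
  rw [h0, Ext.zero_comp]

/-- The homomorphisms into a product. -/
def piRight {Z : Type u} [AddCommGroup Z] [Module R Z] {W : κ → Type u} [∀ j, AddCommGroup (W j)]
    [∀ j, Module R (W j)] (φ : ∀ j, A j →+ (Z →ₗ[R] W j)) :
    (∀ j, A j) →+ (Z →ₗ[R] ∀ j, W j) :=
  AddMonoidHom.mk' (fun a => LinearMap.pi fun j => φ j (a j)) fun a b => by
    ext z j
    simp

omit [Fintype κ] in
theorem piRight_apply {Z : Type u} [AddCommGroup Z] [Module R Z] {W : κ → Type u}
    [∀ j, AddCommGroup (W j)] [∀ j, Module R (W j)] (φ : ∀ j, A j →+ (Z →ₗ[R] W j))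
    (a : ∀ j, A j) (z : Z) (j : κ) : piRight φ a z j = φ j (a j) z := rfl

theorem goodHom_piRight {Z : Type u} [AddCommGroup Z] [Module R Z] {W : κ → Type u}
    [∀ j, AddCommGroup (W j)] [∀ j, Module R (W j)] {φ : ∀ j, A j →+ (Z →ₗ[R] W j)}
    (h : ∀ j, GoodHom (φ j)) : GoodHom (piRight φ) := by
  refine ⟨fun i => ev_pi_right fun j => (h j).1 i, ?_, fun f => ?_⟩
  · exact fun a b hab => funext fun j =>
      (h j).2.1 (LinearMap.ext fun z => congrFun (LinearMap.congr_fun hab z) j)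
  · choose a ha using fun j => (h j).2.2 ((LinearMap.proj j).comp f)
    exact ⟨a, LinearMap.ext fun z => funext fun j => LinearMap.congr_fun (ha j) z⟩

end Products

/-- **Resolutions**: a finite resolution of `Z` by good modules, with exact complex of the groups
`A`, makes `Z` good. -/
theorem goodHom_of_resolution {Z Y : Type u} [AddCommGroup Z] [Module R Z] [AddCommGroup Y]
    [Module R Y] (m : ℕ) {X : ℕ → Type u} [∀ i, AddCommGroup (X i)] [∀ i, Module R (X i)]
    (d : ∀ i, X (i + 1) →ₗ[R] X i) (ε : X 0 →ₗ[R] Z) (hε : Function.Surjective ε)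
    (h0 : Function.Exact (d 0) ε) (hd : ∀ i, Function.Exact (d (i + 1)) (d i))
    (hsub : ∀ i, m < i → Subsingleton (X i))
    {AZ : Type*} [AddCommGroup AZ] {A : ℕ → Type*} [∀ i, AddCommGroup (A i)]
    {φZ : AZ →+ (Z →ₗ[R] Y)} {φ : ∀ i, A i →+ (X i →ₗ[R] Y)} (hφ : ∀ i, GoodHom (φ i))
    (δ₀ : AZ → A 0) (δ : ∀ i, A i → A (i + 1))
    (sq₀ : ∀ a, (φZ a).comp ε = φ 0 (δ₀ a))
    (sq : ∀ i a, (φ i a).comp (d i) = φ (i + 1) (δ i a))
    (hinj : ∀ a, δ₀ a = 0 → a = 0) (hex₀ : ∀ a, δ 0 a = 0 → ∃ b, δ₀ b = a)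
    (hex : ∀ i a, δ (i + 1) a = 0 → ∃ b, δ i b = a) : GoodHom φZ := by
  refine ⟨evPos_of_resolution m X d ε hε h0 hd hsub (fun i => (hφ i).1) ?_, ?_, fun f => ?_⟩
  · intro i f hf
    obtain ⟨a, rfl⟩ := (hφ (i + 1)).2.2 f
    have h : δ (i + 1) a = 0 := (hφ (i + 2)).2.1 (by rw [map_zero, ← sq, hf])
    obtain ⟨b, hb⟩ := hex i a h
    exact ⟨φ i b, by rw [sq, hb]⟩
  · refine (injective_iff_map_eq_zero φZ).2 fun a ha => hinj a ((hφ 0).2.1 ?_)
    rw [map_zero, ← sq₀, ha, LinearMap.zero_comp]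
  · obtain ⟨a, ha⟩ := (hφ 0).2.2 (f.comp ε)
    have h : δ 0 a = 0 := (hφ 1).2.1 (by
      rw [map_zero, ← sq, ha, LinearMap.comp_assoc, h0.linearMap_comp_eq_zero,
        LinearMap.comp_zero])
    obtain ⟨b, hb⟩ := hex₀ a h
    refine ⟨b, LinearMap.ext fun z => ?_⟩
    obtain ⟨x, rfl⟩ := hε z
    exact LinearMap.congr_fun (show (φZ b).comp ε = f.comp ε by rw [sq₀, hb, ha]) x

/-- **Coresolutions**: a finite coresolution of `Y` by good modules, with exact complex of the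
groups `A`, makes `Y` good. -/
theorem goodHom_of_coresolution {Z Y : Type u} [AddCommGroup Z] [Module R Z] [AddCommGroup Y]
    [Module R Y] (m : ℕ) {X : ℕ → Type u} [∀ i, AddCommGroup (X i)] [∀ i, Module R (X i)]
    (d : ∀ i, X i →ₗ[R] X (i + 1)) (ι : Y →ₗ[R] X 0) (hι : Function.Injective ι)
    (h0 : Function.Exact ι (d 0)) (hd : ∀ i, Function.Exact (d i) (d (i + 1)))
    (hsub : ∀ i, m < i → Subsingleton (X i))
    {AY : Type*} [AddCommGroup AY] {A : ℕ → Type*} [∀ i, AddCommGroup (A i)]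
    {φY : AY →+ (Z →ₗ[R] Y)} {φ : ∀ i, A i →+ (Z →ₗ[R] X i)} (hφ : ∀ i, GoodHom (φ i))
    (δ₀ : AY → A 0) (δ : ∀ i, A i → A (i + 1))
    (sq₀ : ∀ a, ι.comp (φY a) = φ 0 (δ₀ a))
    (sq : ∀ i a, (d i).comp (φ i a) = φ (i + 1) (δ i a))
    (hinj : ∀ a, δ₀ a = 0 → a = 0) (hex₀ : ∀ a, δ 0 a = 0 → ∃ b, δ₀ b = a)
    (hex : ∀ i a, δ (i + 1) a = 0 → ∃ b, δ i b = a) : GoodHom φY := by
  refine ⟨evPos_of_coresolution m X d ι hι h0 hd hsub (fun i => (hφ i).1) ?_, ?_, fun f => ?_⟩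
  · intro i f hf
    obtain ⟨a, rfl⟩ := (hφ (i + 1)).2.2 f
    have h : δ (i + 1) a = 0 := (hφ (i + 2)).2.1 (by rw [map_zero, ← sq, hf])
    obtain ⟨b, hb⟩ := hex i a h
    exact ⟨φ i b, by rw [sq, hb]⟩
  · refine (injective_iff_map_eq_zero φY).2 fun a ha => hinj a ((hφ 0).2.1 ?_)
    rw [map_zero, ← sq₀, ha, LinearMap.comp_zero]
  · obtain ⟨a, ha⟩ := (hφ 0).2.2 (ι.comp f)
    have h : δ 0 a = 0 := (hφ 1).2.1 (by
      rw [map_zero, ← sq, ha, ← LinearMap.comp_assoc, h0.linearMap_comp_eq_zero,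
        LinearMap.zero_comp])
    obtain ⟨b, hb⟩ := hex₀ a h
    refine ⟨b, LinearMap.ext fun z => hι ?_⟩
    exact LinearMap.congr_fun (show ι.comp (φY b) = ι.comp f by rw [sq₀, hb, ha]) z

end Vale.Agent.P195.Disproof
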