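import Vale.Agent.P195.Disproof.GoodHom
import Vale.Agent.P195.Disproof.GoodFil

/-!
# P195: complexes of the free objects given by matrices of operators

A `Frame` is a family of modules `Pm e` whose elements are vectors of operators `v ↦ Fil (v - e)`,
with the right multiplications between them.  A `Target` is a module with its pieces and the
homomorphisms given by its elements.  Resolutions of `Pm e` and coresolutions of `Pm f` given by
matrices make them good as soon as the rows are exact.
-/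

noncomputable section

universe u

namespace Vale.Agent.P195.Disproof

theorem RowExact.congr {R W G D : Type*} [Ring R] [AddCommGroup W] [Module R W] [AddCommMonoid G]
    [Ring D] {A : G → Submodule R W} {φ : D →+ (W →ₗ[R] W)} {a b c : ℕ} {da da' : Fin a → G}
    {db db' : Fin b → G} {N : Fin a → Fin b → D} {N' : Fin b → Fin c → D}
    (h : RowExact A φ da db N N') (ha : ∀ i, da i = da' i) (hb : ∀ i, db i = db' i) :
    RowExact A φ da' db' N N' := by
  rwa [← funext ha, ← funext hb]

theorem RowInj.congr {R W G D : Type*} [Ring R] [AddCommGroup W] [Module R W] [AddCommMonoid G]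
    [Ring D] {A : G → Submodule R W} {φ : D →+ (W →ₗ[R] W)} {a b : ℕ} {da da' : Fin a → G}
    {N : Fin a → Fin b → D} (h : RowInj A φ da N) (ha : ∀ i, da i = da' i) :
    RowInj A φ da' N := by
  rwa [← funext ha]

theorem RowSurj.congr {R W G D : Type*} [Ring R] [AddCommGroup W] [Module R W] [AddCommMonoid G]
    [Ring D] {A : G → Submodule R W} {φ : D →+ (W →ₗ[R] W)} {a b : ℕ} {da da' : Fin a → G}
    {db db' : Fin b → G} {N : Fin a → Fin b → D} (h : RowSurj A φ da db N)
    (ha : ∀ i, da i = da' i) (hb : ∀ i, db i = db' i) : RowSurj A φ da' db' N := by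
  rwa [← funext ha, ← funext hb]

/-- The product of two matrices vanishes. -/
def MZero {D : Type*} [Ring D] {a b c : ℕ} (N : Fin a → Fin b → D) (N' : Fin b → Fin c → D) :
    Prop :=
  ∀ i l, ∑ j, N i j * N' j l = 0

/-- The free objects over the vertices `ι`. -/
structure Frame (k : Type) [Field k] (R : Type u) [Ring R] (ι : Type) where
  /-- the degree of a vertex -/
  vd : ι → Deg
  /-- the free object of a degree -/
  Pm : Deg → Type u
  [acg : ∀ e, AddCommGroup (Pm e)]
  [mod : ∀ e, Module R (Pm e)]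
  /-- the coordinates -/
  co : ∀ e, Pm e →+ (ι → DOp k)
  co_inj : ∀ e, Function.Injective (co e)
  co_mem : ∀ e x v, co e x v ∈ Fil k (vd v - e)
  co_surj : ∀ e (y : ι → DOp k), (∀ v, y v ∈ Fil k (vd v - e)) → ∃ x, co e x = y
  /-- right multiplication -/
  rm : ∀ e e' (a : DOp k), a ∈ Fil k (e - e') → Pm e →ₗ[R] Pm e'
  co_rm : ∀ e e' a ha x v, co e' (rm e e' a ha x) v = co e x v * a

attribute [instance] Frame.acg Frame.mod

namespace Frame

variable {k : Type} [Field k] {R : Type u} [Ring R] {ι : Type} (F : Frame k R ι)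

/-- A product of free objects. -/
abbrev Pow {a : ℕ} (d : Fin a → Deg) : Type u := ∀ j, F.Pm (d j)

/-- The map given by a matrix. -/
def mat {a b : ℕ} {d : Fin a → Deg} {d' : Fin b → Deg} (N : Fin a → Fin b → DOp k)
    (h : ∀ i j, N i j ∈ Fil k (d i - d' j)) : F.Pow d →ₗ[R] F.Pow d' :=
  LinearMap.pi fun j => ∑ i, (F.rm (d i) (d' j) (N i j) (h i j)).comp (LinearMap.proj i)

theorem co_mat {a b : ℕ} {d : Fin a → Deg} {d' : Fin b → Deg} {N : Fin a → Fin b → DOp k}
    (h : ∀ i j, N i j ∈ Fil k (d i - d' j)) (w : F.Pow d) (v : ι) :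
    (fun j => F.co (d' j) (F.mat N h w j) v) = mrow (actR k) N fun i => F.co (d i) (w i) v := by
  funext j
  simp only [mat, LinearMap.pi_apply, LinearMap.sum_apply, LinearMap.comp_apply,
    LinearMap.proj_apply, map_sum, Finset.sum_apply, F.co_rm]
  rfl

theorem eq_zero_iff {a : ℕ} {d : Fin a → Deg} (w : F.Pow d) :
    w = 0 ↔ ∀ v, (fun i => F.co (d i) (w i) v) = 0 := by
  refine ⟨fun h v => funext fun i => by simp [h], fun h => funext fun i => F.co_inj _ ?_⟩
  rw [Pi.zero_apply, map_zero]
  exact funext fun v => congrFun (h v) i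

theorem mat_injective {a b : ℕ} {d : Fin a → Deg} {d' : Fin b → Deg} {N : Fin a → Fin b → DOp k}
    (h : ∀ i j, N i j ∈ Fil k (d i - d' j))
    (hr : ∀ v, RowInj (R := k) (W := DOp k) (Fil k) (actR k) (fun i => F.vd v - d i) N) :
    Function.Injective (F.mat N h) := by
  refine (injective_iff_map_eq_zero _).2 fun w hw => (F.eq_zero_iff w).2 fun v => ?_
  refine hr v _ (fun i => F.co_mem _ _ _) ?_
  rw [← F.co_mat h w v, hw]
  funext j
  simp

theorem mat_surjective {a b : ℕ} {d : Fin a → Deg} {d' : Fin b → Deg} {N : Fin a → Fin b → DOp k}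
    (h : ∀ i j, N i j ∈ Fil k (d i - d' j))
    (hr : ∀ v, RowSurj (R := k) (W := DOp k) (Fil k) (actR k) (fun i => F.vd v - d i) (fun j => F.vd v - d' j) N) :
    Function.Surjective (F.mat N h) := by
  intro y
  choose w hw he using fun v => hr v (fun j => F.co (d' j) (y j) v) fun j => F.co_mem _ _ _
  choose x hx using fun i => F.co_surj (d i) (fun v => w v i) fun v => hw v i
  refine ⟨x, funext fun j => F.co_inj _ (funext fun v => ?_)⟩
  have := congrFun (F.co_mat h x v) j
  rw [this, ← congrFun (he v) j]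
  simp only [hx]

theorem mat_exact {a b c : ℕ} {d : Fin a → Deg} {d' : Fin b → Deg} {d'' : Fin c → Deg}
    {N : Fin a → Fin b → DOp k} {N' : Fin b → Fin c → DOp k}
    (h : ∀ i j, N i j ∈ Fil k (d i - d' j)) (h' : ∀ i j, N' i j ∈ Fil k (d' i - d'' j))
    (hz : MZero N N')
    (hr : ∀ v, RowExact (R := k) (W := DOp k) (Fil k) (actR k) (fun i => F.vd v - d i) (fun j => F.vd v - d' j) N N') :
    Function.Exact (F.mat N h) (F.mat N' h') := by
  intro y
  refine ⟨fun hy => ?_, ?_⟩
  · choose w hw he using fun v => hr v (fun j => F.co (d' j) (y j) v) (fun j => F.co_mem _ _ _)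
      (by rw [← F.co_mat h' y v, hy]; funext j; simp)
    choose x hx using fun i => F.co_surj (d i) (fun v => w v i) fun v => hw v i
    refine ⟨x, funext fun j => F.co_inj _ (funext fun v => ?_)⟩
    rw [congrFun (F.co_mat h x v) j, ← congrFun (he v) j]
    simp only [hx]
  · rintro ⟨x, rfl⟩
    refine (F.eq_zero_iff _).2 fun v => ?_
    rw [F.co_mat h' _ v, F.co_mat h x v]
    funext l
    show ∑ j, (∑ i, F.co (d i) (x i) v * N i j) * N' j l = 0
    simp only [Finset.sum_mul, mul_assoc]
    rw [Finset.sum_comm]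
    simp only [← Finset.mul_sum, hz _ l, mul_zero, Finset.sum_const_zero]

end Frame

/-- A module with its pieces and the homomorphisms given by them. -/
structure Target {k : Type} [Field k] {R : Type u} [Ring R] {ι : Type} (F : Frame k R ι) where
  /-- the module -/
  Ym : Type u
  [yacg : AddCommGroup Ym]
  [ymod : Module R Ym]
  /-- the space containing the pieces -/
  W : Type
  [wacg : AddCommGroup W]
  [wmod : Module k W]
  /-- the action -/
  act : DOp k →+ (W →ₗ[k] W)
  /-- the pieces -/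
  A : Deg → Submodule k W
  act_mem : ∀ e e' a, a ∈ Fil k (e' - e) → ∀ y ∈ A e, act a y ∈ A e'
  /-- the homomorphism given by an element -/
  ev : ∀ e, A e →+ (F.Pm e →ₗ[R] Ym)
  natural : ∀ e e' a ha (y : A e),
    (ev e y).comp (F.rm e' e a ha) = ev e' ⟨act a y, act_mem e e' a ha y y.2⟩

attribute [instance] Target.yacg Target.ymod Target.wacg Target.wmod

namespace Target

variable {k : Type} [Field k] {R : Type u} [Ring R] {ι : Type} {F : Frame k R ι} (T : Target F)

/-- No higher extensions from `Pm e`, and all homomorphisms come from the piece. -/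
def Good (e : Deg) : Prop := GoodHom (T.ev e)

/-- A product of pieces. -/
abbrev Row {a : ℕ} (d : Fin a → Deg) : Type := ∀ j, T.A (d j)

/-- The map given by the transposed matrix. -/
def amat {a b : ℕ} {d : Fin a → Deg} {d' : Fin b → Deg} (N : Fin a → Fin b → DOp k)
    (h : ∀ i j, N i j ∈ Fil k (d i - d' j)) (y : T.Row d') : T.Row d :=
  fun i => ⟨mrow T.act (tr N) (fun j => (y j : T.W)) i,
    sum_mem fun j _ => T.act_mem (d' j) (d i) (N i j) (h i j) _ (y j).2⟩

theorem ev_amat {a b : ℕ} {d : Fin a → Deg} {d' : Fin b → Deg} (N : Fin a → Fin b → DOp k)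
    (h : ∀ i j, N i j ∈ Fil k (d i - d' j)) (y : T.Row d') :
    (piLeft (fun j => T.ev (d' j)) y).comp (F.mat N h) =
      piLeft (fun i => T.ev (d i)) (T.amat N h y) := by
  refine LinearMap.ext fun w => ?_
  rw [LinearMap.comp_apply, piLeft_apply, piLeft_apply]
  simp only [Frame.mat, LinearMap.pi_apply, LinearMap.sum_apply, LinearMap.comp_apply,
    LinearMap.proj_apply, map_sum]
  rw [Finset.sum_comm]
  refine Finset.sum_congr rfl fun i _ => ?_
  rw [show T.amat N h y i = ∑ j, (⟨T.act (N i j) (y j : T.W),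
      T.act_mem (d' j) (d i) (N i j) (h i j) _ (y j).2⟩ : T.A (d i)) from
    Subtype.ext (by simp [amat, mrow, tr]), map_sum, LinearMap.sum_apply]
  refine Finset.sum_congr rfl fun j _ => ?_
  rw [← T.natural (d' j) (d i) (N i j) (h i j) (y j)]
  rfl

theorem amat_eq_zero {a b : ℕ} {d : Fin a → Deg} {d' : Fin b → Deg} {N : Fin a → Fin b → DOp k}
    {h : ∀ i j, N i j ∈ Fil k (d i - d' j)} {y : T.Row d'} (hy : T.amat N h y = 0) :
    mrow T.act (tr N) (fun j => (y j : T.W)) = 0 :=
  funext fun i => congrArg Subtype.val (congrFun hy i)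

/-- **Resolutions of `Pm e`** by matrices. -/
theorem good_of_matrices (m : ℕ) {r : ℕ → ℕ} (hr : ∀ i, m < i → r i = 0)
    (d : ∀ i, Fin (r i) → Deg) (e : Deg) (N₀ : Fin (r 0) → Fin 1 → DOp k)
    (N : ∀ i, Fin (r (i + 1)) → Fin (r i) → DOp k)
    (h₀ : ∀ i j, N₀ i j ∈ Fil k (d 0 i - e))
    (h : ∀ l i j, N l i j ∈ Fil k (d (l + 1) i - d l j))
    (hz₀ : MZero (N 0) N₀) (hz : ∀ l, MZero (N (l + 1)) (N l))
    (hsurj : ∀ v, RowSurj (R := k) (W := DOp k) (Fil k) (actR k) (fun i => F.vd v - d 0 i) (fun _ => F.vd v - e) N₀)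
    (hex₀ : ∀ v, RowExact (R := k) (W := DOp k) (Fil k) (actR k) (fun i => F.vd v - d 1 i) (fun i => F.vd v - d 0 i)
      (N 0) N₀)
    (hex : ∀ v l, RowExact (R := k) (W := DOp k) (Fil k) (actR k) (fun i => F.vd v - d (l + 2) i)
      (fun i => F.vd v - d (l + 1) i) (N (l + 1)) (N l))
    (ainj : RowInj T.A T.act (fun _ => e) (tr N₀))
    (aex₀ : RowExact T.A T.act (fun _ => e) (d 0) (tr N₀) (tr (N 0)))
    (aex : ∀ l, RowExact T.A T.act (d l) (d (l + 1)) (tr (N l)) (tr (N (l + 1))))
    (hgood : ∀ l j, T.Good (d l j)) : T.Good e := by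
  let e' : Fin 1 → Deg := fun _ => e
  let ε : F.Pow (d 0) →ₗ[R] F.Pm e :=
    (LinearMap.proj (R := R) (φ := fun _ : Fin 1 => F.Pm e) 0).comp (F.mat (d' := e') N₀ h₀)
  have hsub : ∀ i, m < i → Subsingleton (F.Pow (d i)) := fun i hi => by
    have : IsEmpty (Fin (r i)) := by rw [hr i hi]; infer_instance
    infer_instance
  have hone : ∀ z : F.Pow e', z 0 = 0 → z = 0 := fun z hz0 =>
    funext fun j => by rw [Subsingleton.elim j 0, hz0]; rfl
  refine goodHom_of_resolution m (X := fun i => F.Pow (d i)) (fun l => F.mat (N l) (h l)) ε ?_ ?_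
    (fun l => F.mat_exact (h (l + 1)) (h l) (hz l) fun v => hex v l) hsub
    (A := fun i => T.Row (d i)) (φ := fun i => piLeft fun j => T.ev (d i j))
    (fun i => goodHom_piLeft fun j => hgood i j)
    (fun a => T.amat (d' := e') N₀ h₀ fun _ => a) (fun l => T.amat (N l) (h l))
    ?_ (fun l a => T.ev_amat (N l) (h l) a) ?_ ?_ ?_
  · intro y
    obtain ⟨x, hx⟩ := F.mat_surjective (d' := e') h₀ hsurj (fun _ => y)
    exact ⟨x, by simp [ε, hx]⟩
  · intro y
    have := F.mat_exact (h 0) (d'' := e') h₀ hz₀ hex₀ y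
    rw [← this]
    exact ⟨fun hy => hone _ hy, fun hy => by simp [ε, hy]⟩
  · intro a
    refine Eq.trans ?_ (T.ev_amat (d' := e') N₀ h₀ fun _ => a)
    refine LinearMap.ext fun w => ?_
    show T.ev e a (F.mat (d' := e') N₀ h₀ w 0) = piLeft (fun j => T.ev (e' j)) (fun _ => a) _
    rw [piLeft_apply, Fin.sum_univ_one]
  · intro a ha
    exact Subtype.ext (congrFun (ainj _ (fun _ => a.2) (T.amat_eq_zero ha)) 0)
  · intro a ha
    obtain ⟨w, hw, he⟩ := aex₀ _ (fun i => (a i).2) (T.amat_eq_zero ha)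
    refine ⟨⟨w 0, hw 0⟩, funext fun i => Subtype.ext ?_⟩
    rw [← congrFun he i]
    show mrow T.act (tr N₀) (fun _ => w 0) i = mrow T.act (tr N₀) w i
    rw [show w = fun _ => w 0 from funext fun j => by rw [Subsingleton.elim j 0]]
  · intro l a ha
    obtain ⟨w, hw, he⟩ := aex l _ (fun i => (a i).2) (T.amat_eq_zero ha)
    exact ⟨fun j => ⟨w j, hw j⟩, funext fun i => Subtype.ext (congrFun he i)⟩

end Target

namespace Frame

variable {k : Type} [Field k] {R : Type u} [Ring R] {ι : Type} (F : Frame k R ι)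

/-- The free object of degree `f` as a target: the homomorphisms are right multiplications. -/
abbrev target (f : Deg) : Target F where
  Ym := F.Pm f
  W := DOp k
  act := actL k
  A g := Fil k (g - f)
  act_mem e e' a ha y hy := by
    have := mul_mem_Fil ha hy
    rwa [sub_add_sub_cancel] at this
  ev e :=
    { toFun := fun y => F.rm e f y.1 y.2
      map_zero' := LinearMap.ext fun x => F.co_inj f (funext fun v => by simp [F.co_rm])
      map_add' := fun a b => LinearMap.ext fun x => F.co_inj f (funext fun v => by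
        simp [F.co_rm, mul_add]) }
  natural e e' a ha y := LinearMap.ext fun x => F.co_inj f (funext fun v => by
    simp only [LinearMap.comp_apply, AddMonoidHom.coe_mk, ZeroHom.coe_mk, F.co_rm]
    exact mul_assoc _ _ _)

/-- The postcomposition with a matrix. -/
theorem mat_comp_ev {a b : ℕ} {d : Fin a → Deg} {d' : Fin b → Deg} (N : Fin a → Fin b → DOp k)
    (h : ∀ i j, N i j ∈ Fil k (d i - d' j)) (e : Deg) (y : ∀ i, Fil k (e - d i)) :
    (F.mat N h).comp (piRight (fun i => (F.target (d i)).ev e) y) =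
      piRight (fun j => (F.target (d' j)).ev e) fun j =>
        ⟨mrow (actR k) N (fun i => (y i : DOp k)) j, sum_mem fun i _ => by
          have := mul_mem_Fil (y i).2 (h i j)
          rwa [sub_add_sub_cancel] at this⟩ := by
  refine LinearMap.ext fun x => funext fun j => F.co_inj _ (funext fun v => ?_)
  rw [LinearMap.comp_apply, congrFun (F.co_mat h _ v) j, piRight_apply]
  simp only [mrow, piRight_apply, target, AddMonoidHom.coe_mk, ZeroHom.coe_mk, F.co_rm,
    Finset.mul_sum]
  exact Finset.sum_congr rfl fun i _ => mul_assoc _ _ _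

/-- **Coresolutions of `Pm f`** by matrices. -/
theorem good_of_comatrices (m : ℕ) {r : ℕ → ℕ} (hr : ∀ i, m < i → r i = 0)
    (d : ∀ i, Fin (r i) → Deg) (e f : Deg) (N₀ : Fin 1 → Fin (r 0) → DOp k)
    (N : ∀ i, Fin (r i) → Fin (r (i + 1)) → DOp k)
    (h₀ : ∀ i j, N₀ i j ∈ Fil k (f - d 0 j))
    (h : ∀ l i j, N l i j ∈ Fil k (d l i - d (l + 1) j))
    (hz₀ : MZero N₀ (N 0)) (hz : ∀ l, MZero (N l) (N (l + 1)))
    (hinj : ∀ v, RowInj (R := k) (W := DOp k) (Fil k) (actR k) (fun _ => F.vd v - f) N₀)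
    (hex₀ : ∀ v, RowExact (R := k) (W := DOp k) (Fil k) (actR k) (fun _ => F.vd v - f) (fun i => F.vd v - d 0 i)
      N₀ (N 0))
    (hex : ∀ v l, RowExact (R := k) (W := DOp k) (Fil k) (actR k) (fun i => F.vd v - d l i)
      (fun i => F.vd v - d (l + 1) i) (N l) (N (l + 1)))
    (ainj : RowInj (R := k) (W := DOp k) (Fil k) (actR k) (fun _ => e - f) N₀)
    (aex₀ : RowExact (R := k) (W := DOp k) (Fil k) (actR k) (fun _ => e - f) (fun i => e - d 0 i) N₀ (N 0))
    (aex : ∀ l, RowExact (R := k) (W := DOp k) (Fil k) (actR k) (fun i => e - d l i) (fun i => e - d (l + 1) i)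
      (N l) (N (l + 1)))
    (hgood : ∀ l j, (F.target (d l j)).Good e) : (F.target f).Good e := by
  let f' : Fin 1 → Deg := fun _ => f
  let inc : F.Pm f →ₗ[R] F.Pow f' := LinearMap.pi fun _ => LinearMap.id
  have hinc : ∀ z : F.Pow f', z = inc (z 0) := fun z =>
    funext fun j => by rw [Subsingleton.elim j 0]; rfl
  let ι₀ : F.Pm f →ₗ[R] F.Pow (d 0) := (F.mat (d := f') N₀ h₀).comp inc
  have hsub : ∀ i, m < i → Subsingleton (F.Pow (d i)) := fun i hi => by
    have : IsEmpty (Fin (r i)) := by rw [hr i hi]; infer_instance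
    infer_instance
  let δ₀ : (F.target f).A e → ∀ j, (F.target (d 0 j)).A e := fun a j =>
    ⟨mrow (actR k) N₀ (fun _ => (a : DOp k)) j, sum_mem fun i _ => by
      have := mul_mem_Fil a.2 (h₀ i j)
      rwa [sub_add_sub_cancel] at this⟩
  let δ : ∀ l, (∀ j, (F.target (d l j)).A e) → ∀ j, (F.target (d (l + 1) j)).A e := fun l a j =>
    ⟨mrow (actR k) (N l) (fun i => (a i : DOp k)) j, sum_mem fun i _ => by
      have := mul_mem_Fil (a i).2 (h l i j)
      rwa [sub_add_sub_cancel] at this⟩
  refine goodHom_of_coresolution m (X := fun i => F.Pow (d i)) (fun l => F.mat (N l) (h l)) ι₀ ?_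
    ?_ (fun l => F.mat_exact (h l) (h (l + 1)) (hz l) fun v => hex v l) hsub
    (A := fun i => ((j : Fin (r i)) → (F.target (d i j)).A e))
    (φ := fun i => piRight fun j => (F.target (d i j)).ev e)
    (fun i => goodHom_piRight fun j => hgood i j) δ₀ δ
    ?_ (fun l a => F.mat_comp_ev (N l) (h l) e a) ?_ ?_ ?_
  · intro x y hxy
    exact congrFun (F.mat_injective (d := f') h₀ hinj hxy) 0
  · intro y
    have := F.mat_exact (d := f') h₀ (h 0) hz₀ hex₀ y
    rw [this]
    exact ⟨fun ⟨z, hz⟩ => ⟨z 0, by rw [← hz, hinc z]; rfl⟩, fun ⟨z, hz⟩ => ⟨inc z, hz⟩⟩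
  · intro a
    refine Eq.trans ?_ (F.mat_comp_ev (d := f') N₀ h₀ e fun _ => a)
    rw [LinearMap.comp_assoc]
    rfl
  · intro a ha
    refine Subtype.ext (congrFun (ainj _ (fun _ => a.2) ?_) 0)
    exact funext fun j => congrArg Subtype.val (congrFun ha j)
  · intro a ha
    obtain ⟨w, hw, he⟩ := aex₀ _ (fun i => (a i).2)
      (funext fun j => congrArg Subtype.val (congrFun ha j))
    refine ⟨⟨w 0, hw 0⟩, funext fun i => Subtype.ext ?_⟩
    rw [← congrFun he i]
    show mrow (actR k) N₀ (fun _ => w 0) i = mrow (actR k) N₀ w i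
    rw [show w = fun _ => w 0 from funext fun j => by rw [Subsingleton.elim j 0]]
  · intro l a ha
    obtain ⟨w, hw, he⟩ := aex l _ (fun i => (a i).2)
      (funext fun j => congrArg Subtype.val (congrFun ha j))
    exact ⟨fun j => ⟨w j, hw j⟩, funext fun i => Subtype.ext (congrFun he i)⟩

end Frame

end Vale.Agent.P195.Disproof
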