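import Vale.Agent.P195.Corner.Main

/-!
# P195: Shapiro's lemma for extension groups

Let `S → R` be a change of rings and `π : X → Y` an `S`-linear map from an `R`-module making `X`
coinduced from `Y`.  If `R` has no positive `S`-extensions into `Y`, then `Ext^n_S(N, Y) = 0`
implies `Ext^n_R(N, X) = 0` for finitely generated `R`-modules `N`.
-/

universe u

open CategoryTheory CategoryTheory.Abelian

namespace Vale.Agent.P195.Disproof.Shapiro

open Vale.Agent.P195 Vale.Agent.P195.Corner

section Sums

variable {S : Type u} [Ring S] {ι : Type} [Fintype ι] {C : ι → Type u} [∀ j, AddCommGroup (C j)]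
  [∀ j, Module S (C j)] {Y : Type u} [AddCommGroup Y] [Module S Y]

/-- Finite products inherit vanishing in the first variable. -/
theorem ev_pi (i : ℕ) (h : ∀ j, EV S (C j) Y i) : EV S (∀ j, C j) Y i := by
  classical
  refine subsingleton_of_forall_eq 0 fun x => ?_
  let Φ : ((∀ j, C j) →ₗ[S] (∀ j, C j)) →+
      Ext (ModuleCat.of S (∀ j, C j)) (ModuleCat.of S Y) i :=
    AddMonoidHom.mk' (fun g => (Ext.mk₀ (ModuleCat.ofHom g)).comp x (zero_add i)) fun g g' => by
      rw [← Ext.add_comp, ← Ext.mk₀_add]; rfl
  have key : LinearMap.id = ∑ j, (LinearMap.single S C j).comp (LinearMap.proj j) := by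
    refine LinearMap.ext fun v => ?_
    simp [Finset.univ_sum_single]
  have hid : Φ LinearMap.id = x := Ext.mk₀_id_comp x
  rw [← hid, key, map_sum]
  refine Finset.sum_eq_zero fun j _ => ?_
  show (Ext.mk₀ (ModuleCat.ofHom (LinearMap.proj j) ≫
    ModuleCat.ofHom (LinearMap.single S C j))).comp x (zero_add i) = 0
  rw [← Ext.mk₀_comp_mk₀, Ext.comp_assoc_of_second_deg_zero]
  have h0 : (Ext.mk₀ (ModuleCat.ofHom (LinearMap.single S C j))).comp x (zero_add i) = 0 :=
    (h j).elim _ _
  rw [h0, Ext.comp_zero]

end Sums

variable {S R : Type u} [Ring S] [Ring R] [Module S R] [IsScalarTower S R R]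
variable {X Y : Type u} [AddCommGroup X] [Module R X] [Module S X] [IsScalarTower S R X]
  [AddCommGroup Y] [Module S Y]

/-- `π` makes `X` the module coinduced from `Y`. -/
def Coinduced (R : Type u) [Ring R] [Module S R] [IsScalarTower S R R] [Module R X]
    [IsScalarTower S R X] (π : X →ₗ[S] Y) : Prop :=
  Function.Bijective fun x : X =>
    π.comp ((LinearMap.toSpanSingleton R X x).restrictScalars S)

variable {π : X →ₗ[S] Y} {N : Type u} [AddCommGroup N] [Module R N] [Module S N]
  [IsScalarTower S R N]

omit [Module S N] [IsScalarTower S R N] in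
/-- An `R`-linear map into `X` is determined by its composite with `π`. -/
theorem hom_ext (hπ : Coinduced R π) (f g : N →ₗ[R] X) (h : ∀ n, π (f n) = π (g n)) : f = g := by
  ext n
  refine hπ.1 (LinearMap.ext fun r => ?_)
  simp only [LinearMap.comp_apply, LinearMap.coe_restrictScalars,
    LinearMap.toSpanSingleton_apply]
  rw [← f.map_smul, ← g.map_smul, h]

/-- An `S`-linear map out of a finite free `R`-module lifts along `π`. -/
theorem exists_lift (hπ : Coinduced R π) {m : ℕ} (g : (Fin m → R) →ₗ[S] Y) :
    ∃ F : (Fin m → R) →ₗ[R] X, ∀ p, π (F p) = g p := by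
  classical
  choose x hx using fun j : Fin m => hπ.2 (g.comp (LinearMap.single S (fun _ => R) j))
  refine ⟨∑ j, (LinearMap.toSpanSingleton R X (x j)).comp (LinearMap.proj j), fun p => ?_⟩
  have hp : p = ∑ j, Pi.single j (p j) := (Finset.univ_sum_single p).symm
  conv_rhs => rw [hp, map_sum]
  rw [LinearMap.sum_apply, map_sum]
  refine Finset.sum_congr rfl fun j _ => ?_
  have := LinearMap.congr_fun (hx j) (p j)
  simpa using this

/-- **Shapiro's lemma**: extensions into a coinduced module vanish as soon as they do below. -/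
theorem ev (hπ : Coinduced R π) (hR : ∀ i, EV S R Y (i + 1)) [IsNoetherianRing R] :
    ∀ (n : ℕ) (N : Type u) [AddCommGroup N] [Module R N] [Module S N] [IsScalarTower S R N]
      [Module.Finite R N], EV S N Y n → EV R N X n := by
  intro n
  induction n with
  | zero =>
    intro N _ _ _ _ _ h
    refine subsingleton_of_forall_eq 0 fun x => ?_
    obtain ⟨f, rfl⟩ := (Ext.mk₀_bijective _ _).2 x
    have hf : f.hom = 0 := hom_ext hπ f.hom 0 fun n => by
      simpa using LinearMap.congr_fun
        (hom_eq_zero_of_ev h (π.comp (f.hom.restrictScalars S))) n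
    have hf' : f = 0 := ModuleCat.hom_ext hf
    rw [hf', Ext.mk₀_zero]
  | succ n ih =>
    intro N _ _ _ _ _ h
    obtain ⟨m, q, hq⟩ := Module.Finite.exists_fin' R N
    let K := LinearMap.ker q
    have hι : Function.Injective K.subtype := Submodule.injective_subtype K
    have hex : Function.Exact K.subtype q := LinearMap.exact_subtype_ker_map q
    have hexS : Function.Exact (K.subtype.restrictScalars S) (q.restrictScalars S) := hex
    have : Module.Finite R K := Module.Finite.iff_fg.2 (IsNoetherian.noetherian K)
    cases n with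
    | zero =>
      refine ev_one_of_extend hι hq hex fun f => ?_
      obtain ⟨g, hg⟩ := ev_extend (ι := K.subtype.restrictScalars S) (π := q.restrictScalars S)
        hι hq hexS h (π.comp (f.restrictScalars S))
      obtain ⟨F, hF⟩ := exists_lift hπ g
      refine ⟨F, hom_ext hπ _ _ fun p => ?_⟩
      rw [LinearMap.comp_apply, hF]
      exact LinearMap.congr_fun hg p
    | succ n =>
      refine ev_unshift hι hq hex n (ih K ?_)
      exact ev_sub (ι := K.subtype.restrictScalars S) (π := q.restrictScalars S) hι hq hexS
        (n + 1) (ev_pi (C := fun _ : Fin m => R) (n + 1) fun _ => hR n) h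

section DecompositionExt

variable {U : Type u} [AddCommGroup U] [Module S U]

omit [IsScalarTower S R R] in
/-- For `R = S ⊕ U` positive extensions of `R` vanish as soon as those of `U` do. -/
theorem ev_decomp (Y : Type u) [AddCommGroup Y] [Module S Y]
    (e : (S × U) ≃ₗ[S] R) (hU : ∀ i, EV S U Y (i + 1)) (i : ℕ) : EV S R Y (i + 1) := by
  have hS : EV S S Y (i + 1) := by
    refine subsingleton_of_forall_eq 0 fun x => ?_
    have : Projective (ModuleCat.of S S) := (IsProjective.iff_projective S).1 inferInstance
    exact Ext.eq_zero_of_projective x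
  refine ev_congr e.symm (i + 1) ?_
  exact ev_mid (ι := LinearMap.inl S S U) (π := LinearMap.snd S S U) LinearMap.inl_injective
    LinearMap.snd_surjective (fun p => ⟨fun hp => ⟨p.1, Prod.ext rfl (Eq.symm hp)⟩, by
      rintro ⟨a, rfl⟩; rfl⟩) (i + 1) hS (hU i)

end DecompositionExt

section Decomposition

variable {U : Type u} [AddCommGroup U] [Module S U] (e : (S × U) ≃ₗ[S] R)
  (he : ∀ s : S, e (s, 0) = s • (1 : R))

/-- The component at the complement `U` of the map defining coinduced modules. -/
def atU (π : X →ₗ[S] Y) (x : X) : U →ₗ[S] Y :=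
  (π.comp ((LinearMap.toSpanSingleton R X x).restrictScalars S)).comp
    (e.toLinearMap.comp (LinearMap.inr S S U))

theorem atU_apply (π : X →ₗ[S] Y) (x : X) (u : U) : atU e π x u = π (e (0, u) • x) := rfl

include he

/-- For `R = S ⊕ U` it suffices that `x ↦ (π x, u ↦ π (u • x))` be bijective. -/
theorem coinduced_of_decomp (π : X →ₗ[S] Y)
    (h : Function.Bijective fun x : X => (π x, atU e π x)) : Coinduced R π := by
  have key : ∀ (x : X) (s : S), π (e (s, 0) • x) = s • π x := fun x s => by
    rw [he, smul_assoc, one_smul, map_smul]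
  constructor
  · intro x x' hxx'
    refine h.1 (Prod.ext ?_ (LinearMap.ext fun u => LinearMap.congr_fun hxx' (e (0, u))))
    have := LinearMap.congr_fun hxx' (e (1, 0))
    simpa [key] using this
  · intro f
    obtain ⟨x, hx⟩ := h.2 (f (e (1, 0)), f.comp (e.toLinearMap.comp (LinearMap.inr S S U)))
    refine ⟨x, LinearMap.ext fun r => ?_⟩
    obtain ⟨⟨s, u⟩, rfl⟩ := e.surjective r
    have h1 : π x = f (e (1, 0)) := congrArg Prod.fst hx
    have h2 : π (e (0, u) • x) = f (e (0, u)) := LinearMap.congr_fun (congrArg Prod.snd hx) u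
    show π (e (s, u) • x) = f (e (s, u))
    have hs : ((s, 0) : S × U) = s • (1, 0) := by simp
    rw [show ((s, u) : S × U) = (s, 0) + (0, u) by simp, map_add, add_smul, map_add, map_add,
      key, h1, h2, ← map_smul f, ← map_smul e, ← hs]

end Decomposition

section Columns

variable {J : Type} [Fintype J] [DecidableEq J] {C : J → Type u} [∀ j, AddCommGroup (C j)]
  [∀ j, Module S (C j)] {W : J → Type u}

/-- Homomorphisms out of a finite product of columns are determined column by column. -/
theorem bijective_columns (φ : (∀ j, W j) → (∀ j, C j) →ₗ[S] Y) (ψ : ∀ j, W j → C j →ₗ[S] Y)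
    (hψ : ∀ j, Function.Bijective (ψ j))
    (hcol : ∀ w j, (φ w).comp (LinearMap.single S C j) = ψ j (w j)) : Function.Bijective φ := by
  constructor
  · intro w w' h
    exact funext fun j => (hψ j).1 (by rw [← hcol, ← hcol, h])
  · intro f
    choose w hw using fun j => (hψ j).2 (f.comp (LinearMap.single S C j))
    refine ⟨w, LinearMap.pi_ext fun j x => ?_⟩
    exact LinearMap.congr_fun ((hcol w j).trans (hw j)) x

end Columns

end Vale.Agent.P195.Disproof.Shapiro
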