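import Vale.Agent.P195.Disproof.Mods
import Vale.Agent.P195.Disproof.Shapiro

/-!
# P195: the extended modules are coinduced

`Rk k` is, as a left `Bk k`-module, `Bk k` plus the free modules at the shifted vertices, and
`Y.EMod` is coinduced from `(Y.shift tau).Res`.  So extensions into `Y.EMod` vanish as soon as
those into `(Y.shift tau).Res` do.
-/

noncomputable section

namespace Vale.Agent.P195.Disproof

open TrivSqZeroExt (fst snd inl inr)

variable {k : Type} [Field k]

/-- The degree of the column of the shifted matrices at a vertex. -/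
abbrev colDeg (v : Vtx) : Deg := pos v - tau

variable (k) in
/-- An element of the free module, as a column of operators. -/
def toVec (e : Deg) : (P k e).Res →ₗ[Bk k] Vec (DOp k) :=
  Submodule.liftQ (P k e).bs (P k e).cm.subtype fun f hf => by
    rw [LinearMap.mem_ker]
    exact vec_ext fun v => hf v

theorem toVec_mkRes (e : Deg) (f : Vec (DOp k)) (hf : ∀ v, f v ∈ (P k e).comp (pos v)) :
    toVec k e ((P k e).mkRes f hf) = f := rfl

theorem toVec_mem (e : Deg) (x : (P k e).Res) (w : Vtx) : toVec k e x w ∈ Fil k (pos w - e) := by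
  obtain ⟨f, hf, rfl⟩ := (P k e).exists_mkRes x
  exact hf w

theorem mkRes_toVec (e : Deg) (x : (P k e).Res) :
    (P k e).mkRes (toVec k e x) (toVec_mem e x) = x := by
  obtain ⟨f, hf, rfl⟩ := (P k e).exists_mkRes x
  rfl

variable (k) in
/-- The shifted matrices, column by column. -/
abbrev Cols : Type := ∀ v : Vtx, (P k (colDeg v)).Res

instance instModuleCols : Module (Bk k) (Cols k) :=
  @Pi.module Vtx (fun v => (P k (colDeg v)).Res) (Bk k) _ _ fun _ => GMod.instModuleRes _

instance instSMulCols : SMul (Bk k) (Cols k) := instModuleCols.toSMul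

instance instModulePairCols : Module (Bk k) (Bk k × Cols k) :=
  @Prod.instModule (Bk k) (Bk k) (Cols k) _ _ _ Semiring.toModule instModuleCols

instance instSMulPairCols : SMul (Bk k) (Bk k × Cols k) := instModulePairCols.toSMul

/-- The matrix with the given columns. -/
def colsMat (u : Cols k) : Mat k := Matrix.of fun w v => toVec k (colDeg v) (u v) w

theorem colsMat_apply (u : Cols k) (w v : Vtx) : colsMat u w v = toVec k (colDeg v) (u v) w := rfl

theorem colsMat_mem (u : Cols k) : colsMat u ∈ matFil k tau := fun w v => by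
  have h := toVec_mem (colDeg v) (u v) w
  rwa [show pos w - colDeg v = pos w - pos v + tau by simp only [colDeg]; abel] at h

theorem colsMat_add (u u' : Cols k) : colsMat (u + u') = colsMat u + colsMat u' := by
  refine Matrix.ext fun w v => ?_
  rw [Matrix.add_apply, colsMat_apply, colsMat_apply, colsMat_apply, Pi.add_apply, map_add]
  rfl

theorem colsMat_smul (b : Bk k) (u : Cols k) : colsMat (b • u) = (b : Mat k) * colsMat u := by
  refine Matrix.ext fun w v => ?_
  rw [Matrix.mul_apply, colsMat_apply, Pi.smul_apply, map_smul, Bk_smul_apply]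
  rfl

/-- The columns of a matrix of shifted degree. -/
def cols (M : Mat k) (hM : M ∈ matFil k tau) : Cols k := fun v =>
  (P k (colDeg v)).mkRes (fun w => M w v) fun w => by
    have h := hM w v
    rwa [show pos w - pos v + tau = pos w - colDeg v by simp only [colDeg]; abel] at h

theorem colsMat_cols (M : Mat k) (hM : M ∈ matFil k tau) : colsMat (cols M hM) = M :=
  Matrix.ext fun _ _ => rfl

theorem colsMat_single_self (v : Vtx) (x : (P k (colDeg v)).Res) (w : Vtx) :
    colsMat (Pi.single v x) w v = toVec k (colDeg v) x w := by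
  rw [colsMat_apply, Pi.single_eq_same]

theorem colsMat_single_of_ne {u v : Vtx} (hu : u ≠ v) (x : (P k (colDeg v)).Res) (w : Vtx) :
    colsMat (Pi.single v x) w u = 0 := by
  rw [colsMat_apply, Pi.single_eq_of_ne hu, map_zero, vec_zero_apply]

theorem colsMat_zero : colsMat (0 : Cols k) = 0 :=
  Matrix.ext fun w v => by rw [colsMat_apply, Pi.zero_apply, map_zero]; rfl

theorem cols_colsMat (u : Cols k) : cols (colsMat u) (colsMat_mem u) = u :=
  funext fun v => mkRes_toVec (colDeg v) (u v)

/-- The action of `Bk k` on `Rk k` by left multiplication. -/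
@[reducible] def rkModule : Module (Bk k) (Rk k) := Module.compHom _ (inlHom (k := k))

/-- An element of `Rk k` from its two parts. -/
def pairRk (p : Bk k × Cols k) : Rk k :=
  ⟨inl (p.1 : Mat k) + inr (colsMat p.2),
    by rw [TrivSqZeroExt.fst_add, TrivSqZeroExt.fst_inl, TrivSqZeroExt.fst_inr, add_zero]
       exact p.1.2,
    by rw [TrivSqZeroExt.snd_add, TrivSqZeroExt.snd_inl, TrivSqZeroExt.snd_inr, zero_add]
       exact colsMat_mem p.2⟩

theorem fst_pairRk (p : Bk k × Cols k) :
    fst (pairRk p : TrivSqZeroExt (Mat k) (Mat k)) = (p.1 : Mat k) := by simp [pairRk]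

theorem snd_pairRk (p : Bk k × Cols k) :
    snd (pairRk p : TrivSqZeroExt (Mat k) (Mat k)) = colsMat p.2 := by simp [pairRk]

variable (k) in
/-- `Rk k` as a left `Bk k`-module. -/
def decomp : letI := rkModule (k := k); (Bk k × Cols k) ≃ₗ[Bk k] Rk k :=
  letI := rkModule (k := k)
  { toFun := pairRk
    invFun := fun x => (fstHom x, cols _ x.2.2)
    map_add' := fun p q => Subtype.ext <| TrivSqZeroExt.ext
      (by
        show fst (pairRk (p + q) : TrivSqZeroExt (Mat k) (Mat k)) =
          fst ((pairRk p : TrivSqZeroExt (Mat k) (Mat k)) + (pairRk q : TrivSqZeroExt (Mat k) (Mat k)))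
        rw [TrivSqZeroExt.fst_add, fst_pairRk, fst_pairRk, fst_pairRk]
        rfl)
      (by
        show snd (pairRk (p + q) : TrivSqZeroExt (Mat k) (Mat k)) =
          snd ((pairRk p : TrivSqZeroExt (Mat k) (Mat k)) + (pairRk q : TrivSqZeroExt (Mat k) (Mat k)))
        rw [TrivSqZeroExt.snd_add, snd_pairRk, snd_pairRk, snd_pairRk, Prod.snd_add, colsMat_add])
    map_smul' := fun b p => Subtype.ext <| TrivSqZeroExt.ext
      (by
        show fst (pairRk (b • p) : TrivSqZeroExt (Mat k) (Mat k)) =
          fst (inl (b : Mat k) * (pairRk p : TrivSqZeroExt (Mat k) (Mat k)))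
        rw [TrivSqZeroExt.fst_mul, TrivSqZeroExt.fst_inl, fst_pairRk, fst_pairRk]
        rfl)
      (by
        show snd (pairRk (b • p) : TrivSqZeroExt (Mat k) (Mat k)) =
          snd (inl (b : Mat k) * (pairRk p : TrivSqZeroExt (Mat k) (Mat k)))
        rw [TrivSqZeroExt.snd_mul, TrivSqZeroExt.fst_inl, TrivSqZeroExt.snd_inl, smul_eq_mul,
          MulOpposite.smul_eq_mul_unop, MulOpposite.unop_op, zero_mul, add_zero, snd_pairRk,
          snd_pairRk, Prod.smul_snd, colsMat_smul])
    left_inv := fun p => Prod.ext (Subtype.ext (fst_pairRk p)) (by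
      have key : ∀ M hM, M = colsMat p.2 → cols M hM = p.2 := by
        rintro M hM rfl
        exact cols_colsMat _
      exact key _ (pairRk p).2.2 (snd_pairRk p))
    right_inv := fun x => Subtype.ext <| TrivSqZeroExt.ext (fst_pairRk _)
      ((snd_pairRk _).trans (colsMat_cols _ x.2.2)) }

variable {W : Type} [AddCommGroup W] [Module k W] [Module (DOp k) W] (Y : GMod k W)

theorem comp_colDeg {v : Vtx} {y : W} :
    y ∈ (Y.shift tau).comp (colDeg v) ↔ y ∈ Y.comp (pos v) := by
  show y ∈ Y.comp (colDeg v + tau) ↔ _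
  rw [colDeg, sub_add_cancel]

theorem base_colDeg {v : Vtx} {y : W} :
    y ∈ (Y.shift tau).base (colDeg v) ↔ y ∈ Y.base (pos v) := by
  show y ∈ Y.base (colDeg v + tau) ↔ _
  rw [colDeg, sub_add_cancel]

/-- The second component after multiplying by a column, as an evaluation. -/
theorem eSnd_col (y z : Vec W) (hy : ∀ v, y v ∈ Y.comp (pos v))
    (hz : ∀ v, z v ∈ Y.comp (pos v + tau)) (v : Vtx) (x : (P k (colDeg v)).Res) :
    Y.eSnd ((Via.equiv (inlHom (k := k)) Y.EMod).symm (pairRk (0, Pi.single v x) • Y.mkE y z hy hz))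
      = ev (Y.shift tau) (colDeg v) (y v) ((comp_colDeg Y).2 (hy v)) x := by
  obtain ⟨f, hf, rfl⟩ := (P k (colDeg v)).exists_mkRes x
  rw [ev_mkRes]
  refine congrArg Submodule.Quotient.mk (Subtype.ext (vec_ext fun w => ?_))
  show (fst (pairRk (0, Pi.single v ((P k (colDeg v)).mkRes f hf)) :
      TrivSqZeroExt (Mat k) (Mat k)) • z
    + snd (pairRk (0, Pi.single v ((P k (colDeg v)).mkRes f hf)) :
      TrivSqZeroExt (Mat k) (Mat k)) • y) w = f w • y v
  rw [fst_pairRk, snd_pairRk]
  show (((0 : Bk k) : Mat k) • z + colsMat (Pi.single v ((P k (colDeg v)).mkRes f hf)) • y) w =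
    f w • y v
  rw [show ((0 : Bk k) : Mat k) = 0 from rfl, zero_smul, zero_add,
    vec_smul_apply, Finset.sum_eq_single v]
  · rw [colsMat_single_self, toVec_mkRes]
  · intro u _ hu
    rw [colsMat_single_of_ne hu, zero_smul]
  · simp

/-- The action of `Bk k` on the extended modules. -/
@[reducible] def eModule : Module (Bk k) Y.EMod := Module.compHom Y.EMod (inlHom (k := k))

section Coind

/-- The action of `Bk k` on `Rk k`, as a scalar multiplication. -/
@[reducible] def rkSMul : SMul (Bk k) (Rk k) := (rkModule (k := k)).toSMul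

/-- The action of `Bk k` on the extended modules, as a scalar multiplication. -/
@[reducible] def eSMul : SMul (Bk k) Y.EMod := (eModule Y).toSMul

attribute [local instance] rkModule eModule rkSMul eSMul

theorem tower_rk : IsScalarTower (Bk k) (Rk k) (Rk k) := ⟨fun b r r' => mul_assoc (inlHom b) r r'⟩

theorem tower_eMod : IsScalarTower (Bk k) (Rk k) Y.EMod :=
  ⟨fun b r x => mul_smul (inlHom b) r x⟩

attribute [local instance] tower_rk tower_eMod

/-- The projection defining the extended modules as coinduced modules. -/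
def eSndB : Y.EMod →ₗ[Bk k] (Y.shift tau).Res where
  toFun x := Y.eSnd ((Via.equiv _ _).symm x)
  map_add' _ _ := map_add Y.eSnd _ _
  map_smul' b _ := map_smul Y.eSnd b _

theorem eSndB_mk (y z : Vec W) (hy : ∀ v, y v ∈ Y.comp (pos v))
    (hz : ∀ v, z v ∈ Y.comp (pos v + tau)) :
    eSndB Y (Y.mkE y z hy hz) = (Y.shift tau).mkRes z hz := rfl

theorem decomp_apply (q : Bk k × Cols k) : decomp k q = pairRk q := rfl

theorem eSndB_apply (x : Y.EMod) :
    eSndB Y x = Y.eSnd ((Via.equiv (inlHom (k := k)) Y.EMod).symm x) := rfl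

theorem decomp_inl (b : Bk k) : decomp k (b, 0) = b • (1 : Rk k) := by
  show pairRk (b, 0) = inlHom b * 1
  rw [mul_one]
  refine Subtype.ext (TrivSqZeroExt.ext ?_ ?_)
  · exact fst_pairRk _
  · exact (snd_pairRk _).trans colsMat_zero

theorem atU_single (y z : Vec W) (hy : ∀ v, y v ∈ Y.comp (pos v))
    (hz : ∀ v, z v ∈ Y.comp (pos v + tau)) (v : Vtx) (p : (P k (colDeg v)).Res) :
    Shapiro.atU (decomp k) (eSndB Y) (Y.mkE y z hy hz) (Pi.single v p) =
      ev (Y.shift tau) (colDeg v) (y v) ((comp_colDeg Y).2 (hy v)) p := by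
  rw [Shapiro.atU_apply, decomp_apply, eSndB_apply]
  exact eSnd_col Y y z hy hz v p

theorem coinduced_eMod (hgood : ∀ v : Vtx, Good (Y.shift tau) (colDeg v)) :
    Shapiro.Coinduced (Rk k) (eSndB Y) := by
  classical
  refine Shapiro.coinduced_of_decomp (decomp k) decomp_inl (eSndB Y) ?_
  constructor
  · intro x x' hxx'
    rw [← sub_eq_zero]
    obtain ⟨y, z, hy, hz, hyz⟩ := Y.exists_mkE (x - x')
    have h1 : eSndB Y (x - x') = 0 := by
      rw [map_sub, sub_eq_zero]
      exact congrArg Prod.fst hxx'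
    have h2 : ∀ u, Shapiro.atU (decomp k) (eSndB Y) (x - x') u = 0 := fun u => by
      show eSndB Y (decomp k (0, u) • (x - x')) = 0
      rw [smul_sub, map_sub, sub_eq_zero]
      exact LinearMap.congr_fun (congrArg Prod.snd hxx') u
    rw [← hyz] at h1 h2 ⊢
    refine Y.mkE_eq_zero.2 ⟨fun v => ?_, (Y.shift tau).mkRes_eq_zero.1 h1⟩
    refine (base_colDeg Y).1 ((hgood v).inj _ ((comp_colDeg Y).2 (hy v))
      (LinearMap.ext fun p => ?_))
    rw [← atU_single Y y z hy hz v p]
    exact h2 (Pi.single v p)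
  · rintro ⟨q, g⟩
    obtain ⟨z, hz, rfl⟩ := (Y.shift tau).exists_mkRes q
    choose y hy hg using fun v : Vtx =>
      (hgood v).surj (g.comp (LinearMap.single (Bk k) (fun v => (P k (colDeg v)).Res) v))
    refine ⟨Y.mkE y z (fun v => (comp_colDeg Y).1 (hy v)) hz, Prod.ext rfl ?_⟩
    refine LinearMap.pi_ext fun v p => ?_
    have := LinearMap.congr_fun (hg v) p
    rw [LinearMap.comp_apply, LinearMap.coe_single] at this
    rw [← this]
    exact atU_single Y y z _ hz v p

theorem ev_rk (hgood : ∀ v : Vtx, Good (Y.shift tau) (colDeg v)) (i : ℕ) :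
    EV (Bk k) (Rk k) (Y.shift tau).Res (i + 1) :=
  Shapiro.ev_decomp (Y.shift tau).Res (decomp k)
    (fun i => Shapiro.ev_pi (i + 1) fun v => (hgood v).ext i) i

/-- **Shapiro's lemma for the extended modules.** -/
theorem ev_eMod [IsNoetherianRing (Rk k)] (hgood : ∀ v : Vtx, Good (Y.shift tau) (colDeg v))
    (n : ℕ) (N : Type) [AddCommGroup N] [Module (Rk k) N] [Module.Finite (Rk k) N]
    (h : EV (Bk k) (Rs k N) (Y.shift tau).Res n) : EV (Rk k) N Y.EMod n :=
  letI mN : Module (Bk k) N := Module.compHom N (inlHom (k := k))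
  letI : SMul (Bk k) N := mN.toSMul
  haveI : IsScalarTower (Bk k) (Rk k) N := ⟨fun b r x => mul_smul (inlHom b) r x⟩
  Shapiro.ev (coinduced_eMod Y hgood) (ev_rk Y hgood) n N h

end Coind

end Vale.Agent.P195.Disproof
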