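import Mathlib

/-!
# P195: exactness of Koszul complexes from division maps

For three commuting operators on a family of submodules, graded by an additive monoid, which can be
divided compatibly on the left, the Koszul complex is exact below the top, and at the top when the
remainder of division vanishes. A fourth operator with the same property gives the exactness of the
cone. Consumers instantiate this with monomial bases.
-/

namespace Vale.Agent.P195.Disproof

variable {R W G : Type*} [Ring R] [AddCommGroup W] [Module R W] [AddCommMonoid G]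

/-- The curl of a triple of vectors for three operators. -/
def curl (x : Fin 3 → W →ₗ[R] W) (w : Fin 3 → W) : Fin 3 → W :=
  ![x 1 (w 2) - x 2 (w 1), x 2 (w 0) - x 0 (w 2), x 0 (w 1) - x 1 (w 0)]

/-- Three commuting operators moving the degrees by `s`, with division maps. -/
structure Division (A : G → Submodule R W) (x : Fin 3 → W →ₗ[R] W) (s : Fin 3 → G) where
  /-- the division maps -/
  dv : Fin 3 → G → W →ₗ[R] W
  x_mem : ∀ i g, ∀ z ∈ A g, x i z ∈ A (g + s i)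
  x_comm : ∀ i j z, x i (x j z) = x j (x i z)
  dv_mem : ∀ i g, ∀ z ∈ A (g + s i), dv i g z ∈ A g
  dv_x : ∀ i g, ∀ z ∈ A g, dv i g (x i z) = z
  dv_comm : ∀ i j, i < j → ∀ g, ∀ z ∈ A (g + s i), dv i (g + s j) (x j z) = x j (dv i g z)

namespace Division

variable {A : G → Submodule R W} {x : Fin 3 → W →ₗ[R] W} {s : Fin 3 → G} (S : Division A x s)
include S

theorem inj {i : Fin 3} {g : G} {z : W} (hz : z ∈ A g) (h : x i z = 0) : z = 0 := by
  rw [← S.dv_x i g z hz, h, map_zero]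

theorem dot_curl (w : Fin 3 → W) :
    x 0 (curl x w 0) + x 1 (curl x w 1) + x 2 (curl x w 2) = 0 := by
  simp only [curl, Matrix.cons_val_zero, Matrix.cons_val_one, Matrix.cons_val_two,
    Matrix.head_cons, Matrix.tail_cons, map_sub, S.x_comm 1 0, S.x_comm 2 0, S.x_comm 2 1]
  abel

theorem curl_grad (z : W) : curl x (fun i => x i z) = 0 := by
  funext i
  fin_cases i <;> simp [curl, S.x_comm 1 0, S.x_comm 2 0, S.x_comm 2 1]

/-- The remainder of the three successive divisions. -/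
def rem (g : G) (z : W) : W :=
  let z₁ := z - x 0 (S.dv 0 (g + s 1 + s 2) z)
  let z₂ := z₁ - x 1 (S.dv 1 (g + s 0 + s 2) z₁)
  z₂ - x 2 (S.dv 2 (g + s 0 + s 1) z₂)

/-- Exactness at the top, where the remainder vanishes. -/
theorem exact_top {g : G} {z : W} (hz : z ∈ A (g + s 0 + s 1 + s 2)) (h : S.rem g z = 0) :
    ∃ y : Fin 3 → W, y 0 ∈ A (g + s 1 + s 2) ∧ y 1 ∈ A (g + s 0 + s 2) ∧ y 2 ∈ A (g + s 0 + s 1) ∧
      x 0 (y 0) + x 1 (y 1) + x 2 (y 2) = z := by
  have m0 : S.dv 0 (g + s 1 + s 2) z ∈ A (g + s 1 + s 2) :=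
    S.dv_mem 0 _ z (by rwa [show g + s 1 + s 2 + s 0 = g + s 0 + s 1 + s 2 by abel])
  set z₁ := z - x 0 (S.dv 0 (g + s 1 + s 2) z) with hz₁
  have hz₁m : z₁ ∈ A (g + s 0 + s 1 + s 2) := sub_mem hz (by
    have := S.x_mem 0 _ _ m0
    rwa [show g + s 1 + s 2 + s 0 = g + s 0 + s 1 + s 2 by abel] at this)
  have m1 : S.dv 1 (g + s 0 + s 2) z₁ ∈ A (g + s 0 + s 2) :=
    S.dv_mem 1 _ z₁ (by rwa [show g + s 0 + s 2 + s 1 = g + s 0 + s 1 + s 2 by abel])
  set z₂ := z₁ - x 1 (S.dv 1 (g + s 0 + s 2) z₁) with hz₂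
  have hz₂m : z₂ ∈ A (g + s 0 + s 1 + s 2) := sub_mem hz₁m (by
    have := S.x_mem 1 _ _ m1
    rwa [show g + s 0 + s 2 + s 1 = g + s 0 + s 1 + s 2 by abel] at this)
  refine ⟨![S.dv 0 (g + s 1 + s 2) z, S.dv 1 (g + s 0 + s 2) z₁, S.dv 2 (g + s 0 + s 1) z₂],
    m0, m1, S.dv_mem 2 _ z₂ hz₂m, ?_⟩
  have h' : z₂ - x 2 (S.dv 2 (g + s 0 + s 1) z₂) = 0 := h
  simp only [Matrix.cons_val_zero, Matrix.cons_val_one, Matrix.cons_val_two, Matrix.head_cons,
    Matrix.tail_cons]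
  rw [← sub_eq_zero.1 h', hz₂, hz₁]
  abel

/-- Exactness at the first middle term. -/
theorem exact_dot {g : G} {y : Fin 3 → W} (h0 : y 0 ∈ A (g + s 1 + s 2))
    (h1 : y 1 ∈ A (g + s 0 + s 2)) (h2 : y 2 ∈ A (g + s 0 + s 1))
    (h : x 0 (y 0) + x 1 (y 1) + x 2 (y 2) = 0) :
    ∃ w : Fin 3 → W, (∀ i, w i ∈ A (g + s i)) ∧ curl x w = y := by
  have h1' : y 1 ∈ A (g + s 2 + s 0) := by rwa [show g + s 2 + s 0 = g + s 0 + s 2 by abel]
  have h2' : y 2 ∈ A (g + s 1 + s 0) := by rwa [show g + s 1 + s 0 = g + s 0 + s 1 by abel]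
  set a := S.dv 0 (g + s 2) (y 1) with ha
  set b := S.dv 0 (g + s 1) (y 2) with hb
  have am : a ∈ A (g + s 2) := S.dv_mem 0 _ _ h1'
  have bm : b ∈ A (g + s 1) := S.dv_mem 0 _ _ h2'
  have e0 : y 0 + x 1 a + x 2 b = 0 := by
    have e := congrArg (S.dv 0 (g + s 1 + s 2)) h
    rw [map_add, map_add, map_zero, S.dv_x 0 _ _ h0] at e
    have c1 := S.dv_comm 0 1 (by decide) _ _ h1'
    have c2 := S.dv_comm 0 2 (by decide) _ _ h2'
    rw [show g + s 2 + s 1 = g + s 1 + s 2 by abel] at c1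
    rwa [c1, c2] at e
  set y1 := y 1 - x 0 a with hy1
  set y2 := y 2 - x 0 b with hy2
  have y1m : y1 ∈ A (g + s 0 + s 2) := sub_mem h1 (by
    have := S.x_mem 0 _ _ am
    rwa [show g + s 2 + s 0 = g + s 0 + s 2 by abel] at this)
  have y2m : y2 ∈ A (g + s 0 + s 1) := sub_mem h2 (by
    have := S.x_mem 0 _ _ bm
    rwa [show g + s 1 + s 0 = g + s 0 + s 1 by abel] at this)
  have e12 : x 1 y1 + x 2 y2 = 0 := by
    have e := congrArg (x 0) e0
    rw [map_add, map_add, map_zero, S.x_comm 0 1, S.x_comm 0 2] at e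
    rw [hy1, hy2, map_sub, map_sub, sub_add_sub_comm, ← neg_add_cancel (x 0 (y 0))]
    rw [← sub_eq_zero]
    calc _ = (x 0 (y 0) + x 1 (y 1) + x 2 (y 2)) -
          (x 0 (y 0) + x 1 (x 0 a) + x 2 (x 0 b)) := by abel
      _ = 0 := by rw [h, e, sub_zero]
  set c := S.dv 1 (g + s 0) y2 with hc
  have cm : c ∈ A (g + s 0) := S.dv_mem 1 _ _ y2m
  have e1 : y1 + x 2 c = 0 := by
    have e := congrArg (S.dv 1 (g + s 0 + s 2)) e12
    rwa [map_add, map_zero, S.dv_x 1 _ _ y1m, S.dv_comm 1 2 (by decide) _ _ y2m] at e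
  have e2 : y2 - x 1 c = 0 := by
    refine S.inj (i := 2) (g := g + s 0 + s 1) (sub_mem y2m (S.x_mem 1 _ _ cm)) ?_
    rw [map_sub, S.x_comm 2 1, show x 2 c = -y1 from eq_neg_of_add_eq_zero_right e1, map_neg,
      sub_neg_eq_add, add_comm, e12]
  refine ⟨![-c, b, -a], fun i => ?_, ?_⟩
  · fin_cases i
    · exact neg_mem cm
    · exact bm
    · exact neg_mem am
  funext i
  fin_cases i
  · simp only [curl, Matrix.cons_val_zero, Matrix.cons_val_one, Matrix.cons_val_two,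
      Matrix.head_cons, Matrix.tail_cons, map_neg, Fin.zero_eta]
    rw [add_assoc, add_eq_zero_iff_eq_neg] at e0
    rw [e0]
    abel
  · simp only [curl, Matrix.cons_val_zero, Matrix.cons_val_one, Matrix.cons_val_two,
      Matrix.head_cons, Matrix.tail_cons, map_neg, Fin.mk_one]
    rw [hy1, sub_add_eq_add_sub, sub_eq_zero] at e1
    rw [← e1]
    abel
  · simp only [curl, Matrix.cons_val_zero, Matrix.cons_val_one, Matrix.cons_val_two,
      Matrix.head_cons, Matrix.tail_cons, map_neg, Fin.reduceFinMk]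
    rw [hy2, sub_sub, sub_eq_zero] at e2
    rw [e2]
    abel

/-- Exactness at the second middle term. -/
theorem exact_curl {g : G} {w : Fin 3 → W} (hw : ∀ i, w i ∈ A (g + s i)) (h : curl x w = 0) :
    ∃ z ∈ A g, (fun i => x i z) = w := by
  refine ⟨S.dv 0 g (w 0), S.dv_mem 0 g _ (hw 0), ?_⟩
  have e1 : x 2 (w 0) = x 0 (w 2) := by simpa [curl, sub_eq_zero] using congrFun h 1
  have e2 : x 0 (w 1) = x 1 (w 0) := by simpa [curl, sub_eq_zero] using congrFun h 2
  have h2 : x 2 (S.dv 0 g (w 0)) = w 2 := by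
    rw [← S.dv_comm 0 2 (by decide) g _ (hw 0), e1, S.dv_x 0 _ _ (hw 2)]
  funext i
  fin_cases i
  · refine (sub_eq_zero.1 (S.inj (i := 2) (g := g + s 0)
      (sub_mem (hw 0) (S.x_mem 0 g _ (S.dv_mem 0 g _ (hw 0)))) ?_)).symm
    rw [map_sub, S.x_comm 2 0, h2, e1, sub_self]
  · show x 1 (S.dv 0 g (w 0)) = w 1
    rw [← S.dv_comm 0 1 (by decide) g _ (hw 0), ← e2, S.dv_x 0 _ _ (hw 1)]
  · exact h2

/-- Exactness at the bottom. -/
theorem exact_bot {g : G} {z : W} (hz : z ∈ A g) (h : ∀ i, x i z = 0) : z = 0 :=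
  S.inj hz (h 0)

end Division

/-- A fourth operator, with division maps commuting with the first three operators. -/
structure ConeDivision (A : G → Submodule R W) (x : Fin 3 → W →ₗ[R] W) (s : Fin 3 → G)
    (t : W →ₗ[R] W) (u : G) extends Division A x s where
  /-- the division map of the fourth operator -/
  dt : G → W →ₗ[R] W
  t_mem : ∀ g, ∀ z ∈ A g, t z ∈ A (g + u)
  t_comm : ∀ i z, t (x i z) = x i (t z)
  dt_mem : ∀ g, ∀ z ∈ A (g + u), dt g z ∈ A g
  dt_t : ∀ g, ∀ z ∈ A g, dt g (t z) = z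
  dt_comm : ∀ i g, ∀ z ∈ A (g + u), dt (g + s i) (x i z) = x i (dt g z)

namespace ConeDivision

variable {A : G → Submodule R W} {x : Fin 3 → W →ₗ[R] W} {s : Fin 3 → G} {t : W →ₗ[R] W} {u : G}
variable (S : ConeDivision A x s t u)
include S

/-- Exactness of the cone at the bottom. -/
theorem cone_bot {g : G} {z : W} (hz : z ∈ A g) (h : t z = 0) : z = 0 := by
  rw [← S.dt_t g z hz, h, map_zero]

/-- Exactness of the cone at the second term. -/
theorem cone_grad {g : G} {Z : W} {w : Fin 3 → W} (hZ : Z ∈ A (g + u))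
    (hw : ∀ i, w i ∈ A (g + s i)) (h : ∀ i, x i Z + t (w i) = 0) :
    ∃ z ∈ A g, Z = t z ∧ ∀ i, w i = -x i z := by
  refine ⟨S.dt g Z, S.dt_mem g Z hZ, ?_, ?_⟩
  · have hw' : ∀ i, w i = -x i (S.dt g Z) := fun i => by
      have e := congrArg (S.dt (g + s i)) (h i)
      rw [map_add, map_zero, S.dt_comm i g Z hZ, S.dt_t _ _ (hw i)] at e
      exact eq_neg_of_add_eq_zero_right e
    refine sub_eq_zero.1 (S.toDivision.inj (i := 0) (g := g + u)
      (sub_mem hZ (S.t_mem g _ (S.dt_mem g Z hZ))) ?_)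
    rw [map_sub, ← S.t_comm, show x 0 (S.dt g Z) = -w 0 by rw [hw' 0, neg_neg], map_neg,
      sub_neg_eq_add, h 0]
  · intro i
    have e := congrArg (S.dt (g + s i)) (h i)
    rw [map_add, map_zero, S.dt_comm i g Z hZ, S.dt_t _ _ (hw i)] at e
    exact eq_neg_of_add_eq_zero_right e

/-- Exactness of the cone at the middle term. -/
theorem cone_curl {g : G} {w y : Fin 3 → W} (hw : ∀ i, w i ∈ A (g + u + s i))
    (hy0 : y 0 ∈ A (g + s 1 + s 2)) (hy1 : y 1 ∈ A (g + s 0 + s 2)) (hy2 : y 2 ∈ A (g + s 0 + s 1))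
    (h : ∀ i, curl x w i + t (y i) = 0) :
    ∃ (Z : W) (a : Fin 3 → W), Z ∈ A (g + u) ∧ (∀ i, a i ∈ A (g + s i)) ∧
      (∀ i, w i = x i Z + t (a i)) ∧ y = -curl x a := by
  set a : Fin 3 → W := fun i => S.dt (g + s i) (w i) with ha
  have hw' : ∀ i, w i ∈ A (g + s i + u) := fun i => by
    rw [show g + s i + u = g + u + s i by abel]; exact hw i
  have am : ∀ i, a i ∈ A (g + s i) := fun i => S.dt_mem _ _ (hw' i)
  have hy : y = -curl x a := by
    have key : ∀ j l, S.dt (g + s l + s j) (x j (w l)) = x j (a l) := fun j l =>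
      S.dt_comm j _ _ (hw' l)
    funext i
    fin_cases i
    · have e := congrArg (S.dt (g + s 1 + s 2)) (h 0)
      simp only [curl, Matrix.cons_val_zero, map_add, map_sub, map_zero] at e
      have k1 := key 1 2
      rw [show g + s 2 + s 1 = g + s 1 + s 2 by abel] at k1
      rw [k1, key 2 1, S.dt_t _ _ hy0] at e
      simpa [curl] using eq_neg_of_add_eq_zero_right e
    · have e := congrArg (S.dt (g + s 0 + s 2)) (h 1)
      simp only [curl, Matrix.cons_val_one, map_add, map_sub, map_zero,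
        Matrix.cons_val_zero] at e
      have k1 := key 0 2
      rw [show g + s 2 + s 0 = g + s 0 + s 2 by abel] at k1
      rw [k1, key 2 0, S.dt_t _ _ hy1] at e
      simpa [curl] using eq_neg_of_add_eq_zero_right e
    · have e := congrArg (S.dt (g + s 0 + s 1)) (h 2)
      simp only [curl, Matrix.cons_val_two, map_add, map_sub, map_zero, Matrix.tail_cons,
        Matrix.head_cons] at e
      have k1 := key 0 1
      rw [show g + s 1 + s 0 = g + s 0 + s 1 by abel] at k1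
      rw [k1, key 1 0, S.dt_t _ _ hy2] at e
      simpa [curl] using eq_neg_of_add_eq_zero_right e
  have hzero : curl x (fun i => w i - t (a i)) = 0 := by
    funext i
    have e := h i
    rw [hy] at e
    fin_cases i
    all_goals
      simp only [curl, Pi.neg_apply, map_neg, map_sub, S.t_comm, Matrix.cons_val_zero,
        Matrix.cons_val_one, Matrix.cons_val_two, Matrix.head_cons, Matrix.tail_cons,
        Fin.zero_eta, Fin.mk_one, Fin.reduceFinMk, Pi.zero_apply] at e ⊢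
      rw [← e]
      abel
  obtain ⟨Z, hZ, he⟩ := S.toDivision.exact_curl (g := g + u)
    (fun i => sub_mem (hw i) (by
      rw [show g + u + s i = g + s i + u by abel]; exact S.t_mem _ _ (am i))) hzero
  exact ⟨Z, a, hZ, am, fun i => eq_add_of_sub_eq (congrFun he i).symm, hy⟩

/-- Exactness of the cone at the fourth term. -/
theorem cone_dot {g : G} {y : Fin 3 → W} {z : W} (hy0 : y 0 ∈ A (g + u + s 1 + s 2))
    (hy1 : y 1 ∈ A (g + u + s 0 + s 2)) (hy2 : y 2 ∈ A (g + u + s 0 + s 1))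
    (hz : z ∈ A (g + s 0 + s 1 + s 2)) (h : x 0 (y 0) + x 1 (y 1) + x 2 (y 2) + t z = 0) :
    ∃ w b : Fin 3 → W, (∀ i, w i ∈ A (g + u + s i)) ∧
      (b 0 ∈ A (g + s 1 + s 2) ∧ b 1 ∈ A (g + s 0 + s 2) ∧ b 2 ∈ A (g + s 0 + s 1)) ∧
      (∀ i, y i = curl x w i + t (b i)) ∧ z = -(x 0 (b 0) + x 1 (b 1) + x 2 (b 2)) := by
  have h0' : y 0 ∈ A (g + s 1 + s 2 + u) := by
    rwa [show g + s 1 + s 2 + u = g + u + s 1 + s 2 by abel]
  have h1' : y 1 ∈ A (g + s 0 + s 2 + u) := by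
    rwa [show g + s 0 + s 2 + u = g + u + s 0 + s 2 by abel]
  have h2' : y 2 ∈ A (g + s 0 + s 1 + u) := by
    rwa [show g + s 0 + s 1 + u = g + u + s 0 + s 1 by abel]
  set b₀ := S.dt (g + s 1 + s 2) (y 0)
  set b₁ := S.dt (g + s 0 + s 2) (y 1)
  set b₂ := S.dt (g + s 0 + s 1) (y 2)
  have m0 : b₀ ∈ A (g + s 1 + s 2) := S.dt_mem _ _ h0'
  have m1 : b₁ ∈ A (g + s 0 + s 2) := S.dt_mem _ _ h1'
  have m2 : b₂ ∈ A (g + s 0 + s 1) := S.dt_mem _ _ h2'
  have hz' : z = -(x 0 b₀ + x 1 b₁ + x 2 b₂) := by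
    have e := congrArg (S.dt (g + s 0 + s 1 + s 2)) h
    have c0 := S.dt_comm 0 _ _ h0'
    have c1 := S.dt_comm 1 _ _ h1'
    have c2 := S.dt_comm 2 _ _ h2'
    rw [show g + s 1 + s 2 + s 0 = g + s 0 + s 1 + s 2 by abel] at c0
    rw [show g + s 0 + s 2 + s 1 = g + s 0 + s 1 + s 2 by abel] at c1
    rw [map_add, map_add, map_add, map_zero, c0, c1, c2, S.dt_t _ _ hz] at e
    exact eq_neg_of_add_eq_zero_right e
  have e' : x 0 (y 0 - t b₀) + x 1 (y 1 - t b₁) + x 2 (y 2 - t b₂) = 0 := by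
    rw [hz', map_neg, map_add, map_add, S.t_comm, S.t_comm, S.t_comm] at h
    rw [map_sub, map_sub, map_sub, ← h]
    abel
  obtain ⟨w, hw, he⟩ := S.toDivision.exact_dot (g := g + u)
    (y := ![y 0 - t b₀, y 1 - t b₁, y 2 - t b₂])
    (sub_mem hy0 (by rw [show g + u + s 1 + s 2 = g + s 1 + s 2 + u by abel]; exact S.t_mem _ _ m0))
    (sub_mem hy1 (by rw [show g + u + s 0 + s 2 = g + s 0 + s 2 + u by abel]; exact S.t_mem _ _ m1))
    (sub_mem hy2 (by rw [show g + u + s 0 + s 1 = g + s 0 + s 1 + u by abel]; exact S.t_mem _ _ m2))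
    e'
  refine ⟨w, ![b₀, b₁, b₂], hw, ⟨m0, m1, m2⟩, fun i => ?_, hz'⟩
  have := congrFun he i
  fin_cases i <;> (rw [this]; simp)

/-- Exactness of the cone at the top, where the remainder vanishes. -/
theorem cone_top {g : G} {Z : W} (hZ : Z ∈ A (g + u + s 0 + s 1 + s 2))
    (h : S.toDivision.rem (g + u) (Z - t (S.dt (g + s 0 + s 1 + s 2) Z)) = 0) :
    ∃ (y : Fin 3 → W) (z : W), (y 0 ∈ A (g + u + s 1 + s 2) ∧ y 1 ∈ A (g + u + s 0 + s 2) ∧
      y 2 ∈ A (g + u + s 0 + s 1)) ∧ z ∈ A (g + s 0 + s 1 + s 2) ∧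
      x 0 (y 0) + x 1 (y 1) + x 2 (y 2) + t z = Z := by
  have hZ' : Z ∈ A (g + s 0 + s 1 + s 2 + u) := by
    rwa [show g + s 0 + s 1 + s 2 + u = g + u + s 0 + s 1 + s 2 by abel]
  have zm := S.dt_mem _ _ hZ'
  obtain ⟨y, h0, h1, h2, he⟩ := S.toDivision.exact_top (g := g + u) (sub_mem hZ (by
    rw [show g + u + s 0 + s 1 + s 2 = g + s 0 + s 1 + s 2 + u by abel]
    exact S.t_mem _ _ zm)) h
  exact ⟨y, _, ⟨h0, h1, h2⟩, zm, by rw [he, sub_add_cancel]⟩

end ConeDivision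

end Vale.Agent.P195.Disproof
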