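import Vale.Agent.P195.Disproof.Weyl
import Vale.Agent.P195.Disproof.Koszul

/-!
# P195: monomial Koszul exactness on the pieces of the Weyl algebra

Multiplication by the variables, or by the derivations, on the left or on the right moves one of the
two monomial bases by unit exponents, so it has division maps; so has the inclusion in the next
order, by truncation.
-/

noncomputable section

namespace Vale.Agent.P195.Disproof

/-- The weight and the order of a pair of exponents. -/
def wt (p : Ix × Ix) : Deg := ((tot p.1 : ℤ) - tot p.2, (tot p.2 : ℤ))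

theorem wt_add (p e : Ix × Ix) : wt (p + e) = wt p + wt e := by
  refine Prod.ext ?_ ?_ <;>
    simp only [wt, Prod.fst_add, Prod.snd_add, tot_add, Nat.cast_add]
  ring

theorem mem_filIdx {p : Ix × Ix} {d : Deg} : p ∈ filIdx d ↔ (wt p).1 = d.1 ∧ (wt p).2 ≤ d.2 :=
  Iff.rfl

theorem add_mem_filIdx {p e : Ix × Ix} {d : Deg} :
    p + e ∈ filIdx (d + wt e) ↔ p ∈ filIdx d := by
  rw [mem_filIdx, mem_filIdx, wt_add, Prod.fst_add, Prod.snd_add, Prod.fst_add, Prod.snd_add]
  omega

/-- The unit exponent of a variable. -/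
def eVar (i : Fin 3) : Ix × Ix := (unit i, 0)

/-- The unit exponent of a derivation. -/
def eDer (i : Fin 3) : Ix × Ix := (0, unit i)

theorem wt_eVar (i : Fin 3) : wt (eVar i) = (1, 0) := by simp [wt, eVar, tot_unit, tot_zero]

theorem wt_eDer (i : Fin 3) : wt (eDer i) = (-1, 1) := by simp [wt, eDer, tot_unit, tot_zero]

theorem unit_le_iff {i : Fin 3} {a : Ix} : unit i ≤ a ↔ 0 < a i := by
  refine ⟨fun h => by have := h i; simp [unit] at this; omega, fun h j => ?_⟩
  rcases eq_or_ne j i with rfl | hj
  · simp [unit]; omega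
  · simp [unit, hj]

theorem eVar_le_iff {i : Fin 3} {p : Ix × Ix} : eVar i ≤ p ↔ 0 < p.1 i := by
  simp [eVar, Prod.le_def, unit_le_iff]

theorem eDer_le_iff {i : Fin 3} {p : Ix × Ix} : eDer i ≤ p ↔ 0 < p.2 i := by
  simp [eDer, Prod.le_def, unit_le_iff]

theorem eVar_le_add {i j : Fin 3} (h : i ≠ j) (p : Ix × Ix) : eVar i ≤ p + eVar j ↔ eVar i ≤ p := by
  rw [eVar_le_iff, eVar_le_iff]
  simp [eVar, unit, h]

theorem eDer_le_add {i j : Fin 3} (h : i ≠ j) (p : Ix × Ix) : eDer i ≤ p + eDer j ↔ eDer i ≤ p := by
  rw [eDer_le_iff, eDer_le_iff]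
  simp [eDer, unit, h]

/-- A monomial basis of all the pieces. -/
structure MonBasis (k : Type*) [Field k] {W : Type*} [AddCommGroup W] [Module k W]
    (F : Deg → Submodule k W) where
  /-- the monomials -/
  g : Ix × Ix → W
  li : LinearIndependent k g
  span_eq : ∀ d, F d = Submodule.span k (g '' filIdx d)

namespace MonBasis

variable {k : Type*} [Field k] {W : Type*} [AddCommGroup W] [Module k W]
  {F : Deg → Submodule k W}

variable (B : MonBasis k F)

theorem mem {p : Ix × Ix} {d : Deg} (h : p ∈ filIdx d) : B.g p ∈ F d :=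
  B.span_eq d ▸ Submodule.subset_span ⟨p, h, rfl⟩

theorem exists_coord : ∃ c : W →ₗ[k] (Ix × Ix →₀ k),
    c.comp (Finsupp.linearCombination k B.g) = LinearMap.id :=
  LinearMap.exists_leftInverse_of_injective _
    (LinearMap.ker_eq_bot.2 (show Function.Injective (Finsupp.linearCombination k B.g) from B.li))

/-- The linear extension of a function on the monomials. -/
def lift (h : Ix × Ix → W) : W →ₗ[k] W :=
  (Finsupp.linearCombination k h).comp B.exists_coord.choose

theorem lift_g (h : Ix × Ix → W) (p : Ix × Ix) : B.lift h (B.g p) = h p := by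
  have e := LinearMap.congr_fun B.exists_coord.choose_spec (Finsupp.single p 1)
  simp only [LinearMap.comp_apply, Finsupp.linearCombination_single, one_smul,
    LinearMap.id_apply] at e
  simp [lift, e]

/-- A linear map respecting the pieces on monomials respects them. -/
theorem map_mem {f : W →ₗ[k] W} {d : Deg} {N : Submodule k W}
    (h : ∀ p ∈ filIdx d, f (B.g p) ∈ N) {z : W} (hz : z ∈ F d) : f z ∈ N := by
  have : F d ≤ N.comap f := by
    rw [B.span_eq, Submodule.span_le]
    rintro _ ⟨p, hp, rfl⟩
    exact h p hp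
  exact this hz

/-- Linear maps equal on the monomials of a piece are equal on it. -/
theorem map_eq {f f' : W →ₗ[k] W} {d : Deg}
    (h : ∀ p ∈ filIdx d, f (B.g p) = f' (B.g p)) {z : W} (hz : z ∈ F d) : f z = f' z := by
  have : F d ≤ LinearMap.eqLocus f f' := by
    rw [B.span_eq, Submodule.span_le]
    rintro _ ⟨p, hp, rfl⟩
    exact h p hp
  exact this hz

/-- A linear map subtracted from the identity. -/
def compl (f : W →ₗ[k] W) : W →ₗ[k] W where
  toFun z := z - f z
  map_add' z z' := by rw [map_add, add_sub_add_comm]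
  map_smul' c z := by rw [map_smul, RingHom.id_apply, smul_sub]

theorem compl_apply (f : W →ₗ[k] W) (z : W) : compl f z = z - f z := rfl

variable (e : Fin 3 → Ix × Ix)

open Classical in
/-- Division by a unit exponent. -/
def divMap (i : Fin 3) : W →ₗ[k] W :=
  B.lift fun p => if e i ≤ p then B.g (p - e i) else 0

open Classical in
theorem divMap_g (i : Fin 3) (p : Ix × Ix) :
    B.divMap e i (B.g p) = if e i ≤ p then B.g (p - e i) else 0 :=
  B.lift_g _ p

/-- Truncation to the order of a bidegree. -/
def trunc (d : Deg) : W →ₗ[k] W :=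
  B.lift fun p => if (wt p).2 ≤ d.2 then B.g p else 0

theorem trunc_g (d : Deg) (p : Ix × Ix) :
    B.trunc d (B.g p) = if (wt p).2 ≤ d.2 then B.g p else 0 :=
  B.lift_g _ p

/-- Operators moving the monomials by unit exponents. -/
structure Moves (x : Fin 3 → W →ₗ[k] W) : Prop where
  move : ∀ i p, x i (B.g p) = B.g (p + e i)
  comm : ∀ i j z, x i (x j z) = x j (x i z)
  indep : ∀ i j, i ≠ j → ∀ p, e i ≤ p + e j ↔ e i ≤ p

variable {B e} {x : Fin 3 → W →ₗ[k] W}

/-- The division maps. -/
def Moves.division (H : B.Moves e x) : Division (R := k) (W := W) F x (fun i => wt (e i)) where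
  dv i _ := B.divMap e i
  x_mem i d z hz := B.map_mem (fun p hp => by
    rw [H.move]
    exact B.mem (add_mem_filIdx.2 hp)) hz
  x_comm := H.comm
  dv_mem i d z hz := B.map_mem (fun p hp => by
    rw [divMap_g]
    split_ifs with h
    · refine B.mem ((add_mem_filIdx (e := e i)).1 ?_)
      rwa [tsub_add_cancel_of_le h]
    · exact zero_mem _) hz
  dv_x i d z hz := by
    show ((B.divMap e i).comp (x i)) z = (LinearMap.id : W →ₗ[k] W) z
    refine B.map_eq (fun p _ => ?_) hz
    rw [LinearMap.comp_apply, LinearMap.id_apply, H.move, divMap_g,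
      if_pos (le_add_of_nonneg_left (zero_le : (0 : Ix × Ix) ≤ p)), add_tsub_cancel_right]
  dv_comm i j hij d z hz := by
    show ((B.divMap e i).comp (x j)) z = ((x j).comp (B.divMap e i)) z
    refine B.map_eq (fun p _ => ?_) hz
    simp only [LinearMap.comp_apply, H.move, divMap_g]
    by_cases h : e i ≤ p
    · rw [if_pos h, if_pos ((H.indep i j hij.ne p).2 h), H.move, tsub_add_eq_add_tsub h]
    · rw [if_neg h, if_neg fun h' => h ((H.indep i j hij.ne p).1 h'), map_zero]

theorem Moves.rem_mem (H : B.Moves e x) {d : Deg} {z : W} (g : Deg) (hz : z ∈ F d) :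
    H.division.rem g z ∈ Submodule.span k (B.g '' {p | p ∈ filIdx d ∧ ∀ i, ¬ e i ≤ p}) := by
  classical
  let P : Fin 3 → W →ₗ[k] W := fun i => compl ((x i).comp (B.divMap e i))
  have hP : ∀ i p, P i (B.g p) = if e i ≤ p then 0 else B.g p := fun i p => by
    simp only [P, compl_apply, LinearMap.comp_apply, divMap_g]
    split_ifs with h
    · rw [H.move, tsub_add_cancel_of_le h, sub_self]
    · rw [map_zero, sub_zero]
  show ((P 2).comp ((P 1).comp (P 0))) z ∈ _
  refine B.map_mem (fun p hp => ?_) hz
  simp only [LinearMap.comp_apply, hP]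
  split_ifs with h0
  · simp
  rw [hP]
  split_ifs with h1
  · simp
  rw [hP]
  split_ifs with h2
  · exact zero_mem _
  refine Submodule.subset_span ⟨p, ⟨hp, fun i => ?_⟩, rfl⟩
  fin_cases i
  exacts [h0, h1, h2]

/-- A piece without monomials outside the image has no remainder. -/
theorem Moves.rem_eq_zero (H : B.Moves e x) {d : Deg} {z : W} (g : Deg) (hz : z ∈ F d)
    (h : ∀ p ∈ filIdx d, ∃ i, e i ≤ p) : H.division.rem g z = 0 := by
  have hm := H.rem_mem g hz
  rw [show {p | p ∈ filIdx d ∧ ∀ i, ¬ e i ≤ p} = (∅ : Set (Ix × Ix)) from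
    Set.eq_empty_of_forall_notMem fun p hp => by
      obtain ⟨i, hi⟩ := h p hp.1
      exact hp.2 i hi] at hm
  simpa using hm

/-- The division maps with truncation for the inclusion in the next order. -/
def Moves.cone (H : B.Moves e x) :
    ConeDivision (R := k) (W := W) F x (fun i => wt (e i)) LinearMap.id (0, 1) where
  toDivision := H.division
  dt := B.trunc
  t_mem d z hz := B.map_mem (f := LinearMap.id) (fun p hp => B.mem (mem_filIdx.2
    ⟨by simpa using (mem_filIdx.1 hp).1, by
      have := (mem_filIdx.1 hp).2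
      simp only [Prod.snd_add]
      omega⟩)) hz
  t_comm i z := rfl
  dt_mem d z hz := B.map_mem (fun p hp => by
    rw [trunc_g]
    split_ifs with h
    · refine B.mem (mem_filIdx.2 ⟨?_, h⟩)
      rw [(mem_filIdx.1 hp).1]
      simp
    · exact zero_mem _) hz
  dt_t d z hz := B.map_eq (f' := LinearMap.id)
    (fun p hp => by rw [LinearMap.id_apply, trunc_g, if_pos (mem_filIdx.1 hp).2]) hz
  dt_comm i d z hz := by
    show ((B.trunc (d + wt (e i))).comp (x i)) z = ((x i).comp (B.trunc d)) z
    refine B.map_eq (fun p _ => ?_) hz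
    simp only [LinearMap.comp_apply, H.move, trunc_g, wt_add, Prod.snd_add, add_le_add_iff_right]
    split_ifs with h
    · rw [H.move]
    · rw [map_zero]

/-- Removing the truncation leaves the monomials of top order. -/
theorem Moves.cone_rem (H : B.Moves e x) {d : Deg} {z : W} (g : Deg) (hz : z ∈ F d)
    {d' : Deg} (hd : d'.2 + 1 = d.2)
    (h : ∀ p ∈ filIdx d, (wt p).2 = d.2 → ∃ i, e i ≤ p) :
    H.division.rem g (z - B.trunc d' z) = 0 := by
  classical
  have hm : compl (B.trunc d') z ∈
      Submodule.span k (B.g '' {p | p ∈ filIdx d ∧ (wt p).2 = d.2}) :=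
    B.map_mem (fun p hp => by
      rw [compl_apply, trunc_g]
      split_ifs with hle
      · simp
      · rw [sub_zero]
        refine Submodule.subset_span ⟨p, ⟨hp, ?_⟩, rfl⟩
        have := (mem_filIdx.1 hp).2
        omega) hz
  let P : Fin 3 → W →ₗ[k] W := fun i => compl ((x i).comp (B.divMap e i))
  have hP : ∀ i p, P i (B.g p) = if e i ≤ p then 0 else B.g p := fun i p => by
    simp only [P, compl_apply, LinearMap.comp_apply, divMap_g]
    split_ifs with h
    · rw [H.move, tsub_add_cancel_of_le h, sub_self]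
    · rw [map_zero, sub_zero]
  show ((P 2).comp ((P 1).comp (P 0))) (compl (B.trunc d') z) = 0
  suffices hle : Submodule.span k (B.g '' {p | p ∈ filIdx d ∧ (wt p).2 = d.2}) ≤
      LinearMap.ker ((P 2).comp ((P 1).comp (P 0))) from hle hm
  rw [Submodule.span_le]
  rintro _ ⟨p, ⟨hp, hq⟩, rfl⟩
  obtain ⟨i, hi⟩ := h p hp hq
  have key : ∀ j, j = i → P j (B.g p) = 0 := fun j hj => by rw [hP, if_pos (hj ▸ hi)]
  simp only [SetLike.mem_coe, LinearMap.mem_ker, LinearMap.comp_apply, hP]
  split_ifs with h0
  · simp
  rw [hP]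
  split_ifs with h1
  · simp
  fin_cases i
  exacts [absurd hi h0, absurd hi h1, key 2 rfl]

end MonBasis

variable (k : Type) [Field k]

/-- Left multiplication by the variables. -/
def varL (i : Fin 3) : DOp k →ₗ[k] DOp k := LinearMap.mulLeft k (op k (unit i) 0)

/-- Right multiplication by the variables. -/
def varR (i : Fin 3) : DOp k →ₗ[k] DOp k := LinearMap.mulRight k (op k (unit i) 0)

/-- Left multiplication by the derivations. -/
def derL (i : Fin 3) : DOp k →ₗ[k] DOp k := LinearMap.mulLeft k (op k 0 (unit i))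

/-- Right multiplication by the derivations. -/
def derR (i : Fin 3) : DOp k →ₗ[k] DOp k := LinearMap.mulRight k (op k 0 (unit i))

variable {k} [CharZero k]

/-- The monomials with the variables on the left. -/
def varFirst : MonBasis k (W := DOp k) (Fil k) :=
  ⟨fun p => op k p.1 p.2, linearIndependent_op, fun _ => rfl⟩

/-- The monomials with the derivations on the left. -/
def derFirst : MonBasis k (W := DOp k) (Fil k) :=
  ⟨fun p => opR k p.2 p.1, linearIndependent_opR, Fil_eq_span_opR⟩

omit [CharZero k] in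
theorem var_comm (i j : Fin 3) :
    op k (unit i) 0 * op k (unit j) 0 = op k (unit j) 0 * op k (unit i) 0 := by
  rw [op_zero_right_mul, op_zero_right_mul, add_comm]

omit [CharZero k] in
theorem der_comm (i j : Fin 3) :
    op k 0 (unit i) * op k 0 (unit j) = op k 0 (unit j) * op k 0 (unit i) := by
  rw [op_mul_deriv, op_mul_deriv, add_comm]

theorem moves_varL : (varFirst (k := k)).Moves eVar (varL k) where
  move i p := by
    show op k (unit i) 0 * op k p.1 p.2 = op k (p.1 + unit i) (p.2 + 0)
    rw [op_zero_right_mul, add_zero, add_comm]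
  comm i j z := by simp only [varL, LinearMap.mulLeft_apply, ← mul_assoc, var_comm i j]
  indep _ _ h p := eVar_le_add h p

theorem moves_varR : (derFirst (k := k)).Moves eVar (varR k) where
  move i p := by
    show opR k p.2 p.1 * op k (unit i) 0 = opR k (p.2 + 0) (p.1 + unit i)
    rw [opR, opR, mul_assoc, op_zero_right_mul, add_zero]
  comm i j z := by simp only [varR, LinearMap.mulRight_apply, mul_assoc, var_comm i j]
  indep _ _ h p := eVar_le_add h p

theorem moves_derL : (derFirst (k := k)).Moves eDer (derL k) where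
  move i p := by
    show op k 0 (unit i) * opR k p.2 p.1 = opR k (p.2 + unit i) (p.1 + 0)
    rw [opR, opR, add_zero, ← mul_assoc, deriv_mul_op]
    simp
  comm i j z := by simp only [derL, LinearMap.mulLeft_apply, ← mul_assoc, der_comm i j]
  indep _ _ h p := eDer_le_add h p

theorem moves_derR : (varFirst (k := k)).Moves eDer (derR k) where
  move i p := by
    show op k p.1 p.2 * op k 0 (unit i) = op k (p.1 + 0) (p.2 + unit i)
    rw [op_mul_deriv, add_zero]
  comm i j z := by simp only [derR, LinearMap.mulRight_apply, mul_assoc, der_comm i j]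
  indep _ _ h p := eDer_le_add h p

/-- In positive weight every monomial has a variable. -/
theorem exists_eVar_le {d : Deg} (h : 0 < d.1) : ∀ p ∈ filIdx d, ∃ i, eVar i ≤ p := by
  intro p hp
  by_contra hne
  push Not at hne
  have h0 : p.1 = 0 := funext fun i => Nat.eq_zero_of_not_pos fun hi => hne i (eVar_le_iff.2 hi)
  have := hp.1
  rw [h0, tot_zero] at this
  omega

/-- A monomial of positive order has a derivation. -/
theorem exists_eDer_le {p : Ix × Ix} (h : p.2 ≠ 0) : ∃ i, eDer i ≤ p := by
  obtain ⟨i, hi⟩ := Function.ne_iff.1 h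
  exact ⟨i, eDer_le_iff.2 (Nat.pos_of_ne_zero hi)⟩

/-- In negative weight or order every monomial has a derivation. -/
theorem exists_eDer_le' {d : Deg} (h : d.1 < 0 ∨ d.2 < 0) :
    ∀ p ∈ filIdx d, ∃ i, eDer i ≤ p := by
  intro p hp
  refine exists_eDer_le fun h0 => ?_
  have h1 := hp.1
  have h2 := hp.2
  rw [h0, tot_zero] at h1 h2
  omega

/-- At positive top order every monomial has a derivation. -/
theorem exists_eDer_top {d : Deg} (h : 0 < d.2) :
    ∀ p ∈ filIdx d, (wt p).2 = d.2 → ∃ i, eDer i ≤ p := by
  intro p _ hq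
  refine exists_eDer_le fun h0 => ?_
  simp only [wt, h0, tot_zero] at hq
  omega

end Vale.Agent.P195.Disproof
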