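import Vale.Agent.P195.Disproof.KoszulFil

/-!
# P195: Koszul rows on Laurent polynomials and on the bottom module

Three operators with partners `[Y i, X j] = δ` have exact Koszul rows modulo any stable submodule
wherever the Euler scalar is nonzero: this is the Euler homotopy. It applies to the variables and to
the derivations on Laurent polynomials. At the top of the derivations on the right the remainder
is detected by the value on `1`.
-/

noncomputable section

namespace Vale.Agent.P195.Disproof

section Euler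

variable {k W : Type*} [Field k] [AddCommGroup W] [Module k W]

/-- Two triples of commuting operators with the canonical commutation, on pieces `C n` on which
`∑ X i Y i` is the scalar `eig n`, raised by `X` and lowered by `Y` by `δ`. -/
structure Euler (X Y : Fin 3 → W →ₗ[k] W) (C : ℤ → Submodule k W) (δ : ℤ) (eig : ℤ → k) :
    Prop where
  comm : ∀ i j z, Y i (X j z) - X j (Y i z) = if i = j then z else 0
  x_comm : ∀ i j z, X i (X j z) = X j (X i z)
  x_mem : ∀ i n, ∀ z ∈ C n, X i z ∈ C (n + δ)
  y_mem : ∀ i n, ∀ z ∈ C n, Y i z ∈ C (n - δ)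
  euler : ∀ n, ∀ z ∈ C n, X 0 (Y 0 z) + X 1 (Y 1 z) + X 2 (Y 2 z) = eig n • z

namespace Euler

variable {X Y : Fin 3 → W →ₗ[k] W} {C : ℤ → Submodule k W} {δ : ℤ} {eig : ℤ → k}
  (S : Euler X Y C δ eig) {N : Submodule k W} {n : ℤ}

include S

theorem yx (i j : Fin 3) (z : W) : Y i (X j z) = X j (Y i z) + if i = j then z else 0 := by
  rw [← S.comm i j z, add_sub_cancel]

/-- Exactness at the bottom. -/
theorem exact_bot (hYN : ∀ i, ∀ z ∈ N, Y i z ∈ N) {z : W} (hz : z ∈ C n)
    (he : eig n + 3 ≠ 0) (h : ∀ i, X i z ∈ N) : z ∈ N := by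
  have e : Y 0 (X 0 z) + Y 1 (X 1 z) + Y 2 (X 2 z) = (eig n + 3) • z := by
    rw [add_smul, ← S.euler n z hz, S.yx, S.yx, S.yx, if_pos rfl, if_pos rfl, if_pos rfl]
    module
  refine (Submodule.smul_mem_iff N he).1 ?_
  rw [← e]
  exact add_mem (add_mem (hYN 0 _ (h 0)) (hYN 1 _ (h 1))) (hYN 2 _ (h 2))

/-- Exactness at the second term. -/
theorem exact_curl (hYN : ∀ i, ∀ z ∈ N, Y i z ∈ N) {w : Fin 3 → W} (hw : ∀ i, w i ∈ C n)
    (he : eig n + 2 ≠ 0) (h : ∀ i, curl X w i ∈ N) :
    ∃ z ∈ C (n - δ), ∀ i, w i - X i z ∈ N := by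
  refine ⟨(eig n + 2)⁻¹ • (Y 0 (w 0) + Y 1 (w 1) + Y 2 (w 2)), Submodule.smul_mem _ _
    (add_mem (add_mem (S.y_mem 0 n _ (hw 0)) (S.y_mem 1 n _ (hw 1))) (S.y_mem 2 n _ (hw 2))),
    fun i => ?_⟩
  refine (Submodule.smul_mem_iff N he).1 ?_
  rw [map_smul, smul_sub, smul_smul, mul_inv_cancel₀ he, one_smul, add_smul]
  have e := S.euler n (w i) (hw i)
  have h0 := hYN
  fin_cases i
  · have m := add_mem (neg_mem (hYN 1 _ (h 2))) (hYN 2 _ (h 1))
    convert m using 1
    simp only [curl, Matrix.cons_val_one, Matrix.cons_val_two, Matrix.head_cons,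
      Matrix.tail_cons, Matrix.cons_val_zero, map_sub, map_add, S.yx, Fin.zero_eta,
      Fin.isValue, Fin.reduceEq, if_false, if_true, add_zero]
    simp only [Fin.zero_eta, Fin.isValue] at e
    rw [← e]
    module
  · have m := add_mem (hYN 0 _ (h 2)) (neg_mem (hYN 2 _ (h 0)))
    convert m using 1
    simp only [curl, Matrix.cons_val_two, Matrix.head_cons,
      Matrix.tail_cons, Matrix.cons_val_zero, map_sub, map_add, S.yx, Fin.mk_one,
      Fin.isValue, Fin.reduceEq, if_false, if_true, add_zero]
    simp only [Fin.mk_one, Fin.isValue] at e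
    rw [← e]
    module
  · have m := add_mem (neg_mem (hYN 0 _ (h 1))) (hYN 1 _ (h 0))
    convert m using 1
    simp only [curl, Matrix.cons_val_one, 
      Matrix.cons_val_zero, map_sub, map_add, S.yx, Fin.reduceFinMk,
      Fin.isValue, Fin.reduceEq, if_false, if_true, add_zero]
    simp only [Fin.reduceFinMk, Fin.isValue] at e
    rw [← e]
    module

/-- Exactness at the third term. -/
theorem exact_dot (hYN : ∀ i, ∀ z ∈ N, Y i z ∈ N) {y : Fin 3 → W} (hy : ∀ i, y i ∈ C n)
    (he : eig n + 1 ≠ 0) (h : X 0 (y 0) + X 1 (y 1) + X 2 (y 2) ∈ N) :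
    ∃ w : Fin 3 → W, (∀ i, w i ∈ C (n - δ)) ∧ ∀ i, y i - curl X w i ∈ N := by
  refine ⟨fun i => -(eig n + 1)⁻¹ • curl Y y i, fun i => Submodule.smul_mem _ _ ?_, fun i => ?_⟩
  · fin_cases i <;>
      exact sub_mem (S.y_mem _ n _ (hy _)) (S.y_mem _ n _ (hy _))
  refine (Submodule.smul_mem_iff N he).1 ?_
  have e := S.euler n (y i) (hy i)
  have m := hYN i _ h
  convert m using 1
  have hs : ∀ a : W, (eig n + 1) • (-(eig n + 1)⁻¹ • a) = -a := fun a => by
    rw [smul_smul, mul_neg, mul_inv_cancel₀ he, neg_one_smul]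
  fin_cases i
  all_goals
    simp only [curl, Matrix.cons_val_one, Matrix.cons_val_two, Matrix.head_cons,
      Matrix.tail_cons, Matrix.cons_val_zero, smul_sub, map_smul, map_sub, hs, add_smul, one_smul,
      map_add, S.yx, Fin.zero_eta, Fin.mk_one, Fin.reduceFinMk, Fin.isValue, Fin.reduceEq,
      if_false, if_true, add_zero] at e ⊢
    rw [← e]
    module

/-- Exactness at the top. -/
theorem exact_top {z : W} (hz : z ∈ C n) (he : eig n ≠ 0) :
    ∃ y : Fin 3 → W, (∀ i, y i ∈ C (n - δ)) ∧ X 0 (y 0) + X 1 (y 1) + X 2 (y 2) = z := by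
  refine ⟨fun i => (eig n)⁻¹ • Y i z, fun i => Submodule.smul_mem _ _ (S.y_mem i n z hz), ?_⟩
  simp only [map_smul, ← smul_add, S.euler n z hz, smul_smul, inv_mul_cancel₀ he, one_smul]

end Euler

end Euler

/-- The degree of a Laurent exponent. -/
def xdeg (m : Xp) : ℤ := m 0 + m 1 + m 2

variable (k : Type) [Field k]

/-- The homogeneous Laurent polynomials. -/
def homog (n : ℤ) : Submodule k (LP k) := Finsupp.supported k k {m | xdeg m = n}

/-- Laurent polynomials without monomials all of whose exponents are negative. -/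
def nonneg : Submodule k (LP k) := Finsupp.supported k k {m | ∃ i, 0 ≤ m i}

/-- Multiplication by a variable on Laurent polynomials. -/
def lVar (i : Fin 3) : LP k →ₗ[k] LP k := op k (unit i) 0

/-- A derivation on Laurent polynomials. -/
def lDer (i : Fin 3) : LP k →ₗ[k] LP k := op k 0 (unit i)

variable {k}

theorem map_supported {f : LP k →ₗ[k] LP k} {s : Set Xp} {N : Submodule k (LP k)}
    (h : ∀ m ∈ s, f (Finsupp.single m 1) ∈ N) {z : LP k}
    (hz : z ∈ Finsupp.supported k k s) : f z ∈ N := by
  rw [Finsupp.supported_eq_span_single] at hz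
  induction hz using Submodule.span_induction with
  | mem z hz => obtain ⟨m, hm, rfl⟩ := hz; exact h m hm
  | zero => simp
  | add a b _ _ ha hb => rw [map_add]; exact add_mem ha hb
  | smul c a _ ha => rw [map_smul]; exact N.smul_mem c ha

theorem lVar_single (i : Fin 3) (m : Xp) (c : k) :
    lVar k i (Finsupp.single m c) = Finsupp.single (m + sh (unit i) 0) c := by
  rw [lVar, op_single, opC_zero, one_mul]

theorem lDer_single (i : Fin 3) (m : Xp) (c : k) :
    lDer k i (Finsupp.single m c) = Finsupp.single (m + sh 0 (unit i)) ((m i : k) * c) := by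
  rw [lDer, op_single, opC_unit]

theorem xdeg_add_var (i : Fin 3) (m : Xp) : xdeg (m + sh (unit i) 0) = xdeg m + 1 := by
  fin_cases i <;> simp [xdeg, sh, unit] <;> ring

theorem xdeg_add_der (i : Fin 3) (m : Xp) : xdeg (m + sh 0 (unit i)) = xdeg m - 1 := by
  fin_cases i <;> simp [xdeg, sh, unit] <;> ring

theorem lVar_homog (i : Fin 3) (n : ℤ) (z : LP k) (hz : z ∈ homog k n) :
    lVar k i z ∈ homog k (n + 1) :=
  map_supported (fun m hm => by
    rw [lVar_single]
    refine Finsupp.single_mem_supported k 1 ?_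
    show xdeg (m + sh (unit i) 0) = n + 1
    rw [xdeg_add_var, show xdeg m = n from hm]) hz

theorem lDer_homog (i : Fin 3) (n : ℤ) (z : LP k) (hz : z ∈ homog k n) :
    lDer k i z ∈ homog k (n - 1) :=
  map_supported (fun m hm => by
    rw [lDer_single]
    refine Finsupp.single_mem_supported k _ ?_
    show xdeg (m + sh 0 (unit i)) = n - 1
    rw [xdeg_add_der, show xdeg m = n from hm]) hz

theorem lVar_nonneg (i : Fin 3) (z : LP k) (hz : z ∈ nonneg k) : lVar k i z ∈ nonneg k :=
  map_supported (fun m hm => by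
    obtain ⟨j, hj⟩ := hm
    rw [lVar_single]
    refine Finsupp.single_mem_supported k 1 ⟨j, ?_⟩
    simp only [Pi.add_apply, sh, Pi.zero_apply, Nat.cast_zero]
    omega) hz

theorem lDer_nonneg (i : Fin 3) (z : LP k) (hz : z ∈ nonneg k) : lDer k i z ∈ nonneg k :=
  map_supported (fun m hm => by
    obtain ⟨j, hj⟩ := hm
    rw [lDer_single]
    by_cases h : j = i ∧ m j = 0
    · rw [← h.1, h.2, Int.cast_zero, zero_mul, Finsupp.single_zero]
      exact zero_mem _
    · refine Finsupp.single_mem_supported k _ ⟨j, ?_⟩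
      rcases eq_or_ne j i with rfl | hji
      · have : m j ≠ 0 := fun h0 => h ⟨rfl, h0⟩
        simp [sh, unit]
        omega
      · simp [sh, unit, hji]
        omega) hz

theorem lDer_lVar (i j : Fin 3) (z : LP k) :
    lDer k i (lVar k j z) = lVar k j (lDer k i z) + if i = j then z else 0 := by
  have h := deriv_mul_op (k := k) (unit j) 0 i
  rw [zero_add] at h
  have h' := LinearMap.congr_fun h z
  rw [Module.End.mul_apply, LinearMap.add_apply, LinearMap.smul_apply] at h'
  rw [lDer, lVar, h', op_eq_mul (unit j) (unit i), Module.End.mul_apply]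
  rcases eq_or_ne i j with rfl | hij
  · rw [if_pos rfl, show unit i - unit i = (0 : Ix) from tsub_self _, op_zero_zero]
    simp [unit, add_comm]
  · rw [if_neg hij, show (unit j) i = 0 by simp [unit, hij]]
    simp

theorem lVar_comm (i j : Fin 3) (z : LP k) : lVar k i (lVar k j z) = lVar k j (lVar k i z) :=
  LinearMap.congr_fun (show op k (unit i) 0 * op k (unit j) 0 =
    op k (unit j) 0 * op k (unit i) 0 by rw [op_zero_right_mul, op_zero_right_mul, add_comm]) z

theorem lDer_comm (i j : Fin 3) (z : LP k) : lDer k i (lDer k j z) = lDer k j (lDer k i z) :=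
  LinearMap.congr_fun (show op k 0 (unit i) * op k 0 (unit j) =
    op k 0 (unit j) * op k 0 (unit i) by rw [op_mul_deriv, op_mul_deriv, add_comm]) z

theorem euler_sum (n : ℤ) (z : LP k) (hz : z ∈ homog k n) :
    lVar k 0 (lDer k 0 z) + lVar k 1 (lDer k 1 z) + lVar k 2 (lDer k 2 z) = (n : k) • z := by
  rw [homog, Finsupp.supported_eq_span_single] at hz
  induction hz using Submodule.span_induction with
  | mem z hz =>
    obtain ⟨m, hm, rfl⟩ := hz
    have hback : ∀ i, m + sh 0 (unit i) + sh (unit i) 0 = m := fun i => funext fun j => by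
      simp [sh]
    simp only [lDer_single, lVar_single, hback, mul_one, ← Finsupp.single_add, Finsupp.smul_single,
      smul_eq_mul]
    rw [show n = xdeg m from (show xdeg m = n from hm).symm, xdeg]
    push_cast
    rfl
  | zero => simp
  | add a b _ _ ha hb => simp only [map_add, smul_add, ← ha, ← hb]; abel
  | smul c a _ ha => simp only [map_smul, ← smul_add, ha, smul_comm (n : k) c]

/-- The rows of the variables: exact away from the degree `-3` of the bottom term. -/
theorem euler_lVar :
    Euler (k := k) (W := LP k) (lVar k) (lDer k) (homog k) 1 (fun n => (n : k)) where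
  comm i j z := by rw [lDer_lVar, add_sub_cancel_left]
  x_comm := lVar_comm
  x_mem := lVar_homog
  y_mem := lDer_homog
  euler := euler_sum

/-- The rows of the derivations: exact away from the degree `0` of the bottom term. -/
theorem euler_lDer :
    Euler (k := k) (W := LP k) (lDer k) (fun i => -lVar k i) (homog k) (-1)
      (fun n => -((n : k) + 3)) where
  comm i j z := by
    simp only [LinearMap.neg_apply, map_neg, lDer_lVar, eq_comm (a := i) (b := j)]
    abel
  x_comm := lDer_comm
  x_mem i n z hz := lDer_homog i n z hz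
  y_mem i n z hz := by
    rw [LinearMap.neg_apply, show n - -1 = n + 1 by ring]
    exact neg_mem (lVar_homog i n z hz)
  euler n z hz := by
    simp only [LinearMap.neg_apply, map_neg, lDer_lVar, if_pos]
    rw [neg_smul, add_smul, ← euler_sum n z hz]
    module

/-- At the top of the derivations on the right the remainder is detected by the value on `1`. -/
theorem rem_derR_eq_zero [CharZero k] {d : Deg} {z : DOp k} (g : Deg) (hz : z ∈ Fil k d)
    (h : z (Finsupp.single 0 1) = 0) : (moves_derR (k := k)).division.rem g z = 0 := by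
  have hd : ∀ (i : Fin 3) (w : DOp k), derR k i w (Finsupp.single 0 1) = 0 := fun i w => by
    show (w * op k 0 (unit i)) (Finsupp.single 0 1) = 0
    rw [Module.End.mul_apply, op_single, opC_unit]
    simp
  have hev : ((moves_derR (k := k)).division.rem g z) (Finsupp.single 0 1) = 0 := by
    simp only [Division.rem, LinearMap.sub_apply, hd, h, sub_zero]
  have hm := (moves_derR (k := k)).rem_mem g hz
  rw [Finsupp.mem_span_image_iff_linearCombination] at hm
  obtain ⟨c, hc, he⟩ := hm
  rw [← he] at hev ⊢
  suffices hc0 : c = 0 by rw [hc0, map_zero]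
  refine Finsupp.ext fun p => ?_
  by_contra hp
  have hzero : ∀ q ∈ c.support, q.2 = 0 := fun q hq => funext fun i => by
    have := ((Finsupp.mem_supported k c).1 hc (Finset.mem_coe.2 hq)).2 i
    rw [eDer_le_iff] at this
    simpa using Nat.eq_zero_of_not_pos this
  have hpm : p ∈ c.support := Finsupp.mem_support_iff.2 hp
  rw [Finsupp.linearCombination_apply, Finsupp.sum, LinearMap.sum_apply] at hev
  have hev' := congrArg (fun f : LP k => f (sh p.1 0)) hev
  simp only [Finsupp.finsetSum_apply, LinearMap.smul_apply, Finsupp.smul_apply,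
    Finsupp.zero_apply] at hev'
  rw [Finset.sum_eq_single_of_mem p hpm] at hev'
  · simp only [varFirst, hzero p hpm, op_single, opC_zero, mul_one, zero_add,
      Finsupp.single_eq_same, smul_eq_mul] at hev'
    exact hp hev'
  · intro q hq hqp
    simp only [varFirst, hzero q hq, op_single, zero_add]
    rw [Finsupp.single_eq_of_ne, smul_zero]
    intro hsh
    apply hqp
    refine Prod.ext (funext fun i => ?_) ((hzero q hq).trans (hzero p hpm).symm)
    have := congrFun hsh i
    simp only [sh, Pi.zero_apply, Nat.cast_zero, sub_zero] at this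
    exact_mod_cast this.symm

end Vale.Agent.P195.Disproof
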