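import Vale.Agent.P195.Disproof.Defs

/-!
# P195: the modules of the counterexample

`P k e` is the free family generated in degree `e`, `polyMod` the polynomials, `Dc c` the inverse
polynomials, `Tmod` the cokernel that gives the partial tilting module `Te`.
-/

noncomputable section

namespace Vale.Agent.P195.Disproof

open TrivSqZeroExt (fst snd)

variable (k : Type) [Field k]

/-- The free family generated in degree `e`. -/
def P (e : Deg) : GMod k (DOp k) where
  comp v := Fil k (v - e)
  base _ := ⊥
  le _ := bot_le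
  smul_comp {d v} A w hA hw := by
    have h := mul_mem_Fil hA hw
    rwa [show d + (v - e) = v + d - e by abel] at h
  smul_base {d v} A w _ hw := by
    rw [Submodule.mem_bot] at hw
    rw [hw, smul_zero]
    exact zero_mem _

variable {k}

theorem P_comp (e v : Deg) : (P k e).comp v = Fil k (v - e) := rfl

theorem P_base (e v : Deg) : (P k e).base v = ⊥ := rfl

theorem P_shift (e δ : Deg) : (P k e).shift δ = P k (e - δ) := by
  have h1 : (fun v : Deg => Fil k (v + δ - e)) = fun v => Fil k (v - (e - δ)) :=
    funext fun v => by rw [show v + δ - e = v - (e - δ) by abel]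
  simp only [GMod.shift, P]
  congr 1

theorem op_mem_supported {α β : Ix} {s t : Set Xp}
    (h : ∀ m ∈ s, opC k m β ≠ 0 → m + sh α β ∈ t) {f : LP k}
    (hf : f ∈ Finsupp.supported k k s) : op k α β f ∈ Finsupp.supported k k t := by
  have key : Finsupp.supported k k s ≤ (Finsupp.supported k k t).comap (op k α β) := by
    rw [Finsupp.supported_eq_span_single, Submodule.span_le]
    rintro _ ⟨m, hm, rfl⟩
    rw [SetLike.mem_coe, Submodule.mem_comap, op_single]
    by_cases hc : opC k m β = 0
    · simp [hc]
    · exact Finsupp.single_mem_supported k _ (h m hm hc)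
  exact key hf

/-- The polynomial monomials of a given degree. -/
def polyIdx (n : ℤ) : Set Xp := {m | (∀ i, 0 ≤ m i) ∧ ∑ i, m i = n}

/-- The Laurent monomials of a given degree. -/
def degIdx (n : ℤ) : Set Xp := {m | ∑ i, m i = n}

/-- The Laurent monomials of a given degree with some nonnegative exponent. -/
def negIdx (n : ℤ) : Set Xp := {m | (∃ i, 0 ≤ m i) ∧ ∑ i, m i = n}

theorem sum_sh (m : Xp) (α β : Ix) :
    ∑ i, (m + sh α β) i = (∑ i, m i) + ((tot α : ℤ) - tot β) := by
  simp [sh, tot, Finset.sum_add_distrib]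

theorem le_of_opC_ne_zero {m : Xp} {β : Ix} (h : opC k m β ≠ 0) {i : Fin 3} (hi : 0 ≤ m i) :
    (β i : ℤ) ≤ m i := by
  by_contra hlt
  refine h ?_
  rw [opC, Finset.prod_eq_zero (Finset.mem_univ i) (ffac_eq_zero hi (by omega)), Int.cast_zero]

theorem Fil_apply_supported {d : Deg} {s t : Set Xp}
    (h : ∀ α β : Ix, (tot α : ℤ) - tot β = d.1 → ∀ m ∈ s, opC k m β ≠ 0 → m + sh α β ∈ t)
    {A : DOp k} (hA : A ∈ Fil k d) {f : LP k} (hf : f ∈ Finsupp.supported k k s) :
    A f ∈ Finsupp.supported k k t := by
  have key : Fil k d ≤ (Finsupp.supported k k t).comap (LinearMap.applyₗ f) :=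
    Fil_le fun α β h1 _ => op_mem_supported (h α β h1) hf
  exact key hA

variable (k)

/-- The polynomials, generated at the vertex `(2, 0)`. -/
def polyMod : GMod k (LP k) where
  comp v := Finsupp.supported k k (polyIdx (v.1 - 2))
  base _ := ⊥
  le _ := bot_le
  smul_comp {d v} A w hA hw := by
    refine Fil_apply_supported (t := polyIdx ((v + d).1 - 2))
      (fun α β h1 m hm hc => ⟨fun i => ?_, ?_⟩) hA hw
    · have := le_of_opC_ne_zero hc (hm.1 i)
      simp only [Pi.add_apply, sh]
      omega
    · rw [sum_sh, hm.2, h1, Prod.fst_add]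
      ring
  smul_base {d v} A w _ hw := by
    rw [Submodule.mem_bot] at hw
    rw [hw, smul_zero]
    exact zero_mem _

/-- The inverse polynomials, with their degrees shifted by `c`. -/
def Dc (c : ℤ) : GMod k (LP k) where
  comp v := Finsupp.supported k k (degIdx (v.1 + c))
  base v := Finsupp.supported k k (negIdx (v.1 + c))
  le _ := Finsupp.supported_mono fun _ hm => hm.2
  smul_comp {d v} A w hA hw := by
    refine Fil_apply_supported (t := degIdx ((v + d).1 + c)) (fun α β h1 m hm _ => ?_) hA hw
    show ∑ i, (m + sh α β) i = _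
    rw [sum_sh, hm, h1, Prod.fst_add]
    ring
  smul_base {d v} A w hA hw := by
    refine Fil_apply_supported (t := negIdx ((v + d).1 + c))
      (fun α β h1 m hm hc => ⟨?_, ?_⟩) hA hw
    · obtain ⟨i, hi⟩ := hm.1
      refine ⟨i, ?_⟩
      have := le_of_opC_ne_zero hc hi
      simp only [Pi.add_apply, sh]
      omega
    · rw [sum_sh, hm.2, h1, Prod.fst_add]
      ring

variable {k}

theorem Dc_shift (c : ℤ) : (Dc k c).shift tau = Dc k (c + 1) := by
  have h : ∀ v : Deg, (v + tau).1 + c = v.1 + (c + 1) := fun v => by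
    rw [Prod.fst_add, tau]; ring
  simp only [GMod.shift, Dc, h]

/-- The sources of the presentation. -/
abbrev Src := Fin 2 × Fin 3

/-- The generators of the presentation. -/
abbrev Gen := Fin 4 ⊕ (Src × Option (Fin 3))

/-- The vertex of a source. -/
def srcVtx (s : Src) : Vtx := (⟨2 * (s.1 : ℕ), by omega⟩, ⟨(s.2 : ℕ) + 1, by omega⟩)

/-- The middle vertex through which the arrows at a source factor. -/
def midVtx (s : Src) : Vtx := (1, ⟨(s.1 : ℕ) + (s.2 : ℕ), by omega⟩)

/-- The vertex of a generator. -/
def genVtx : Gen → Vtx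
  | Sum.inl b => (1, b)
  | Sum.inr (s, none) => ((srcVtx s).1, 0)
  | Sum.inr (s, some _) => midVtx s

variable (k)

/-- The arrows at a source. -/
def gOp (s : Src) (i : Fin 3) : DOp k := if s.1 = 0 then op k 0 (unit i) else op k (unit i) 0

variable {k}

theorem gOp_mem (s : Src) (i : Fin 3) :
    gOp k s i ∈ Fil k (pos (srcVtx s) - pos (midVtx s)) := by
  have hp : pos (srcVtx s) - pos (midVtx s) = (2 * ((s.1 : ℕ) : ℤ) - 1, 1 - ((s.1 : ℕ) : ℤ)) :=
    Prod.ext (by simp [pos, srcVtx, midVtx]) (by simp [pos, srcVtx, midVtx]; ring)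
  rw [hp, gOp]
  obtain ⟨a, b⟩ := s
  fin_cases a
  · simpa using deriv_mem_Fil i
  · simpa using var_mem_Fil i

variable (k)

/-- The map of the presentation. -/
def psi : (Src → DOp k) →ₗ[k] (Gen → DOp k) :=
  LinearMap.pi fun j => match j with
    | Sum.inl _ => 0
    | Sum.inr (s, none) => LinearMap.proj s
    | Sum.inr (s, some i) => (LinearMap.mulRight k (gOp k s i)).comp (LinearMap.proj s)

variable {k}

theorem psi_inl (f : Src → DOp k) (b : Fin 4) : psi k f (Sum.inl b) = 0 := rfl

theorem psi_none (f : Src → DOp k) (s : Src) : psi k f (Sum.inr (s, none)) = f s := rfl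

theorem psi_some (f : Src → DOp k) (s : Src) (i : Fin 3) :
    psi k f (Sum.inr (s, some i)) = f s * gOp k s i := rfl

theorem psi_smul (A : DOp k) (f : Src → DOp k) : psi k (A • f) = A • psi k f :=
  funext fun j => match j with
    | Sum.inl b => by rw [Pi.smul_apply, psi_inl, psi_inl, smul_zero]
    | Sum.inr (s, none) => by rw [Pi.smul_apply, psi_none, psi_none, Pi.smul_apply]
    | Sum.inr (s, some i) => by
      rw [Pi.smul_apply, psi_some, psi_some, Pi.smul_apply, smul_eq_mul, smul_eq_mul, mul_assoc]

variable (k)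

/-- The components of the sources. -/
def srcComp (v : Deg) : Submodule k (Src → DOp k) :=
  Submodule.pi Set.univ fun s => Fil k (v - pos (srcVtx s))

/-- The components of the generators. -/
def genComp (v : Deg) : Submodule k (Gen → DOp k) :=
  Submodule.pi Set.univ fun j => Fil k (v - pos (genVtx j))

/-- The cokernel of the presentation. -/
def Tmod : GMod k (Gen → DOp k) where
  comp v := genComp k v
  base v := (srcComp k v).map (psi k)
  le v := by
    rintro _ ⟨f, hf, rfl⟩ j -
    have hs : ∀ s, f s ∈ Fil k (v - pos (srcVtx s)) := fun s => hf s (Set.mem_univ s)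
    match j with
    | Sum.inl b => rw [psi_inl]; exact zero_mem _
    | Sum.inr (s, none) =>
      rw [psi_none]
      refine Fil_mono ?_ ?_ (hs s)
      · simp [pos, genVtx]
      · simp [pos, genVtx, srcVtx]; omega
    | Sum.inr (s, some i) =>
      rw [psi_some]
      have h := mul_mem_Fil (hs s) (gOp_mem (k := k) s i)
      rwa [sub_add_sub_cancel] at h
  smul_comp {d v} A w hA hw j _ := by
    rw [Pi.smul_apply, smul_eq_mul]
    have h := mul_mem_Fil hA (hw j (Set.mem_univ j))
    rwa [show d + (v - pos (genVtx j)) = v + d - pos (genVtx j) by abel] at h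
  smul_base {d v} A w hA hw := by
    obtain ⟨f, hf, rfl⟩ := hw
    refine ⟨A • f, fun s _ => ?_, psi_smul A f⟩
    rw [Pi.smul_apply, smul_eq_mul]
    have h := mul_mem_Fil hA (hf s (Set.mem_univ s))
    rwa [show d + (v - pos (srcVtx s)) = v + d - pos (srcVtx s) by abel] at h

/-- The partial tilting module. -/
abbrev Te : Type := (Tmod k).EMod

/-- The projective module at the vertex `(2, 0)`. -/
abbrev P20 : Type := (P k (pos (2, 0))).EMod

/-- The whole module. -/
abbrev Tt : Type := Te k × P20 k

/-- The simple module at the vertex `(2, 0)`. -/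
abbrev SS : Type := Infl k (polyMod k).Res

/-- The test module. -/
abbrev AA : Type := Infl k (Dc k (-3)).Res

variable {k}

section Ev

variable {W : Type} [AddCommGroup W] [Module k W] [Module (DOp k) W] (Y : GMod k W) (e : Deg)

/-- Evaluation at an element, before passing to the quotient. -/
def evCm (y : W) (hy : y ∈ Y.comp e) : (P k e).cm →+ Y.Res where
  toFun f := Y.mkRes (fun v => (f : Vec (DOp k)) v • y)
    fun v => Y.smul_comp_of_eq (f.2 v) hy (by abel)
  map_zero' := (Y.mkRes_eq_zero).2 fun v => by
    show (0 : DOp k) • y ∈ _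
    rw [zero_smul]; exact zero_mem _
  map_add' f g := by
    unfold GMod.mkRes
    rw [← Submodule.Quotient.mk_add]
    exact congrArg Submodule.Quotient.mk (Subtype.ext (funext fun v => add_smul _ _ _))

/-- Evaluation at an element, additively. -/
def evAdd (y : W) (hy : y ∈ Y.comp e) : (P k e).Res →+ Y.Res :=
  QuotientAddGroup.lift (P k e).bs.toAddSubgroup (evCm Y e y hy) fun f hf =>
    Y.mkRes_eq_zero.2 fun v => by
      have h : (f : Vec (DOp k)) v = 0 := hf v
      show (f : Vec (DOp k)) v • y ∈ _
      rw [h, zero_smul]; exact zero_mem _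

theorem evAdd_mk (y : W) (hy : y ∈ Y.comp e) (f : (P k e).cm) :
    evAdd Y e y hy (Submodule.Quotient.mk f) = evCm Y e y hy f := rfl

/-- The map out of the free module given by an element. -/
def ev (y : W) (hy : y ∈ Y.comp e) : (P k e).Res →ₗ[Bk k] Y.Res where
  toFun x := evAdd Y e y hy x
  map_add' x x' := map_add _ _ _
  map_smul' b x := by
    rw [RingHom.id_apply]
    obtain ⟨f, rfl⟩ := Submodule.Quotient.mk_surjective _ x
    rw [← Submodule.Quotient.mk_smul, evAdd_mk, evAdd_mk]
    refine congrArg Submodule.Quotient.mk (Subtype.ext (vec_ext fun w => ?_))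
    show (∑ v, (b : Mat k) w v • (f : Vec (DOp k)) v) • y = ∑ v, (b : Mat k) w v • _
    rw [Finset.sum_smul]
    exact Finset.sum_congr rfl fun v _ => smul_assoc _ _ _

theorem ev_mkRes (y : W) (hy : y ∈ Y.comp e) (f : Vec (DOp k))
    (hf : ∀ v, f v ∈ (P k e).comp (pos v)) :
    ev Y e y hy ((P k e).mkRes f hf) =
      Y.mkRes (fun v => f v • y) fun v => Y.smul_comp_of_eq (hf v) hy (by abel) := rfl

/-- No positive extensions out of the free module, and all maps out of it are evaluations. -/
structure Good : Prop where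
  ext : ∀ n : ℕ, EV (Bk k) (P k e).Res Y.Res (n + 1)
  surj : ∀ f : (P k e).Res →ₗ[Bk k] Y.Res, ∃ y, ∃ hy : y ∈ Y.comp e, ev Y e y hy = f
  inj : ∀ y (hy : y ∈ Y.comp e), ev Y e y hy = 0 → y ∈ Y.base e

end Ev

section Towers

variable {W : Type} [AddCommGroup W] [Module k W] [Module (DOp k) W] [IsScalarTower k (DOp k) W]

instance : IsScalarTower k (TrivSqZeroExt (Mat k) (Mat k)) (Pair W) :=
  ⟨fun c x p => pair_ext
    (show fst (c • x) • p.1 = c • (fst x • p.1) by rw [TrivSqZeroExt.fst_smul, smul_assoc])
    (show fst (c • x) • p.2 + snd (c • x) • p.1 = c • (fst x • p.2 + snd x • p.1) by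
      rw [TrivSqZeroExt.fst_smul, TrivSqZeroExt.snd_smul, smul_assoc, smul_assoc, smul_add])⟩

instance instTowerRkPair : IsScalarTower k (Rk k) (Pair W) :=
  ⟨fun c r p => smul_assoc c (r : TrivSqZeroExt (Mat k) (Mat k)) p⟩

instance instTowerBkVec : IsScalarTower k (Bk k) (Vec W) :=
  ⟨fun c r p => smul_assoc c (r : Mat k) p⟩

instance instModuleKEcm (Y : GMod k W) : Module k Y.ecm := Submodule.module' _

instance instModuleKCm (Y : GMod k W) : Module k Y.cm := Submodule.module' _

instance instTowerEcm (Y : GMod k W) : IsScalarTower k (Rk k) Y.ecm :=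
  ⟨fun c r p => Subtype.ext (smul_assoc c r (p : Pair W))⟩

instance instTowerCm (Y : GMod k W) : IsScalarTower k (Bk k) Y.cm :=
  ⟨fun c r p => Subtype.ext (smul_assoc c r (p : Vec W))⟩

instance instModuleKEMod (Y : GMod k W) : Module k Y.EMod := Submodule.Quotient.module' _

instance instModuleKRes (Y : GMod k W) : Module k Y.Res := Submodule.Quotient.module' _

instance instTowerEMod (Y : GMod k W) : IsScalarTower k (Rk k) Y.EMod :=
  Submodule.Quotient.isScalarTower _ _

instance instTowerRes (Y : GMod k W) : IsScalarTower k (Bk k) Y.Res :=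
  Submodule.Quotient.isScalarTower _ _

end Towers

instance instModuleTt : Module (Rk k) (Tt k) :=
  @Prod.instModule (Rk k) (Te k) (P20 k) _ _ _ (GMod.instModuleEMod _) (GMod.instModuleEMod _)

instance instModuleKTt : Module k (Tt k) :=
  @Prod.instModule k (Te k) (P20 k) _ _ _ (instModuleKEMod _) (instModuleKEMod _)

instance instSMulTt : SMul (Rk k) (Tt k) := instModuleTt.toSMul

instance instSMulKTt : SMul k (Tt k) := instModuleKTt.toSMul

instance instTowerTt : IsScalarTower k (Rk k) (Tt k) :=
  ⟨fun c r x => Prod.ext (smul_assoc c r x.1) (smul_assoc c r x.2)⟩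

example : Module k (Te k) := inferInstance

example : IsScalarTower k (Rk k) (Tt k) := inferInstance

example : Algebra k (Rk k) := inferInstance

example : IsScalarTower k (Bk k) (polyMod k).Res := inferInstance

end Vale.Agent.P195.Disproof
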