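import Vale.Agent.P195.Disproof.KoszulInst
import Vale.Agent.P195.Disproof.Mods

/-!
# P195: the polynomials and the inverse polynomials on the window

At the vertices `Dc k (-3)` is a line spanned by the monomial with all exponents `-1` in the first
column and vanishes in the others; `polyMod k` consists of the constants in the last column and
vanishes in the others. A proper derivative kills the constants and a variable applied first kills
the bottom line.
-/

noncomputable section

namespace Vale.Agent.P195.Disproof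

open Finsupp (single)

variable {k : Type} [Field k]

/-- The exponent with all entries `-1`. -/
def negOne : Xp := fun _ => -1

theorem degIdx_eq (n : ℤ) : degIdx n = {m : Xp | xdeg m = n} :=
  Set.ext fun m => by simp [degIdx, xdeg, Fin.sum_univ_three]

theorem Dc_comp (c : ℤ) (v : Deg) : (Dc k c).comp v = homog k (v.1 + c) := by
  show Finsupp.supported k k (degIdx (v.1 + c)) = _
  rw [degIdx_eq]; rfl

theorem Dc_base (c : ℤ) (v : Deg) : (Dc k c).base v = homog k (v.1 + c) ⊓ nonneg k := by
  show Finsupp.supported k k (negIdx (v.1 + c)) = _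
  rw [homog, nonneg, ← Finsupp.supported_inter]
  congr 1
  exact Set.ext fun m => by simp [negIdx, xdeg, Fin.sum_univ_three, and_comm]

theorem mem_Dc_base {c : ℤ} {v : Deg} {z : LP k} :
    z ∈ (Dc k c).base v ↔ z ∈ (Dc k c).comp v ∧ z ∈ nonneg k := by
  rw [Dc_base, Dc_comp, Submodule.mem_inf]

/-- Above degree `-3` some exponent is nonnegative. -/
theorem Dc_comp_le_base {c : ℤ} {v : Deg} (h : -3 < v.1 + c) :
    (Dc k c).comp v ≤ (Dc k c).base v := by
  refine Finsupp.supported_mono fun m hm => ⟨?_, hm⟩
  by_contra hno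
  simp only [degIdx, Set.mem_ofPred_eq, Fin.sum_univ_three] at hm
  push Not at hno
  have := hno 0
  have := hno 1
  have := hno 2
  omega

theorem AA_comp_le_base {v : Vtx} (h : v.1 ≠ 0) :
    (Dc k (-3)).comp (pos v) ≤ (Dc k (-3)).base (pos v) := by
  refine Dc_comp_le_base ?_
  have h' : (v.1 : ℕ) ≠ 0 := fun e => h (Fin.ext e)
  simp only [pos]
  omega

theorem single_negOne_mem {v : Deg} {c : ℤ} (h : v.1 + c = -3) (a : k) :
    single negOne a ∈ (Dc k c).comp v :=
  Finsupp.single_mem_supported k a (show ∑ i, negOne i = v.1 + c by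
    simp [negOne, h])

theorem eq_zero_of_single_negOne {a : k} (h : single negOne a ∈ nonneg k) : a = 0 := by
  by_contra ha
  rw [nonneg, Finsupp.mem_supported, Finsupp.support_single _ ha, Finset.coe_singleton,
    Set.singleton_subset_iff] at h
  obtain ⟨i, hi⟩ := h
  simp [negOne] at hi

/-- The bottom piece of degree `-3` is a line. -/
theorem exists_sub_single_negOne {c : ℤ} {v : Deg} (h : v.1 + c = -3) {z : LP k}
    (hz : z ∈ (Dc k c).comp v) : z - single negOne (z negOne) ∈ (Dc k c).base v := by
  classical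
  show _ ∈ Finsupp.supported k k (negIdx (v.1 + c))
  refine (Finsupp.mem_supported k _).2 fun m hm => ?_
  rw [Finset.mem_coe, Finsupp.mem_support_iff, Finsupp.sub_apply] at hm
  rcases eq_or_ne m negOne with rfl | hne
  · simp at hm
  rw [Finsupp.single_eq_of_ne hne, sub_zero] at hm
  have hdeg : m ∈ degIdx (v.1 + c) :=
    (Finsupp.mem_supported k z).1 hz (Finset.mem_coe.2 (Finsupp.mem_support_iff.2 hm))
  refine ⟨?_, hdeg⟩
  by_contra hno
  push Not at hno
  apply hne
  simp only [degIdx, Set.mem_ofPred_eq, Fin.sum_univ_three] at hdeg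
  have h0 := hno 0
  have h1 := hno 1
  have h2 := hno 2
  funext i
  show m i = -1
  fin_cases i <;> dsimp <;> omega

theorem polyMod_comp_eq_bot {v : Deg} (h : v.1 < 2) : (polyMod k).comp v = ⊥ := by
  show Finsupp.supported k k (polyIdx (v.1 - 2)) = ⊥
  rw [show polyIdx (v.1 - 2) = ∅ from Set.eq_empty_of_forall_notMem fun m hm => ?_,
    Finsupp.supported_empty]
  obtain ⟨hpos, hsum⟩ := hm
  rw [Fin.sum_univ_three] at hsum
  have := hpos 0
  have := hpos 1
  have := hpos 2
  omega

theorem SS_comp_eq_bot {v : Vtx} (h : v.1 ≠ 2) : (polyMod k).comp (pos v) = ⊥ := by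
  refine polyMod_comp_eq_bot ?_
  have h' : (v.1 : ℕ) ≠ 2 := fun e => h (Fin.ext e)
  have := v.1.2
  simp only [pos]
  omega

theorem single_zero_mem {v : Deg} (h : v.1 = 2) (a : k) :
    single (0 : Xp) a ∈ (polyMod k).comp v :=
  Finsupp.single_mem_supported k a ⟨fun _ => le_rfl, by simp [h]⟩

/-- The polynomials of degree zero are the constants. -/
theorem eq_single_zero {v : Deg} (h : v.1 = 2) {z : LP k} (hz : z ∈ (polyMod k).comp v) :
    z = single (0 : Xp) (z 0) := by
  refine Finsupp.eq_single_iff.2 ⟨fun m hm => ?_, rfl⟩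
  obtain ⟨hpos, hdeg⟩ := (Finsupp.mem_supported k z).1 hz hm
  rw [Fin.sum_univ_three, h] at hdeg
  rw [Finset.mem_singleton]
  have h0 := hpos 0
  have h1 := hpos 1
  have h2 := hpos 2
  funext i
  show m i = 0
  fin_cases i <;> dsimp <;> omega

/-- A proper derivative kills the constants. -/
theorem op_single_zero {α β : Ix} (hβ : β ≠ 0) (a : k) : op k α β (single (0 : Xp) a) = 0 := by
  obtain ⟨i, hi⟩ := Function.ne_iff.1 hβ
  simp only [Pi.zero_apply] at hi
  have h0 : opC k (0 : Xp) β = 0 := by
    by_contra hc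
    have := le_of_opC_ne_zero hc (i := i) le_rfl
    simp only [Pi.zero_apply] at this
    omega
  rw [op_single, h0, zero_mul, Finsupp.single_zero]

/-- A variable applied first kills the bottom line. -/
theorem opR_single_negOne {α β : Ix} (hα : α ≠ 0) (a : k) :
    opR k β α (single negOne a) ∈ nonneg k := by
  obtain ⟨i, hi⟩ := Function.ne_iff.1 hα
  simp only [Pi.zero_apply] at hi
  have h : op k α 0 (single negOne a) ∈ nonneg k := by
    rw [op_single]
    refine Finsupp.single_mem_supported k _ ⟨i, ?_⟩
    simp only [Pi.add_apply, sh, negOne, Pi.zero_apply, Nat.cast_zero]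
    omega
  rw [opR, Module.End.mul_apply]
  refine op_mem_supported (fun m hm hc => ?_) h
  obtain ⟨j, hj⟩ := hm
  refine ⟨j, ?_⟩
  have := le_of_opC_ne_zero hc hj
  simp only [Pi.add_apply, sh]
  omega

end Vale.Agent.P195.Disproof
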