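import Vale.Agent.P195.Disproof.Mods

/-!
# P195: surjectivity of the arrows at the sources

Every operator of the relevant degrees is a sum of multiples of the arrows `gOp s i` on the left,
up to an operator coming from the bottom vertex of the source.
-/

noncomputable section

namespace Vale.Agent.P195.Disproof

variable {k : Type} [Field k]

/-- An element at a source is reached from the generators of that source. -/
def GMod.Reach {W : Type} [AddCommGroup W] [Module k W] [Module (DOp k) W] (Y : GMod k W)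
    (s : Src) (δ : Deg) : Prop :=
  ∀ w ∈ Y.comp (pos (srcVtx s) + δ),
    ∃ w0 ∈ Y.comp (pos (genVtx (Sum.inr (s, none))) + δ), ∃ wi : Fin 3 → W,
      (∀ i, wi i ∈ Y.comp (pos (midVtx s) + δ)) ∧
        w - (w0 + ∑ i, gOp k s i • wi i) ∈ Y.base (pos (srcVtx s) + δ)

/-- Sums of left multiples of three operators from a piece, plus another piece. -/
def leftSum (g : Fin 3 → DOp k) (N0 N1 : Submodule k (DOp k)) : Submodule k (DOp k) :=
  N0 ⊔ ⨆ i, N1.map (LinearMap.mulLeft k (g i))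

theorem mem_leftSum {g : Fin 3 → DOp k} {N0 N1 : Submodule k (DOp k)} {w : DOp k}
    (h : w ∈ leftSum g N0 N1) :
    ∃ w0 ∈ N0, ∃ wi : Fin 3 → DOp k, (∀ i, wi i ∈ N1) ∧ w = w0 + ∑ i, g i * wi i := by
  classical
  obtain ⟨w0, hw0, r, hr, rfl⟩ := Submodule.mem_sup.1 h
  rw [Submodule.mem_iSup_iff_exists_finsupp] at hr
  obtain ⟨f, hf, rfl⟩ := hr
  choose wi hwi hwe using fun i => hf i
  refine ⟨w0, hw0, wi, hwi, ?_⟩
  rw [Finsupp.sum_fintype _ _ (fun _ => rfl)]
  exact congrArg (w0 + ·) (Finset.sum_congr rfl fun i _ => (hwe i).symm)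

theorem mul_mem_leftSum (g : Fin 3 → DOp k) (N0 : Submodule k (DOp k)) {N1 : Submodule k (DOp k)}
    (i : Fin 3) {x : DOp k} (hx : x ∈ N1) : g i * x ∈ leftSum g N0 N1 :=
  Submodule.mem_sup_right (Submodule.mem_iSup_of_mem i (Submodule.mem_map_of_mem hx))

/-- A variable split off on the left, up to operators of order zero. -/
theorem Fil_le_leftSum_var {d e : Deg} (hd : 0 ≤ d.1)
    (he : d.1 = 0 → e.1 = 0 ∧ 0 ≤ e.2) :
    Fil k d ≤ leftSum (fun i => op k (unit i) 0) (Fil k e) (Fil k (d.1 - 1, d.2)) := by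
  refine Fil_le fun α β g1 g2 => ?_
  by_cases hα : α = 0
  · subst hα
    rw [tot_zero] at g1
    have hβ : β = 0 := tot_eq_zero.1 (by omega)
    subst hβ
    rw [tot_zero] at g1
    obtain ⟨h1, h2⟩ := he (by omega)
    rw [op_zero_zero]
    exact Submodule.mem_sup_left (one_mem_Fil h1 h2)
  · obtain ⟨i, a, rfl⟩ := exists_unit_of_ne_zero hα
    rw [tot_add, tot_unit] at g1
    rw [add_comm a, ← op_zero_right_mul]
    exact mul_mem_leftSum _ _ i (op_mem_Fil (by simp only; omega) g2)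

/-- A derivative split off on the left, up to operators of order zero. -/
theorem Fil_le_leftSum_deriv {d e : Deg} (he : 0 ≤ d.1 → e.1 = d.1 ∧ 0 ≤ e.2) :
    Fil k d ≤ leftSum (fun i => op k 0 (unit i)) (Fil k e) (Fil k (d.1 + 1, d.2 - 1)) := by
  rw [Fil_eq_span_opR, Submodule.span_le]
  rintro _ ⟨⟨α, β⟩, ⟨g1, g2⟩, rfl⟩
  simp only at g1 g2 ⊢
  by_cases hβ : β = 0
  · subst hβ
    rw [tot_zero] at g1 g2
    obtain ⟨h1, h2⟩ := he (by omega)
    refine Submodule.mem_sup_left (opR_mem_Fil ?_ ?_) <;> rw [tot_zero] <;> omega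
  · obtain ⟨i, b, rfl⟩ := exists_unit_of_ne_zero hβ
    rw [tot_add, tot_unit] at g1 g2
    have h : opR k (b + unit i) α = op k 0 (unit i) * opR k b α := by
      rw [opR, opR, ← mul_assoc, deriv_mul_op]
      simp
    rw [SetLike.mem_coe, h]
    exact mul_mem_leftSum _ _ i (opR_mem_Fil (by simp only; omega) (by simp only; omega))

theorem pos_srcVtx (s : Src) :
    pos (srcVtx s) = (2 * ((s.1 : ℕ) : ℤ), ((s.2 : ℕ) : ℤ) + 1) := by
  simp [pos, srcVtx]

theorem pos_midVtx (s : Src) :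
    pos (midVtx s) = (1, ((s.1 : ℕ) : ℤ) + ((s.2 : ℕ) : ℤ)) := by
  simp [pos, midVtx]

theorem pos_genVtx_none (s : Src) :
    pos (genVtx (Sum.inr (s, none))) = (2 * ((s.1 : ℕ) : ℤ), 0) := by
  simp [pos, genVtx, srcVtx]

/-- The degrees of the generators. -/
def GenDeg (f : Deg) : Prop :=
  (f.1 = 1 ∧ 0 ≤ f.2 ∧ f.2 ≤ 3) ∨ f = (0, 0) ∨ f = (2, 0)

theorem genDeg_genVtx (j : Gen) : GenDeg (pos (genVtx j)) := by
  rcases j with b | ⟨⟨a, b⟩, _ | i⟩
  · refine Or.inl ⟨rfl, ?_, ?_⟩ <;> simp only [genVtx, pos] <;> omega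
  · rw [pos_genVtx_none]
    fin_cases a
    · exact Or.inr (Or.inl rfl)
    · exact Or.inr (Or.inr rfl)
  · rw [genVtx, pos_midVtx]
    refine Or.inl ⟨rfl, ?_, ?_⟩ <;> simp only <;> omega

/-- The free families at the generators are reached. -/
theorem reach_P {f : Deg} (hf : GenDeg f) (s : Src) {δ : Deg} (hδ : δ = 0 ∨ δ = tau) :
    (P k f).Reach s δ := by
  intro w hw
  have key : Fil k (pos (srcVtx s) + δ - f) ≤ leftSum (gOp k s)
      (Fil k (pos (genVtx (Sum.inr (s, none))) + δ - f)) (Fil k (pos (midVtx s) + δ - f)) := by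
    obtain ⟨f1, f2⟩ := f
    obtain ⟨a, b⟩ := s
    rw [pos_srcVtx, pos_midVtx, pos_genVtx_none]
    fin_cases a
    · rw [show gOp k ((⟨0, by norm_num⟩ : Fin 2), b) = fun i => op k 0 (unit i) from
        funext fun i => if_pos rfl]
      refine (Fil_le_leftSum_deriv (e := ((2 * ((0 : ℕ) : ℤ), (0 : ℤ)) + δ - (f1, f2)))
        fun h => ?_).trans (le_of_eq ?_)
      · rcases hδ with rfl | rfl <;> rcases hf with ⟨h1, h2, h3⟩ | h1 | h1 <;>
          simp_all [tau]
      · congr 2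
        refine Prod.ext ?_ ?_ <;> simp <;> ring
    · rw [show gOp k ((⟨1, by norm_num⟩ : Fin 2), b) = fun i => op k (unit i) 0 from
        funext fun i => if_neg (by simp)]
      refine (Fil_le_leftSum_var (e := ((2 * ((1 : ℕ) : ℤ), (0 : ℤ)) + δ - (f1, f2))) ?_
        fun h => ?_).trans (le_of_eq ?_)
      · rcases hδ with rfl | rfl <;> rcases hf with ⟨h1, h2, h3⟩ | h1 | h1 <;>
          simp_all [tau]
      · rcases hδ with rfl | rfl <;> rcases hf with ⟨h1, h2, h3⟩ | h1 | h1 <;>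
          simp_all [tau]
      · congr 2
        refine Prod.ext ?_ ?_ <;> simp <;> ring
  obtain ⟨w0, hw0, wi, hwi, e⟩ := mem_leftSum (key hw)
  refine ⟨w0, hw0, wi, hwi, ?_⟩
  rw [P_base, Submodule.mem_bot, sub_eq_zero]
  exact e

/-- The partial tilting family is reached. -/
theorem reach_Tmod (s : Src) {δ : Deg} (hδ : δ = 0 ∨ δ = tau) : (Tmod k).Reach s δ := by
  intro w hw
  choose w0 hw0 wi hwi he using fun j : Gen =>
    reach_P (k := k) (genDeg_genVtx j) s hδ (w j) (hw j (Set.mem_univ j))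
  refine ⟨w0, fun j _ => hw0 j, fun i j => wi j i, fun i j _ => hwi j i, ?_⟩
  have h : w - (w0 + ∑ i, gOp k s i • fun j => wi j i) = 0 := funext fun j => by
    have := he j
    rw [P_base, Submodule.mem_bot] at this
    simpa using this
  rw [h]
  exact zero_mem _

end Vale.Agent.P195.Disproof
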