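import Vale.Agent.P195.Disproof.LocalHom
import Vale.Agent.P195.Disproof.LocalFil
import Vale.Agent.P195.Disproof.LaurentDeg
import Vale.Agent.P195.Corner.Main

/-!
# P195: local facts about the partial tilting module

`Ext^1(Te, -)` vanishes on `Te`, `P20` and `AA`, and `Te` has no extensions of any degree into
`AA`.
-/

noncomputable section

open CategoryTheory CategoryTheory.Abelian

namespace Vale.Agent.P195.Disproof

open TrivSqZeroExt (fst snd inl inr)
open Finsupp (single)

variable {k : Type} [Field k]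

/-! ### The relations of the presentation -/

theorem psiC_inl (s : Src) (b : Fin 4) : psiC k s (Sum.inl b) = 0 := rfl

theorem psiC_none (s t : Src) : psiC k s (Sum.inr (t, none)) = if t = s then 1 else 0 := by
  rw [psiC, psi_none, Pi.single_apply]

theorem psiC_some (s t : Src) (i : Fin 3) :
    psiC k s (Sum.inr (t, some i)) = if t = s then gOp k s i else 0 := by
  rw [psiC, psi_some, Pi.single_apply]
  split_ifs with h
  · rw [h, one_mul]
  · rw [zero_mul]

instance instSMulSrcP : SMul (Rk k) (SrcP k) := (instModuleSrcP k).toSMul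

instance instSMulGenP : SMul (Rk k) (GenP k) := (instModuleGenP k).toSMul

variable (k) in
/-- A source as a direct summand. -/
def srcSingle (s : Src) : (P k (pos (srcVtx s))).EMod →ₗ[Rk k] SrcP k :=
  LinearMap.single (Rk k) (fun t => (P k (pos (srcVtx t))).EMod) s

theorem srcSingle_sum (p : SrcP k) :
    p = ∑ s, srcSingle k s (toRk k (srcVtx s) (p s) • genE k (srcVtx s)) := by
  classical
  simp only [toRk_smul_genE, srcSingle, LinearMap.coe_single]
  exact (Finset.univ_sum_single p).symm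

theorem presι_apply (p : SrcP k) (j : Gen) :
    presι k p j = ∑ s, toRk k (srcVtx s) (p s) • srcImg k s j := by
  simp [presι, LinearMap.sum_apply]

variable (k) in
/-- The coefficient of a generator in the relation at a source. -/
def relR (s : Src) (j : Gen) : Rk k := toRk k (genVtx j) (srcImg k s j)

theorem fst_toRk_sgl (v u : Vtx) (c : DOp k) (h1 : ∀ w, sgl u c w ∈ (P k (pos v)).comp (pos w))
    (h2 : ∀ w, (0 : Vec (DOp k)) w ∈ (P k (pos v)).comp (pos w + tau)) :
    fst (toRk k v ((P k (pos v)).mkE (sgl u c) 0 h1 h2) : TrivSqZeroExt (Mat k) (Mat k)) =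
      colMat k v (sgl u c) := by
  show fst (inl (colMat k v (sgl u c)) + inr (colMat k v (0 : Vec (DOp k)))) = _
  rw [TrivSqZeroExt.fst_add, TrivSqZeroExt.fst_inl, TrivSqZeroExt.fst_inr, add_zero]

theorem fst_relR (s : Src) (j : Gen) :
    fst (relR k s j : TrivSqZeroExt (Mat k) (Mat k)) =
      colMat k (genVtx j) (sgl (srcVtx s) (psiC k s j)) :=
  fst_toRk_sgl _ _ _ _ _

theorem snd_relR (s : Src) (j : Gen) : snd (relR k s j : TrivSqZeroExt (Mat k) (Mat k)) = 0 := by
  show snd (inl (colMat k (genVtx j) (sgl (srcVtx s) (psiC k s j))) +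
    inr (colMat k (genVtx j) (0 : Vec (DOp k)))) = _
  rw [TrivSqZeroExt.snd_add, TrivSqZeroExt.snd_inl, TrivSqZeroExt.snd_inr, zero_add, map_zero]

theorem colMat_sgl_smul_sgl {W : Type} [AddCommGroup W] [Module k W] [Module (DOp k) W]
    (v u : Vtx) (c : DOp k) (y : W) :
    colMat k v (sgl u c) • sgl v y = sgl u (c • y) := vec_ext fun w => by
  rw [colMat_sgl, sgl_self]
  by_cases h : w = u
  · rw [h, sgl_self, sgl_self]
  · rw [sgl_ne h, sgl_ne h, zero_smul]

theorem presπ_apply (p : GenP k) :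
    presπ k p = ∑ j, toRk k (genVtx j) (p j) • genT k j := by
  simp [presπ, LinearMap.sum_apply]

/-- The relation at a source. -/
theorem relation (s : Src) : ∑ j, relR k s j • genT k j = 0 := by
  classical
  have h : presι k (Pi.single s (genE k (srcVtx s))) = fun j => srcImg k s j := funext fun j => by
    simp only [presι, LinearMap.pi_apply, LinearMap.sum_apply, LinearMap.comp_apply,
      LinearMap.proj_apply, LinearMap.toSpanSingleton_apply]
    rw [Finset.sum_eq_single s]
    · rw [Pi.single_eq_same]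
      have e : toRk k (srcVtx s) (genE k (srcVtx s)) = eR k (srcVtx s) := Subtype.ext <| by
        show inl (colMat k (srcVtx s) (sgl (srcVtx s) 1)) +
          inr (colMat k (srcVtx s) (0 : Vec (DOp k))) = inl (colMat k (srcVtx s) (sgl (srcVtx s) 1))
        rw [map_zero, TrivSqZeroExt.inr_zero, add_zero]
      rw [e, srcImg]
      refine (eR_smul_mkE _ _ _ _ _ _).trans ?_
      exact GMod.mkE_congr _ (fun u => by rw [sgl_self]) fun u => by
        by_cases hu : u = srcVtx s
        · rw [hu, sgl_self]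
        · rw [sgl_ne hu]; rfl
    · intro t _ ht
      rw [Pi.single_eq_of_ne ht, map_zero, zero_smul]
    · simp
  have hx : presπ k (presι k (Pi.single s (genE k (srcVtx s)))) = 0 :=
    (pres_exact (k := k) _).2 ⟨_, rfl⟩
  rw [h, presπ_apply] at hx
  exact hx

/-- Sums over the generators that only see one source. -/
theorem sum_gen_eq {X : Type} [AddCommMonoid X] (s : Src) (F : Gen → X)
    (hl : ∀ b, F (Sum.inl b) = 0) (hr : ∀ t o, t ≠ s → F (Sum.inr (t, o)) = 0) :
    ∑ j, F j = F (Sum.inr (s, none)) + ∑ i, F (Sum.inr (s, some i)) := by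
  classical
  rw [Fintype.sum_sum_type, Fintype.sum_prod_type, Finset.sum_eq_zero fun b _ => hl b, zero_add,
    Finset.sum_eq_single s, Fintype.sum_option]
  · exact fun t _ ht => Finset.sum_eq_zero fun o _ => hr t o ht
  · simp

theorem relR_eq_zero {s t : Src} (h : t ≠ s) (o : Option (Fin 3)) :
    relR k s (Sum.inr (t, o)) = 0 := by
  refine Subtype.ext (TrivSqZeroExt.ext ?_ ?_)
  · rw [fst_relR]
    have hc : psiC k s (Sum.inr (t, o)) = 0 := by
      cases o with
      | none => rw [psiC_none, if_neg h]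
      | some i => rw [psiC_some, if_neg h]
    rw [hc, show sgl (srcVtx s) (0 : DOp k) = 0 from vec_ext fun u => by
      by_cases hu : u = srcVtx s
      · rw [hu, sgl_self]; rfl
      · rw [sgl_ne hu]; rfl, map_zero]
    rfl
  · rw [snd_relR]; rfl

theorem relR_inl (s : Src) (b : Fin 4) : relR k s (Sum.inl b) = 0 := by
  refine Subtype.ext (TrivSqZeroExt.ext ?_ ?_)
  · rw [fst_relR, psiC_inl, show sgl (srcVtx s) (0 : DOp k) = 0 from vec_ext fun u => by
      by_cases hu : u = srcVtx s
      · rw [hu, sgl_self]; rfl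
      · rw [sgl_ne hu]; rfl, map_zero]
    rfl
  · rw [snd_relR]; rfl

/-- The rows of the relations. -/
theorem toRk_presι (p : SrcP k) (j : Gen) :
    toRk k (genVtx j) (presι k p j) = ∑ s, toRk k (srcVtx s) (p s) * relR k s j := by
  rw [presι_apply, map_sum]
  exact Finset.sum_congr rfl fun s _ => LinearMap.map_smul (toRk k (genVtx j)) _ _

theorem apply_srcSingle_smul {X : Type} [AddCommGroup X] [Module (Rk k) X]
    (f : SrcP k →ₗ[Rk k] X) (s : Src) (r : Rk k) (g : (P k (pos (srcVtx s))).EMod) :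
    f (srcSingle k s (r • g)) = r • f (srcSingle k s g) :=
  LinearMap.map_smul (f.comp (srcSingle k s)) r g

/-! ### The criterion for the first extension group -/

theorem ev_Te_one_of_extend {X : Type} [AddCommGroup X] [Module (Rk k) X]
    (h : ∀ f : SrcP k →ₗ[Rk k] X, ∃ F : GenP k →ₗ[Rk k] X, F.comp (presι k) = f) :
    EV (Rk k) (Te k) X 1 :=
  @Corner.ev_one_of_extend (Rk k) _ (SrcP k) (GenP k) (Te k) X (instAddCommGroupSrcP k)
    (instModuleSrcP k) (instAddCommGroupGenP k) (instModuleGenP k) _ _ _ _ (presι k) (presπ k)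
    presι_injective presπ_surjective pres_exact (projective_GenP (k := k)) h

/-- `Ext^1` out of the partial tilting module vanishes if the arrows at each source are onto. -/
theorem ev_Te_one {X : Type} [AddCommGroup X] [Module (Rk k) X]
    (h : ∀ (s : Src) (x : X), eR k (srcVtx s) • x = x → ∃ (x0 : X) (xi : Fin 3 → X),
      relR k s (Sum.inr (s, none)) • x0 + ∑ i, relR k s (Sum.inr (s, some i)) • xi i = x) :
    EV (Rk k) (Te k) X 1 := by
  classical
  refine ev_Te_one_of_extend fun f => ?_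
  have hx : ∀ s, eR k (srcVtx s) • f (srcSingle k s (genE k (srcVtx s))) =
      f (srcSingle k s (genE k (srcVtx s))) := fun s => by
    rw [← apply_srcSingle_smul, eR_smul_genE]
  choose x0 xi hxi using fun s => h s _ (hx s)
  let y : Gen → X := fun j => match j with
    | Sum.inl _ => 0
    | Sum.inr (t, none) => x0 t
    | Sum.inr (t, some i) => xi t i
  have hy : ∀ s, ∑ j, relR k s j • y j = f (srcSingle k s (genE k (srcVtx s))) := fun s => by
    rw [sum_gen_eq s _ (fun b => by rw [relR_inl, zero_smul])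
      fun t o ht => by rw [relR_eq_zero ht, zero_smul]]
    exact hxi s
  refine ⟨∑ j, ((LinearMap.toSpanSingleton (Rk k) X (y j)).comp (toRk k (genVtx j))).comp
    (LinearMap.proj j), LinearMap.ext fun p => ?_⟩
  simp only [LinearMap.comp_apply, LinearMap.sum_apply, LinearMap.proj_apply,
    LinearMap.toSpanSingleton_apply]
  conv_rhs => rw [srcSingle_sum p, map_sum]
  calc ∑ j, toRk k (genVtx j) (presι k p j) • y j
      = ∑ j, ∑ s, toRk k (srcVtx s) (p s) • (relR k s j • y j) := by
        refine Finset.sum_congr rfl fun j _ => ?_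
        rw [toRk_presι, Finset.sum_smul]
        exact Finset.sum_congr rfl fun s _ => mul_smul _ _ _
    _ = ∑ s, ∑ j, toRk k (srcVtx s) (p s) • (relR k s j • y j) := Finset.sum_comm
    _ = ∑ s, f (srcSingle k s (toRk k (srcVtx s) (p s) • genE k (srcVtx s))) := by
        refine Finset.sum_congr rfl fun s _ => ?_
        rw [← Finset.smul_sum, hy s, apply_srcSingle_smul]

/-! ### Extended modules -/

variable {W : Type} [AddCommGroup W] [Module k W] [Module (DOp k) W] (Y : GMod k W)

theorem src_smul_mem (s : Src) (j : Gen) {δ : Deg} {y : W}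
    (hy : y ∈ Y.comp (pos (genVtx j) + δ)) :
    psiC k s j • y ∈ Y.comp (pos (srcVtx s) + δ) :=
  Y.smul_comp_of_eq (psiC_mem s j) hy (by abel)

theorem relR_smul_mkE (s : Src) (j : Gen) (y z : W) (hy : y ∈ Y.comp (pos (genVtx j)))
    (hz : z ∈ Y.comp (pos (genVtx j) + tau)) :
    relR k s j • Y.mkE (sgl (genVtx j) y) (sgl (genVtx j) z) (Y.sgl_mem₀ hy) (Y.sgl_mem hz) =
      Y.mkE (sgl (srcVtx s) (psiC k s j • y)) (sgl (srcVtx s) (psiC k s j • z))
        (Y.sgl_mem₀ (by simpa using src_smul_mem Y s j (δ := 0) (by simpa using hy)))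
        (Y.sgl_mem (src_smul_mem Y s j hz)) := by
  refine congrArg Submodule.Quotient.mk (Subtype.ext (pair_ext ?_ ?_))
  · show fst (relR k s j : TrivSqZeroExt (Mat k) (Mat k)) • sgl (genVtx j) y = _
    rw [fst_relR, colMat_sgl_smul_sgl]
  · show fst (relR k s j : TrivSqZeroExt (Mat k) (Mat k)) • sgl (genVtx j) z +
      snd (relR k s j : TrivSqZeroExt (Mat k) (Mat k)) • sgl (genVtx j) y = _
    rw [fst_relR, snd_relR, colMat_sgl_smul_sgl, zero_smul, add_zero]

theorem sgl_sub_mem_base {v : Vtx} {a b : W} {δ : Deg} (h : a - b ∈ Y.base (pos v + δ)) (u : Vtx) :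
    (sgl v a - sgl v b : Vec W) u ∈ Y.base (pos u + δ) := by
  rw [vec_sub_apply]
  by_cases hu : u = v
  · subst hu
    rwa [sgl_self, sgl_self]
  · rw [sgl_ne hu, sgl_ne hu, sub_zero]
    exact zero_mem _

theorem ev_Te_EMod_one (h0 : ∀ s, Y.Reach s 0) (h1 : ∀ s, Y.Reach s tau) :
    EV (Rk k) (Te k) Y.EMod 1 := by
  classical
  refine ev_Te_one fun s x hx => ?_
  obtain ⟨y, z, hy, hz, rfl⟩ := Y.exists_mkE x
  obtain ⟨a0, ha0, ai, hai, hea⟩ := h0 s (y (srcVtx s)) (by simpa using hy (srcVtx s))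
  obtain ⟨b0, hb0, bi, hbi, heb⟩ := h1 s (z (srcVtx s)) (hz (srcVtx s))
  rw [add_zero] at ha0 hea
  simp only [add_zero] at hai
  refine ⟨Y.mkE (sgl (genVtx (Sum.inr (s, none))) a0) (sgl (genVtx (Sum.inr (s, none))) b0)
      (Y.sgl_mem₀ ha0) (Y.sgl_mem hb0),
    fun i => Y.mkE (sgl (genVtx (Sum.inr (s, some i))) (ai i))
      (sgl (genVtx (Sum.inr (s, some i))) (bi i)) (Y.sgl_mem₀ (hai i)) (Y.sgl_mem (hbi i)), ?_⟩
  conv_rhs => rw [← hx, eR_smul_mkE]
  refine (congrArg₂ (· + ·) (relR_smul_mkE Y s _ a0 b0 ha0 hb0) ((Finset.sum_congr rfl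
    fun i _ => relR_smul_mkE Y s (Sum.inr (s, some i)) (ai i) (bi i) (hai i) (hbi i)).trans
    (GMod.sum_mkE _ Y _ _ _ _))).trans ?_
  refine (Submodule.Quotient.eq _).2 ⟨fun u => ?_, fun u => ?_⟩
  · show sgl (srcVtx s) (psiC k s (Sum.inr (s, none)) • a0) u +
        ∑ i, sgl (srcVtx s) (psiC k s (Sum.inr (s, some i)) • ai i) u -
      sgl (srcVtx s) (y (srcVtx s)) u ∈ Y.base (pos u)
    by_cases hu : u = srcVtx s
    · subst hu
      simp only [sgl_self, psiC_none, psiC_some, if_true, one_smul]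
      rw [← neg_mem_iff, neg_sub]
      exact hea
    · simp only [sgl_ne hu, Finset.sum_const_zero, add_zero, sub_zero]
      exact zero_mem _
  · show sgl (srcVtx s) (psiC k s (Sum.inr (s, none)) • b0) u +
        ∑ i, sgl (srcVtx s) (psiC k s (Sum.inr (s, some i)) • bi i) u -
      sgl (srcVtx s) (z (srcVtx s)) u ∈ Y.base (pos u + tau)
    by_cases hu : u = srcVtx s
    · subst hu
      simp only [sgl_self, psiC_none, psiC_some, if_true, one_smul]
      rw [← neg_mem_iff, neg_sub]
      exact heb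
    · simp only [sgl_ne hu, Finset.sum_const_zero, add_zero, sub_zero]
      exact zero_mem _

theorem ev_Te_Te_one : EV (Rk k) (Te k) (Te k) 1 :=
  ev_Te_EMod_one (Tmod k) (fun s => reach_Tmod s (Or.inl rfl)) fun s => reach_Tmod s (Or.inr rfl)

theorem ev_Te_P20_one : EV (Rk k) (Te k) (P20 k) 1 :=
  ev_Te_EMod_one (P k (pos (2, 0)))
    (fun s => reach_P (Or.inr (Or.inr (by simp [pos]))) s (Or.inl rfl))
    fun s => reach_P (Or.inr (Or.inr (by simp [pos]))) s (Or.inr rfl)

/-! ### Inflated modules -/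

/-- An element of an inflated module. -/
def toInfl (x : Y.Res) : Infl k Y.Res := (Via.equiv (fstHom (k := k)) Y.Res).symm x

theorem exists_toInfl (x : Infl k Y.Res) : ∃ r, toInfl Y r = x := ⟨_, rfl⟩

theorem fstHom_eR_smul (v : Vtx) (y : Vec W) (hy : ∀ u, y u ∈ Y.comp (pos u)) :
    eR k v • toInfl Y (Y.mkRes y hy) = toInfl Y (Y.mkRes (sgl v (y v)) (Y.sgl_mem₀ (hy v))) := by
  refine congrArg (toInfl Y) (congrArg Submodule.Quotient.mk (Subtype.ext (vec_ext fun u => ?_)))
  show (fst (inl (colMat k v (sgl v (1 : DOp k))) : TrivSqZeroExt (Mat k) (Mat k)) • y) u =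
    sgl v (y v) u
  rw [TrivSqZeroExt.fst_inl, colMat_sgl]
  by_cases h : u = v
  · rw [h, sgl_self, sgl_self, one_smul]
  · rw [sgl_ne h, sgl_ne h, zero_smul]

/-- A fixed element vanishes if its component does. -/
theorem eq_zero_of_fixed (v : Vtx) (hY : Y.comp (pos v) ≤ Y.base (pos v)) (x : Infl k Y.Res)
    (hx : eR k v • x = x) : x = 0 := by
  obtain ⟨r, rfl⟩ := exists_toInfl Y x
  obtain ⟨y, hy, rfl⟩ := Y.exists_mkRes r
  rw [← hx, fstHom_eR_smul]
  refine congrArg (toInfl Y) (Y.mkRes_eq_zero.2 fun u => ?_)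
  by_cases h : u = v
  · subst h
    rw [sgl_self]
    exact hY (hy u)
  · rw [sgl_ne h]
    exact zero_mem _

theorem relR_smul_toInfl (s : Src) (j : Gen) (y : W) (hy : y ∈ Y.comp (pos (genVtx j))) :
    relR k s j • toInfl Y (Y.mkRes (sgl (genVtx j) y) (Y.sgl_mem₀ hy)) =
      toInfl Y (Y.mkRes (sgl (srcVtx s) (psiC k s j • y))
        (Y.sgl_mem₀ (by simpa using src_smul_mem Y s j (δ := 0) (by simpa using hy)))) := by
  refine congrArg (toInfl Y) (congrArg Submodule.Quotient.mk (Subtype.ext ?_))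
  show fst (relR k s j : TrivSqZeroExt (Mat k) (Mat k)) • sgl (genVtx j) y = _
  rw [fst_relR, colMat_sgl_smul_sgl]

/-- The equation satisfied by a map out of `Te` at a source. -/
theorem map_relation {X : Type} [AddCommGroup X] [Module (Rk k) X] (f : Te k →ₗ[Rk k] X)
    (s : Src) : relR k s (Sum.inr (s, none)) • f (genT k (Sum.inr (s, none))) +
      ∑ i, relR k s (Sum.inr (s, some i)) • f (genT k (Sum.inr (s, some i))) = 0 := by
  have h := congrArg f (relation (k := k) s)
  rw [map_sum, map_zero, sum_gen_eq s _ (fun b => by rw [relR_inl, zero_smul, map_zero])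
    fun t o ht => by rw [relR_eq_zero ht, zero_smul, map_zero]] at h
  simpa only [map_smul] using h

/-- Maps from `Te` to an inflated family that is zero at the middle vertices and unchanged along
the arrows from the bottom vertices. -/
theorem hom_Te_Infl_eq_zero (hmid : ∀ b : Fin 4, Y.comp (pos (1, b)) ≤ Y.base (pos (1, b)))
    (hbot : ∀ s, Y.base (pos (srcVtx s)) ⊓ Y.comp (pos (genVtx (Sum.inr (s, none)))) ≤
      Y.base (pos (genVtx (Sum.inr (s, none)))))
    (f : Te k →ₗ[Rk k] Infl k Y.Res) : f = 0 := by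
  have hfix : ∀ j, eR k (genVtx j) • f (genT k j) = f (genT k j) := fun j => by
    rw [← map_smul, eR_smul_genT]
  have hmid' : ∀ (j : Gen) (b : Fin 4), genVtx j = (1, b) → f (genT k j) = 0 := fun j b e =>
    eq_zero_of_fixed Y (genVtx j) (by rw [e]; exact hmid b) _ (hfix j)
  refine homTe_ext fun j => ?_
  rw [LinearMap.zero_apply]
  rcases j with b | ⟨s, _ | i⟩
  · exact hmid' _ b rfl
  · have h := map_relation f s
    rw [Finset.sum_eq_zero fun i _ => by rw [hmid' _ _ rfl, smul_zero], add_zero] at h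
    obtain ⟨r, hr⟩ := exists_toInfl Y (f (genT k (Sum.inr (s, none))))
    obtain ⟨y, hy, rfl⟩ := Y.exists_mkRes r
    rw [← hfix, ← hr, fstHom_eR_smul] at h ⊢
    rw [relR_smul_toInfl Y s _ _ (hy _)] at h
    have h' := congrArg (Via.equiv (fstHom (k := k)) Y.Res) h
    replace h' := Y.mkRes_eq_zero.1 h' (srcVtx s)
    rw [sgl_self, psiC_none, if_pos rfl, one_smul] at h'
    refine congrArg (toInfl Y) (Y.mkRes_eq_zero.2 fun u => ?_)
    by_cases hu : u = genVtx (Sum.inr (s, none))
    · subst hu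
      rw [sgl_self]
      exact hbot s ⟨h', hy _⟩
    · rw [sgl_ne hu]
      exact zero_mem _
  · exact hmid' _ _ rfl

theorem srcVtx_fst (s : Src) : (pos (srcVtx s)).1 = (pos (genVtx (Sum.inr (s, none)))).1 := by
  rw [pos_srcVtx, pos_genVtx_none]

/-- No maps from the partial tilting module to the test module. -/
theorem hom_Te_AA (f : Te k →ₗ[Rk k] AA k) : f = 0 :=
  hom_Te_Infl_eq_zero (Dc k (-3))
    (fun b => AA_comp_le_base (v := (1, b)) (by simp))
    (fun s => by
      show Finsupp.supported k k (negIdx ((pos (srcVtx s)).1 + -3)) ⊓ _ ≤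
        Finsupp.supported k k (negIdx ((pos (genVtx (Sum.inr (s, none)))).1 + -3))
      rw [srcVtx_fst]
      exact inf_le_left) f

theorem ev_Te_AA_one : EV (Rk k) (Te k) (AA k) 1 := by
  refine ev_Te_one fun s x hx => ?_
  obtain ⟨r, rfl⟩ := exists_toInfl (Dc k (-3)) x
  obtain ⟨y, hy, rfl⟩ := (Dc k (-3)).exists_mkRes r
  have hmem : y (srcVtx s) ∈ (Dc k (-3)).comp (pos (genVtx (Sum.inr (s, none)))) := by
    show _ ∈ Finsupp.supported k k (degIdx ((pos (genVtx (Sum.inr (s, none)))).1 + -3))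
    rw [← srcVtx_fst]
    exact hy (srcVtx s)
  refine ⟨toInfl _ ((Dc k (-3)).mkRes (sgl (genVtx (Sum.inr (s, none))) (y (srcVtx s)))
    ((Dc k (-3)).sgl_mem₀ hmem)), 0, ?_⟩
  rw [relR_smul_toInfl _ s _ _ hmem, Finset.sum_eq_zero fun i _ => by rw [Pi.zero_apply, smul_zero], add_zero]
  conv_rhs => rw [← hx, fstHom_eR_smul]
  refine congrArg (toInfl _) (congrArg Submodule.Quotient.mk (Subtype.ext ?_))
  show sgl (srcVtx s) (psiC k s (Sum.inr (s, none)) • y (srcVtx s)) =
    sgl (srcVtx s) (y (srcVtx s))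
  rw [psiC_none, if_pos rfl, one_smul]

/-- No extensions of any degree from the partial tilting module to the test module. -/
theorem ev_Te_AA : ∀ i, EV (Rk k) (Te k) (AA k) i
  | 0 => ev_zero_iff.2 hom_Te_AA
  | 1 => ev_Te_AA_one
  | i + 2 => ev_Te_add_two (AA k) i

end Vale.Agent.P195.Disproof
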