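import Vale.Agent.P195.Disproof.Pres
import Vale.Agent.P195.Disproof.LaurentDeg

/-!
# P195: homomorphisms into the simple module and into the test module
-/

noncomputable section

namespace Vale.Agent.P195.Disproof

open TrivSqZeroExt (fst snd inl inr)
open Finsupp (single)

variable {k : Type} [Field k] {W : Type} [AddCommGroup W] [Module k W] [Module (DOp k) W]

/-- An element of the inflation of a family. -/
def mkInfl (Y : GMod k W) (y : Vec W) (hy : ∀ v, y v ∈ Y.comp (pos v)) : Infl k Y.Res :=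
  (Via.equiv _ _).symm (Y.mkRes y hy)

theorem mkInfl_eq_zero {Y : GMod k W} {y : Vec W} {hy : ∀ v, y v ∈ Y.comp (pos v)} :
    mkInfl Y y hy = 0 ↔ ∀ v, y v ∈ Y.base (pos v) := Y.mkRes_eq_zero

theorem mkInfl_congr (Y : GMod k W) {y y' : Vec W} {hy : ∀ v, y v ∈ Y.comp (pos v)}
    {hy' : ∀ v, y' v ∈ Y.comp (pos v)} (h : ∀ v, y v = y' v) :
    mkInfl Y y hy = mkInfl Y y' hy' := by
  obtain rfl : y = y' := vec_ext h
  rfl

theorem exists_mkInfl (Y : GMod k W) (x : Infl k Y.Res) : ∃ y hy, mkInfl Y y hy = x := by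
  obtain ⟨y, hy, h⟩ := Y.exists_mkRes (Via.equiv _ _ x)
  exact ⟨y, hy, h⟩

theorem eR_smul_mkInfl (Y : GMod k W) (v : Vtx) (y : Vec W) (hy : ∀ u, y u ∈ Y.comp (pos u)) :
    eR k v • mkInfl Y y hy = mkInfl Y (sgl v (y v)) (Y.sgl_mem₀ (hy v)) := by
  refine congrArg Submodule.Quotient.mk (Subtype.ext (vec_ext fun u => ?_))
  show (fst (inl (colMat k v (sgl v (1 : DOp k))) : TrivSqZeroExt (Mat k) (Mat k)) • y) u =
    sgl v (y v) u
  rw [TrivSqZeroExt.fst_inl, colMat_sgl]
  by_cases h : u = v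
  · rw [h, sgl_self, sgl_self, one_smul]
  · rw [sgl_ne h, sgl_ne h, zero_smul]

theorem toRk_smul_mkInfl (Y : GMod k W) (v : Vtx) (w : W) (hw : w ∈ Y.comp (pos v))
    (f g : Vec (DOp k)) (hf : ∀ u, f u ∈ (P k (pos v)).comp (pos u))
    (hg : ∀ u, g u ∈ (P k (pos v)).comp (pos u + tau)) :
    toRk k v ((P k (pos v)).mkE f g hf hg) • mkInfl Y (sgl v w) (Y.sgl_mem₀ hw) =
      mkInfl Y (fun u => f u • w) (fun u => Y.smul_comp_of_eq (hf u) hw (by abel)) := by
  refine congrArg Submodule.Quotient.mk (Subtype.ext (vec_ext fun u => ?_))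
  show (fst (inl (colMat k v f) + inr (colMat k v g)) • sgl v w) u = f u • w
  rw [TrivSqZeroExt.fst_add, TrivSqZeroExt.fst_inl, TrivSqZeroExt.fst_inr, add_zero]
  exact (colMat_sgl v _ f u).trans (congrArg (f u • ·) (sgl_self v w))

/-- An element fixed by the idempotent of a vertex sits at that vertex. -/
theorem exists_sgl_of_fixed (Y : GMod k W) (v : Vtx) (x : Infl k Y.Res) (hx : eR k v • x = x) :
    ∃ (w : W) (hw : w ∈ Y.comp (pos v)), x = mkInfl Y (sgl v w) (Y.sgl_mem₀ hw) := by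
  obtain ⟨y, hy, rfl⟩ := exists_mkInfl Y x
  exact ⟨y v, hy v, hx.symm.trans (eR_smul_mkInfl Y v y hy)⟩

theorem eR_smul_genT (j : Gen) : eR k (genVtx j) • genT k j = genT k j := by
  refine (eR_smul_mkE (Tmod k) (genVtx j) _ _ _ _).trans (GMod.mkE_congr _ ?_ ?_)
  · intro u
    rw [sgl_self]
  · intro u
    show sgl (genVtx j) (0 : Gen → DOp k) u = 0
    unfold sgl
    split_ifs <;> rfl

theorem map_presπ {N : Type} [AddCommGroup N] [Module (Rk k) N] (h : Te k →ₗ[Rk k] N)
    (y : GenP k) : h (presπ k y) = ∑ j, toRk k (genVtx j) (y j) • h (genT k j) := by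
  simp only [presπ, LinearMap.sum_apply, LinearMap.comp_apply, LinearMap.proj_apply,
    LinearMap.toSpanSingleton_apply, map_sum, map_smul]

theorem sum_rel {N : Type} [AddCommGroup N] [Module (Rk k) N] (h : Te k →ₗ[Rk k] N)
    (x : SrcP k) : ∑ j, toRk k (genVtx j) (presι k x j) • h (genT k j) = 0 :=
  ((map_presπ h _).symm.trans (congrArg h ((pres_exact (k := k) _).2 ⟨x, rfl⟩))).trans (map_zero h)

theorem hom_P20_AA (f : P20 k →ₗ[Rk k] AA k) : f = 0 := by
  refine homE_ext (v := (2, 0)) ?_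
  obtain ⟨w, hw, h⟩ := exists_sgl_of_fixed (Dc k (-3)) (2, 0) (f (genE k (2, 0)))
    (by rw [← map_smul, eR_smul_genE])
  rw [LinearMap.zero_apply, h]
  refine mkInfl_eq_zero.2 fun u => ?_
  by_cases hu : u = (2, 0)
  · subst hu
    rw [sgl_self]
    exact AA_comp_le_base (by decide) hw
  · rw [sgl_ne hu]
    exact zero_mem _

theorem hom_Te_SS (h : Te k →ₗ[Rk k] SS k) : h = 0 := by
  have hfix : ∀ j, ∃ (w : LP k) (hw : w ∈ (polyMod k).comp (pos (genVtx j))),
      h (genT k j) = mkInfl (polyMod k) (sgl (genVtx j) w) ((polyMod k).sgl_mem₀ hw) := fun j =>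
    exists_sgl_of_fixed _ _ _ (by rw [← map_smul, eR_smul_genT])
  choose w hw hj using hfix
  have hzero : ∀ j, (genVtx j).1 ≠ 2 → h (genT k j) = 0 := fun j hne => by
    rw [hj j]
    refine mkInfl_eq_zero.2 fun u => ?_
    have h0 : w j = 0 := by
      have := hw j
      rwa [SS_comp_eq_bot hne, Submodule.mem_bot] at this
    by_cases hu : u = genVtx j
    · rw [hu, sgl_self, h0]
      exact zero_mem _
    · rw [sgl_ne hu]
      exact zero_mem _
  refine homTe_ext fun j => ?_
  rw [LinearMap.zero_apply]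
  match j with
  | Sum.inl b => exact hzero _ (show (1 : Fin 3) ≠ 2 by decide)
  | Sum.inr (s, some i) => exact hzero _ (show (1 : Fin 3) ≠ 2 by decide)
  | Sum.inr (s, none) =>
    by_cases hs : (srcVtx s).1 = 2
    swap
    · exact hzero _ hs
    classical
    -- the relation at the source `s`
    let p : Src → Vec (DOp k) := fun t => if t = s then sgl (srcVtx s) 1 else 0
    have hp : ∀ t u, p t u ∈ (P k (pos (srcVtx t))).comp (pos u) := fun t u => by
      simp only [p]
      split_ifs with ht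
      · subst ht
        exact (P k (pos (srcVtx t))).sgl_mem₀ (one_mem_P_comp _) u
      · exact zero_mem _
    let x : SrcP k := fun t => (P k (pos (srcVtx t))).mkE (p t) 0 (hp t) fun _ => zero_mem _
    have hrel := sum_rel h x
    rw [Finset.sum_eq_single (Sum.inr (s, none) : Gen)] at hrel
    · rw [presι_mk p (fun _ => 0) hp (fun _ _ => zero_mem _), hj] at hrel
      replace hrel := (toRk_smul_mkInfl (polyMod k) _ _ (hw _) _ _ _ _).symm.trans hrel
      have h1 := (mkInfl_eq_zero.1 hrel) (srcVtx s)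
      have h2 : psi k (fun t => p t (srcVtx s)) (Sum.inr (s, none)) = 1 := by
        rw [psi_none]
        simp [p, sgl_self]
      rw [h2, one_smul] at h1
      rw [hj]
      refine mkInfl_eq_zero.2 fun u => ?_
      have h0 : w (Sum.inr (s, none)) = 0 := (Submodule.mem_bot k).1 h1
      rw [h0]
      by_cases hu : u = genVtx (Sum.inr (s, none)) <;> simp [sgl, hu]
    · intro j' _ hne
      match j' with
      | Sum.inl b => rw [hzero (Sum.inl b) (show (1 : Fin 3) ≠ 2 by decide), smul_zero]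
      | Sum.inr (t, some i) => rw [hzero (Sum.inr (t, some i)) (show (1 : Fin 3) ≠ 2 by decide), smul_zero]
      | Sum.inr (t, none) =>
        have hts : t ≠ s := fun e => hne (by rw [e])
        rw [presι_mk p (fun _ => 0) hp (fun _ _ => zero_mem _), hj]
        refine (toRk_smul_mkInfl (polyMod k) _ _ (hw _) _ _ _ _).trans ?_
        refine mkInfl_eq_zero.2 fun u => ?_
        rw [psi_none]
        simp [p, hts, vec_zero_apply]
    · intro hn
      exact absurd (Finset.mem_univ _) hn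

theorem exists_P20_SS : ∃ f : P20 k →ₗ[Rk k] SS k, f ≠ 0 := by
  have hw : single (0 : Xp) (1 : k) ∈ (polyMod k).comp (pos (2, 0)) :=
    single_zero_mem (by simp [pos]) 1
  obtain ⟨f, hf⟩ := exists_homE (k := k) (2, 0)
    (mkInfl (polyMod k) (sgl (2, 0) (single (0 : Xp) (1 : k))) ((polyMod k).sgl_mem₀ hw))
    (by rw [eR_smul_mkInfl]; exact mkInfl_congr _ fun u => by rw [sgl_self])
  refine ⟨f, fun h0 => ?_⟩
  rw [h0, LinearMap.zero_apply] at hf
  have h1 := (mkInfl_eq_zero.1 hf.symm) (2, 0)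
  rw [sgl_self] at h1
  exact one_ne_zero (Finsupp.single_eq_zero.1 ((Submodule.mem_bot k).1 h1))

end Vale.Agent.P195.Disproof
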