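import Vale.Agent.P195.Disproof.OrthInst
import Vale.Agent.P195.Disproof.Pres
import Vale.Agent.P195.Disproof.Finite

/-!
# P195: modules orthogonal to the partial tilting module

No maps and no first extensions out of `Te` kill the middle column and make the arrows of scalars
in the outer columns bijective; without maps into `AA` the module is then a power of `SS`.
-/

noncomputable section

namespace Vale.Agent.P195.Disproof

open TrivSqZeroExt (fst snd inl inr)

variable {k : Type} [Field k]

theorem colMat_sgl_eq_single (v u : Vtx) (P : DOp k) :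
    colMat k v (sgl u P) = Matrix.single u v P := by
  ext w x : 2
  rw [colMat_apply, Matrix.single_apply]
  by_cases h1 : x = v <;> by_cases h2 : w = u
  · subst h1; subst h2; simp [sgl]
  · subst h1; simp [sgl, h2, Ne.symm h2]
  · simp [h1, Ne.symm h1]
  · simp [h1, Ne.symm h1]

theorem eR_coe (v : Vtx) :
    (eR k v : TrivSqZeroExt (Mat k) (Mat k)) = inl (Matrix.single v v (1 : DOp k)) := by
  show inl (colMat k v (sgl v (1 : DOp k))) = _
  rw [colMat_sgl_eq_single]

theorem eR_col (a : Bool) (b : Fin 4) : eR k (col a, b) = (rkUnits k).t a b b :=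
  Subtype.ext (by rw [eR_coe, rkUnits_t le_rfl])

theorem eR_mid (e : Fin 4) : eR k (1, e) = (rkUnits k).f e :=
  Subtype.ext (by rw [eR_coe, rkUnits_f])

theorem eR_mul_self (v : Vtx) : eR k v * eR k v = eR k v :=
  Subtype.ext (by
    rw [Subalgebra.coe_mul, eR_coe, TrivSqZeroExt.inl_mul_inl, Matrix.single_mul_single_same,
      mul_one])

theorem toRk_genE (v : Vtx) : toRk k v (genE k v) = eR k v := Subtype.ext <| by
  show inl (colMat k v (sgl v 1)) + inr (colMat k v (0 : Vec (DOp k))) =
    inl (colMat k v (sgl v 1))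
  rw [map_zero, TrivSqZeroExt.inr_zero, add_zero]

instance instSMulGenPOrth : SMul (Rk k) (GenP k) := (instModuleGenP k).toSMul

instance instSMulSrcPOrth : SMul (Rk k) (SrcP k) := (instModuleSrcP k).toSMul

variable (k) in
/-- The element of the algebra of one arrow of the presentation. -/
def presR (s : Src) (j : Gen) : Rk k := toRk k (genVtx j) (srcImg k s j)

theorem presR_coe (s : Src) (j : Gen) : (presR k s j : TrivSqZeroExt (Mat k) (Mat k)) =
    inl (Matrix.single (srcVtx s) (genVtx j) (psiC k s j)) := by
  show inl (colMat k (genVtx j) (sgl (srcVtx s) (psiC k s j))) +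
    inr (colMat k (genVtx j) (0 : Vec (DOp k))) = _
  rw [map_zero, TrivSqZeroExt.inr_zero, add_zero, colMat_sgl_eq_single]

theorem presR_inl (s : Src) (b : Fin 4) : presR k s (Sum.inl b) = 0 :=
  Subtype.ext (by
    rw [presR_coe, psiC, psi_inl, Matrix.single_zero, TrivSqZeroExt.inl_zero,
      Subalgebra.coe_zero])

theorem presR_none_ne {s t : Src} (h : t ≠ s) : presR k s (Sum.inr (t, none)) = 0 :=
  Subtype.ext (by
    rw [presR_coe, psiC, psi_none, Pi.single_eq_of_ne h, Matrix.single_zero,
      TrivSqZeroExt.inl_zero, Subalgebra.coe_zero])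

theorem presR_none_self {s : Src} {a : Bool} {b : Fin 4} (hs : srcVtx s = (col a, b)) :
    presR k s (Sum.inr (s, none)) = (rkUnits k).t a 0 b :=
  Subtype.ext (by
    rw [presR_coe, psiC, psi_none, Pi.single_eq_same, rkUnits_t (Fin.zero_le b),
      show genVtx (Sum.inr (s, none)) = ((srcVtx s).1, 0) from rfl, hs])

theorem exists_srcVtx (a : Bool) {b : Fin 4} (hb : b ≠ 0) : ∃ s : Src, srcVtx s = (col a, b) := by
  revert a b
  decide

theorem srcVtx_injective : Function.Injective srcVtx := by decide

section Hom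

variable {C : Type} [AddCommGroup C] [Module (Rk k) C]

variable (k) in
/-- The map out of the projective module of the generators given by elements. -/
def genHom (c : Gen → C) : GenP k →ₗ[Rk k] C :=
  ∑ j : Gen, ((LinearMap.toSpanSingleton (Rk k) C (c j)).comp
    (toRk k (genVtx j))).comp (LinearMap.proj j)

theorem genHom_apply (c : Gen → C) (w : GenP k) :
    genHom k c w = ∑ j, toRk k (genVtx j) (w j) • c j := by
  simp only [genHom, LinearMap.sum_apply, LinearMap.comp_apply, LinearMap.proj_apply,
    LinearMap.toSpanSingleton_apply]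

theorem hom_eq_genHom (φ : GenP k →ₗ[Rk k] C) :
    φ = genHom k fun j => φ (Pi.single j (genE k (genVtx j))) := by
  refine LinearMap.ext fun w => ?_
  rw [genHom_apply]
  conv_lhs => rw [show w = ∑ j, Pi.single j (w j) from (Finset.univ_sum_single w).symm, map_sum]
  refine Finset.sum_congr rfl fun j _ => ?_
  rw [← map_smul, ← Pi.single_smul, toRk_smul_genE]

theorem exists_extend (hExt : EV (Rk k) (Te k) C 1) (f : SrcP k →ₗ[Rk k] C) :
    ∃ φ : GenP k →ₗ[Rk k] C, φ.comp (presι k) = f :=
  @ev_extend (Rk k) _ (SrcP k) (GenP k) (Te k) C (instAddCommGroupSrcP k) (instModuleSrcP k)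
    (instAddCommGroupGenP k) (instModuleGenP k) _ _ _ _ (presι k) (presπ k) presι_injective
    presπ_surjective pres_exact hExt f

theorem genHom_single (c : Gen → C) (j : Gen) (hc : eR k (genVtx j) • c j = c j) :
    genHom k c (Pi.single j (genE k (genVtx j))) = c j := by
  rw [genHom_apply, Finset.sum_eq_single j, Pi.single_eq_same, toRk_genE, hc]
  · intro i _ hi
    rw [Pi.single_eq_of_ne hi, map_zero, zero_smul]
  · simp

theorem genHom_presι (c : Gen → C) (x : SrcP k) :
    genHom k c (presι k x) = ∑ s, toRk k (srcVtx s) (x s) • ∑ j, presR k s j • c j := by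
  rw [genHom_apply]
  simp only [presι, LinearMap.pi_apply, LinearMap.sum_apply, LinearMap.comp_apply,
    LinearMap.proj_apply, LinearMap.toSpanSingleton_apply, map_sum, map_smul, Finset.sum_smul,
    Finset.smul_sum, smul_assoc, presR]
  exact Finset.sum_comm

theorem apply_presι_single (φ : GenP k →ₗ[Rk k] C) (s : Src) :
    φ (presι k (Pi.single s (genE k (srcVtx s)))) = eR k (srcVtx s) •
      ∑ j, presR k s j • φ (Pi.single j (genE k (genVtx j))) := by
  conv_lhs => rw [hom_eq_genHom φ]
  rw [genHom_presι, Finset.sum_eq_single s, Pi.single_eq_same, toRk_genE]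
  · intro t _ ht
    rw [Pi.single_eq_of_ne ht, map_zero, zero_smul]
  · simp

theorem apply_single_fixed (φ : GenP k →ₗ[Rk k] C) (j : Gen) :
    eR k (genVtx j) • φ (Pi.single j (genE k (genVtx j))) =
      φ (Pi.single j (genE k (genVtx j))) := by
  rw [← map_smul, ← Pi.single_smul, eR_smul_genE]

variable (k) in
/-- The map out of the projective module of the sources given by one element. -/
def srcHom (s : Src) (y : C) : SrcP k →ₗ[Rk k] C :=
  ((LinearMap.toSpanSingleton (Rk k) C y).comp (toRk k (srcVtx s))).comp (LinearMap.proj s)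

theorem srcHom_single (s : Src) (y : C) :
    srcHom k s y (Pi.single s (genE k (srcVtx s))) = eR k (srcVtx s) • y := by
  rw [srcHom, LinearMap.comp_apply, LinearMap.comp_apply, LinearMap.proj_apply, Pi.single_eq_same,
    LinearMap.toSpanSingleton_apply, toRk_genE]

variable (hHom : ∀ h : Te k →ₗ[Rk k] C, h = 0)

include hHom

theorem genHom_vanish {c : Gen → C} (hc : ∀ j, eR k (genVtx j) • c j = c j)
    (h : ∀ s, ∑ j, presR k s j • c j = 0) (j : Gen) : c j = 0 := by
  have hle : LinearMap.ker (presπ k) ≤ LinearMap.ker (genHom k c) := by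
    intro w hw
    obtain ⟨x, rfl⟩ := (pres_exact w).1 hw
    rw [LinearMap.mem_ker, genHom_presι]
    exact Finset.sum_eq_zero fun s _ => by rw [h, smul_zero]
  let e := LinearMap.quotKerEquivOfSurjective (presπ k) presπ_surjective
  have h0 := LinearMap.congr_fun
    (hHom (((LinearMap.ker (presπ k)).liftQ (genHom k c) hle).comp e.symm.toLinearMap))
    (presπ k (Pi.single j (genE k (genVtx j))))
  have he : e.symm (presπ k (Pi.single j (genE k (genVtx j)))) =
      Submodule.Quotient.mk (Pi.single j (genE k (genVtx j))) :=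
    e.symm_apply_eq.2 rfl
  rw [LinearMap.comp_apply, LinearEquiv.coe_coe, he, Submodule.liftQ_apply,
    LinearMap.zero_apply, genHom_single c j (hc j)] at h0
  exact h0

theorem killed_mid (e : Fin 4) (x : C) : (rkUnits k).f e • x = 0 := by
  classical
  let c : Gen → C := fun j => if j = Sum.inl e then eR k (1, e) • x else 0
  have h := genHom_vanish hHom (c := c) (fun j => ?_) (fun s => ?_) (Sum.inl e)
  · rwa [show c (Sum.inl e) = eR k (1, e) • x from if_pos rfl, eR_mid] at h
  · by_cases hj : j = Sum.inl e
    · subst hj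
      rw [show c (Sum.inl e) = eR k (1, e) • x from if_pos rfl, smul_smul,
        show genVtx (Sum.inl e) = (1, e) from rfl, eR_mul_self]
    · rw [show c j = 0 from if_neg hj, smul_zero]
  · refine Finset.sum_eq_zero fun j _ => ?_
    by_cases hj : j = Sum.inl e
    · rw [hj, presR_inl, zero_smul]
    · rw [show c j = 0 from if_neg hj, smul_zero]

theorem sum_presR {c : Gen → C} (hc : ∀ j, eR k (genVtx j) • c j = c j) (s : Src) :
    ∑ j, presR k s j • c j = presR k s (Sum.inr (s, none)) • c (Sum.inr (s, none)) := by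
  refine Finset.sum_eq_single _ (fun j _ hj => ?_) (by simp)
  match j with
  | Sum.inl b => rw [presR_inl, zero_smul]
  | Sum.inr (t, none) =>
    rw [presR_none_ne (fun h => hj (by rw [h])), zero_smul]
  | Sum.inr (t, some i) =>
    rw [← hc (Sum.inr (t, some i)), show genVtx (Sum.inr (t, some i)) = (1, (midVtx t).2) from rfl,
      eR_mid, killed_mid hHom, smul_zero]

theorem scalars_surjective (hExt : EV (Rk k) (Te k) C 1) (a : Bool) (b : Fin 4) (x : C) :
    ∃ x', (rkUnits k).t a (rkUnits k).base b • x' = (rkUnits k).t a b b • x := by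
  rw [rkUnits_base]
  by_cases hb : b = 0
  · exact ⟨x, by rw [hb]⟩
  obtain ⟨s, hs⟩ := exists_srcVtx a hb
  obtain ⟨φ, hφ⟩ := exists_extend hExt
    (srcHom k s ((rkUnits k).t a b b • x))
  have h := LinearMap.congr_fun hφ (Pi.single s (genE k (srcVtx s)))
  rw [LinearMap.comp_apply, apply_presι_single, srcHom_single,
    sum_presR hHom (apply_single_fixed φ), presR_none_self hs, hs, eR_col, smul_smul, smul_smul,
    (rkUnits k).idem_mul a 0 b (Fin.zero_le b), (rkUnits k).idem_mul a b b le_rfl] at h
  exact ⟨_, h⟩

theorem scalars_injective (a : Bool) (b : Fin 4) (x : C)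
    (hx : (rkUnits k).t a (rkUnits k).base b • x = 0) :
    (rkUnits k).t a (rkUnits k).base (rkUnits k).base • x = 0 := by
  classical
  rw [rkUnits_base] at hx ⊢
  by_cases hb : b = 0
  · rwa [hb] at hx
  obtain ⟨s, hs⟩ := exists_srcVtx a hb
  let c : Gen → C := fun j =>
    if j = Sum.inr (s, none) then (rkUnits k).t a 0 0 • x else 0
  have hg : genVtx (Sum.inr (s, none)) = (col a, 0) := by
    show ((srcVtx s).1, 0) = _
    rw [hs]
  have hc : ∀ j, eR k (genVtx j) • c j = c j := fun j => by
    by_cases hj : j = Sum.inr (s, none)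
    · subst hj
      rw [show c (Sum.inr (s, none)) = _ from if_pos rfl, hg, eR_col, smul_smul,
        (rkUnits k).idem_mul a 0 0 le_rfl]
    · rw [show c j = 0 from if_neg hj, smul_zero]
  have h := genHom_vanish hHom hc (fun t => ?_) (Sum.inr (s, none))
  · rwa [show c (Sum.inr (s, none)) = _ from if_pos rfl] at h
  rw [sum_presR hHom hc]
  by_cases ht : t = s
  · subst ht
    rw [show c (Sum.inr (t, none)) = _ from if_pos rfl, presR_none_self hs, smul_smul,
      (rkUnits k).mul (Fin.zero_le b) le_rfl, if_pos ⟨rfl, rfl⟩, hx]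
  · rw [show c (Sum.inr (t, none)) = 0 from if_neg fun h' => ht (by
      simpa using congrArg (Sum.elim (fun _ => s) Prod.fst) h'), smul_zero]

theorem split_of_orth (hExt : EV (Rk k) (Te k) C 1) : (rkUnits k).Split C :=
  ⟨killed_mid hHom, scalars_surjective hHom hExt, scalars_injective hHom⟩

end Hom

/-- Modules without maps or first extensions out of `Te` and without maps into `AA` are powers
of `SS`. -/
theorem orth_Te (C : Type) [AddCommGroup C] [Module (Rk k) C] (hC : Module.Finite (Rk k) C)
    (hHom : ∀ h : Te k →ₗ[Rk k] C, h = 0) (hExt : EV (Rk k) (Te k) C 1)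
    (hA : ∀ h : C →ₗ[Rk k] AA k, h = 0) :
    ∃ n : ℕ, Nonempty (C ≃ₗ[Rk k] (Fin n → SS k)) :=
  orth_SS (split_of_orth hHom hExt) hA

end Vale.Agent.P195.Disproof
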