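import Vale.Agent.P195.Disproof.Induced
import Vale.Agent.P195.Disproof.EExact
import Vale.Agent.P195.Disproof.Finite

/-!
# P195: from vanishing over `Bk k` to vanishing of extensions of the simple module
-/

noncomputable section

namespace Vale.Agent.P195.Disproof

variable {k : Type} [Field k]

instance instNoetherianRk : IsNoetherianRing (Rk k) :=
  IsNoetherianRing.of_finite k (Rk k)

theorem fstHom_inlHom (b : Bk k) : fstHom (inlHom b) = b :=
  Subtype.ext (TrivSqZeroExt.fst_inl (Mat k) (b : Mat k))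

/-- An inflated module restricts to itself. -/
def resInfl (N : Type) [AddCommGroup N] [Module (Bk k) N] : Rs k (Infl k N) ≃ₗ[Bk k] N where
  toFun x := Via.equiv (fstHom (k := k)) N (Via.equiv (inlHom (k := k)) (Infl k N) x)
  invFun x := (Via.equiv (inlHom (k := k)) (Infl k N)).symm ((Via.equiv (fstHom (k := k)) N).symm x)
  map_add' _ _ := rfl
  map_smul' b x := by
    rw [Via.smul_def, Via.smul_def, fstHom_inlHom, RingHom.id_apply]
  left_inv _ := rfl
  right_inv _ := rfl

variable {W : Type} [AddCommGroup W] [Module k W] [Module (DOp k) W] (Y : GMod k W)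

theorem ev_infl_eMod (hgood : ∀ v : Vtx, Good (Y.shift tau) (pos v - tau)) (n : ℕ) (N : Type)
    [AddCommGroup N] [Module (Bk k) N] [Module.Finite (Rk k) (Infl k N)]
    (h : EV (Bk k) N (Y.shift tau).Res n) : EV (Rk k) (Infl k N) Y.EMod n :=
  @ev_eMod k _ W _ _ _ Y _ hgood n (Infl k N) _ _ _
    (Corner.ev_congr (R := Bk k) (X := Rs k (Infl k N)) (X' := N) (resInfl N) n h)

/-- No extensions from `SS` into the tilting module, the projective module and `AA`. -/
theorem ev_SS_of
    (gT : ∀ v : Vtx, Good ((Tmod k).shift tau) (pos v - tau))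
    (gP : ∀ v : Vtx, Good ((P k (pos (2, 0))).shift tau) (pos v - tau))
    (gD : ∀ (c : ℤ), c ≤ -3 → ∀ v : Vtx, Good (Dc k c) (pos v - tau))
    (hT : ∀ n, EV (Bk k) (polyMod k).Res ((Tmod k).shift tau).Res n)
    (hP : ∀ n, EV (Bk k) (polyMod k).Res ((P k (pos (2, 0))).shift tau).Res n)
    (hD : ∀ (c : ℤ), c ≤ -3 → ∀ n, EV (Bk k) (polyMod k).Res (Dc k c).Res n) :
    (∀ n, EV (Rk k) (SS k) (Te k) n) ∧ (∀ n, EV (Rk k) (SS k) (P20 k) n) ∧
      ∀ n, EV (Rk k) (SS k) (AA k) n := by
  refine ⟨fun n => ev_infl_eMod (Tmod k) gT n _ (hT n),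
    fun n => ev_infl_eMod (P k (pos (2, 0))) gP n _ (hP n), fun n => ?_⟩
  have hE : ∀ m i, EV (Rk k) (SS k) (ET k m) i := by
    intro m i
    have hs : (Dc k (-3 - ((m + 1 : ℕ) : ℤ))).shift tau = Dc k (-3 - (m : ℤ)) :=
      (dc_shift_step m).symm
    refine ev_infl_eMod _ (fun v => ?_) i _ ?_
    · rw [hs]
      exact gD _ (by omega) v
    · rw [hs]
      exact hD _ (by omega) i
  have h0 := ev_DT hE n 0
  have e : Dc k (-3) = Dc k (-3 - ((0 : ℕ) : ℤ)) := by norm_num
  show EV (Rk k) (SS k) (Infl k (Dc k (-3)).Res) n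
  rw [e]
  exact h0

end Vale.Agent.P195.Disproof
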