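import Vale.Agent.P195.Disproof.Assembly
import Vale.Agent.P195.Disproof.Vanish
import Vale.Agent.P195.Disproof.GoodTmod
import Vale.Agent.P195.Disproof.Local
import Vale.Agent.P195.Disproof.OrthTe

/-!
# P195: the counterexample, from the vanishing over `Bk k`
-/

noncomputable section

open CategoryTheory CategoryTheory.Abelian

namespace Vale.Agent.P195.Disproof

variable (k : Type) [Field k] [CharZero k]

theorem counterexample_of_poly
    (hT : ∀ n, EV (Bk k) (polyMod k).Res ((Tmod k).shift tau).Res n)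
    (hP : ∀ n, EV (Bk k) (polyMod k).Res ((P k (pos (2, 0))).shift tau).Res n)
    (hD : ∀ (c : ℤ), c ≤ -3 → ∀ n, EV (Bk k) (polyMod k).Res (Dc k c).Res n) :
    ∃ (A : Type) (_ : Ring A) (_ : Algebra k A) (M : ModuleCat.{0} A),
      Module.Finite k A ∧ Module.Finite A M ∧ ¬ Module.Projective A M ∧
      ∀ i : ℕ, 1 ≤ i → Subsingleton (Ext M M i) ∧ Subsingleton (Ext M (ModuleCat.of A A) i) := by
  have gP : ∀ v : Vtx, Good ((P k (pos (2, 0))).shift tau) (pos v - tau) := fun v => by
    rw [P_shift]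
    refine good_P ?_ ?_ ?_ ?_ ?_ ?_ <;>
      simp only [pos, tau, Prod.fst_sub, Prod.snd_sub] <;>
      (have := v.1.isLt; have := v.2.isLt; simp <;> omega)
  have gD : ∀ c : ℤ, c ≤ -3 → ∀ v : Vtx, Good (Dc k c) (pos v - tau) := fun c hc v => by
    refine good_Dc hc ?_ ?_ <;>
      simp only [pos, tau, Prod.fst_sub, Prod.snd_sub] <;>
      (have := v.1.isLt; have := v.2.isLt; omega)
  obtain ⟨hST, hSP, hSA⟩ := ev_SS_of (k := k) good_Tmod_shift_col gP gD hT hP hD
  obtain ⟨f, hf⟩ := exists_P20_SS (k := k)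
  exact counterexample_of (fun Z _ _ _ i => ev_Te_add_two Z i) ev_Te_Te_one ev_Te_P20_one
    ev_Te_AA hom_P20_AA projective_P20 (fun C _ _ hC h0 h1 hA => orth_Te C hC h0 h1 hA)
    hST hSP hSA f hf hom_Te_SS

end Vale.Agent.P195.Disproof
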