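import Vale.Agent.P195.Disproof.Weyl

/-!
# P195: factorisations through the middle column

Between vertices `(a, b)`, `(c, d)` with `a, c ∈ {0, 2}` every operator of the algebra is, up to a
scalar when `a = c`, a sum of composites through the vertices `(1, e)`; every operator of the
bimodule is such a sum.
-/

noncomputable section

namespace Vale.Agent.P195.Disproof

variable {k : Type} [Field k]

theorem deriv_pow_comm (β : Ix) (i : Fin 3) :
    op k 0 (unit i) * op k 0 β = op k 0 (β + unit i) := by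
  rw [deriv_mul_op]
  simp

/-- A variable split off on the right. -/
theorem Fil_le_right_x {p q : ℤ} (hp : 0 ≤ p) {N : Submodule k (DOp k)}
    (hN : Fil k (p - 1, q) * Fil k (1, 0) ≤ N) (h1 : p = 0 → (1 : DOp k) ∈ N) :
    Fil k (p, q) ≤ N := by
  rw [Fil_eq_span_opR, Submodule.span_le]
  rintro _ ⟨⟨α, β⟩, ⟨g1, g2⟩, rfl⟩
  simp only at g1 g2
  by_cases hα : α = 0
  · subst hα
    have hβ : β = 0 := tot_eq_zero.1 (by rw [tot_zero] at g1; omega)
    subst hβ
    simpa [opR, op_zero_zero] using h1 (by rw [tot_zero] at g1; omega)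
  · obtain ⟨i, a, rfl⟩ := exists_unit_of_ne_zero hα
    rw [tot_add, tot_unit] at g1
    show opR k β (a + unit i) ∈ N
    rw [opR, ← op_zero_right_mul, ← mul_assoc]
    exact hN (Submodule.mul_mem_mul (opR_mem_Fil (by simp only; omega) g2) (var_mem_Fil i))

/-- A derivative split off on the right. -/
theorem Fil_le_right_d {p q : ℤ} (hp : p ≤ 0) {N : Submodule k (DOp k)}
    (hN : Fil k (p + 1, q - 1) * Fil k (-1, 1) ≤ N) (h1 : p = 0 → (1 : DOp k) ∈ N) :
    Fil k (p, q) ≤ N := by
  refine Fil_le fun α β g1 g2 => ?_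
  simp only at g1 g2
  by_cases hβ : β = 0
  · subst hβ
    have hα : α = 0 := tot_eq_zero.1 (by rw [tot_zero] at g1; omega)
    subst hα
    simpa [op_zero_zero] using h1 (by rw [tot_zero] at g1; omega)
  · obtain ⟨i, b, rfl⟩ := exists_unit_of_ne_zero hβ
    rw [tot_add, tot_unit] at g1 g2
    rw [← op_mul_deriv]
    exact hN (Submodule.mul_mem_mul (op_mem_Fil (by simp only; omega) (by simp only; omega))
      (deriv_mem_Fil i))

/-- A variable split off on the left. -/
theorem Fil_le_left_x {p q : ℤ} (hp : 0 < p) {N : Submodule k (DOp k)}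
    (hN : Fil k (1, 0) * Fil k (p - 1, q) ≤ N) : Fil k (p, q) ≤ N := by
  refine Fil_le fun α β g1 g2 => ?_
  simp only at g1 g2
  obtain ⟨i, a, rfl⟩ := exists_unit_of_ne_zero (a := α) (by rintro rfl; simp [tot_zero] at g1; omega)
  rw [tot_add, tot_unit] at g1
  rw [add_comm a, ← op_zero_right_mul]
  exact hN (Submodule.mul_mem_mul (var_mem_Fil i) (op_mem_Fil (by simp only; omega) g2))

/-- A derivative split off on the left. -/
theorem Fil_le_left_d {p q : ℤ} (hp : p < 0) {N : Submodule k (DOp k)}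
    (hN : Fil k (-1, 1) * Fil k (p + 1, q - 1) ≤ N) : Fil k (p, q) ≤ N := by
  rw [Fil_eq_span_opR, Submodule.span_le]
  rintro _ ⟨⟨α, β⟩, ⟨g1, g2⟩, rfl⟩
  simp only at g1 g2
  obtain ⟨i, b, rfl⟩ := exists_unit_of_ne_zero (a := β) (by rintro rfl; simp [tot_zero] at g1; omega)
  rw [tot_add, tot_unit] at g1 g2
  show opR k (b + unit i) α ∈ N
  rw [opR, ← deriv_pow_comm, mul_assoc]
  exact hN (Submodule.mul_mem_mul (deriv_mem_Fil i)
    (opR_mem_Fil (by simp only; omega) (by simp only; omega)))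

/-- Order zero and weight at most zero leaves only scalars. -/
theorem Fil_order_zero_le {p : ℤ} (hp : p ≤ 0) {N : Submodule k (DOp k)}
    (h1 : p = 0 → (1 : DOp k) ∈ N) {q : ℤ} (hq : q ≤ 0) : Fil k (p, q) ≤ N := by
  refine Fil_le fun α β g1 g2 => ?_
  simp only at g1 g2
  have hβ : β = 0 := tot_eq_zero.1 (by omega)
  subst hβ
  rw [tot_zero] at g1
  have hα : α = 0 := tot_eq_zero.1 (by omega)
  subst hα
  simpa [op_zero_zero] using h1 (by rw [tot_zero] at g1; omega)

/-- The algebra, between the outer columns. -/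
theorem Fil_le_middle {a b c d : ℤ} (ha : a = 0 ∨ a = 2) (hc : c = 0 ∨ c = 2) (hb : 0 ≤ b)
    (hb' : b ≤ 3) (hd' : d ≤ 3) {N : Submodule k (DOp k)}
    (hN : ∀ e : ℤ, 0 ≤ e → e ≤ 3 → Fil k (c - 1, d - e) * Fil k (1 - a, e - b) ≤ N)
    (h1 : a = c → (1 : DOp k) ∈ N) : Fil k (c - a, d - b) ≤ N := by
  rcases ha with rfl | rfl
  · refine Fil_le_right_x (by omega) ?_ fun h => h1 (by omega)
    simpa [sub_right_comm] using hN b hb hb'
  · rcases lt_or_ge b 3 with hlt | hge
    · refine Fil_le_right_d (by omega) ?_ fun h => h1 (by omega)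
      have h := hN (b + 1) (by omega) (by omega)
      convert h using 4 <;> ring
    · exact Fil_order_zero_le (by omega) (fun h => h1 (by omega)) (by omega)

/-- The bimodule, between the outer columns. -/
theorem Fil_le_middle_shift {a b c d : ℤ} (ha : a = 0 ∨ a = 2) (hc : c = 0 ∨ c = 2) (hb : 0 ≤ b)
    (hb' : b ≤ 3) (hd : 0 ≤ d) (hd' : d ≤ 3) {N : Submodule k (DOp k)}
    (hN₁ : ∀ e : ℤ, 0 ≤ e → e ≤ 3 → Fil k (c, d - e + 3) * Fil k (1 - a, e - b) ≤ N)
    (hN₂ : ∀ e : ℤ, 0 ≤ e → e ≤ 3 → Fil k (c - 1, d - e) * Fil k (2 - a, e - b + 3) ≤ N) :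
    Fil k (c - a + 1, d - b + 3) ≤ N := by
  rcases ha with rfl | rfl
  · refine Fil_le_right_x (by omega) ?_ (fun h => by omega)
    simpa using hN₁ b hb hb'
  · rcases hc with rfl | rfl
    · rcases eq_or_lt_of_le hd with rfl | hpos
      · rcases lt_or_ge b 3 with hlt | hge
        · refine Fil_le_right_d (by omega) ?_ (fun h => by omega)
          have h := hN₁ (b + 1) (by omega) (by omega)
          convert h using 4 <;> ring
        · rw [Fil_eq_bot (Or.inr (by simp only; omega))]
          exact bot_le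
      · refine Fil_le_left_d (by omega) ?_
        have h := hN₂ (d - 1) (by omega) (by omega)
        convert h using 4 <;> ring
    · refine Fil_le_left_x (by omega) ?_
      have h := hN₂ d hd hd'
      convert h using 4 <;> ring

end Vale.Agent.P195.Disproof
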