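import Mathlib

/-!
# P195: modules vanishing at the middle vertices

An algebra spanned, modulo the ideal of some idempotents, by matrix units `t a b d` (`b ≤ d`): a
module killed by those idempotents on which the matrix units from the base vertex are bijective is
determined by its components at the base vertices.
-/

noncomputable section

namespace Vale.Agent.P195.Disproof

open Finset

universe u

/-- Matrix units spanning an algebra modulo some idempotents `f`. -/
structure Units (k R : Type u) [Field k] [Ring R] [Algebra k R] (α β κ : Type)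
    [Fintype α] [DecidableEq α] [Fintype β] [DecidableEq β] [LE β] [Fintype κ] where
  t : α → β → β → R
  f : κ → R
  base : β
  le_base : ∀ b, base ≤ b
  le_rfl' : ∀ b : β, b ≤ b
  mul : ∀ {a b d a' b' d'}, b ≤ d → b' ≤ d' →
    t a b d * t a' b' d' = if a = a' ∧ b = d' then t a b' d else 0
  one : ∑ a, ∑ b, t a b b + ∑ i, f i = 1
  spans : ∀ r, r ∈ Submodule.span k
    ({r | ∃ a b d, b ≤ d ∧ r = t a b d} ∪ {r | ∃ x i y, r = x * f i * y})

variable {k R : Type u} [Field k] [Ring R] [Algebra k R] {α β κ : Type} [Fintype α]
  [DecidableEq α] [Fintype β] [DecidableEq β] [LE β] [Fintype κ] (U : Units k R α β κ)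

/-- The idempotents `f` kill the module. -/
def Units.Killed (X : Type*) [AddCommGroup X] [Module R X] : Prop := ∀ i (x : X), U.f i • x = 0

/-- The units from the base vertex are bijective between the components. -/
structure Units.Split (X : Type*) [AddCommGroup X] [Module R X] : Prop where
  killed : U.Killed X
  exist : ∀ a b (x : X), ∃ x', U.t a U.base b • x' = U.t a b b • x
  inj : ∀ a b (x : X), U.t a U.base b • x = 0 → U.t a U.base U.base • x = 0

variable {U}

theorem Units.sum_smul {X : Type*} [AddCommGroup X] [Module R X] (h : U.Killed X) (x : X) :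
    ∑ a, ∑ b, U.t a b b • x = x := by
  have e := congrArg (fun r => r • x) U.one
  simpa [add_smul, Finset.sum_smul, h _ x] using e

theorem Units.t_base_mul (a : α) (b : β) :
    U.t a U.base b * U.t a U.base U.base = U.t a U.base b := by
  rw [U.mul (U.le_base b) (U.le_rfl' _), if_pos ⟨rfl, rfl⟩]

theorem Units.idem_mul (a : α) (b d : β) (h : b ≤ d) : U.t a d d * U.t a b d = U.t a b d := by
  rw [U.mul (U.le_rfl' _) h, if_pos ⟨rfl, rfl⟩]

variable {X Y : Type u} [AddCommGroup X] [Module R X] [Module k X] [IsScalarTower k R X]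
  [AddCommGroup Y] [Module R Y] [Module k Y] [IsScalarTower k R Y]

omit [Module k X] [IsScalarTower k R X] in
theorem Units.Split.exist' (h : U.Split X) (a : α) (b : β) (x : X) :
    ∃ s, U.t a U.base U.base • s = s ∧ U.t a U.base b • s = U.t a b b • x := by
  obtain ⟨x', hx'⟩ := h.exist a b x
  refine ⟨U.t a U.base U.base • x', ?_, ?_⟩
  · rw [smul_smul, U.mul (U.le_rfl' _) (U.le_rfl' _), if_pos ⟨rfl, rfl⟩]
  · rw [smul_smul, U.t_base_mul, hx']

/-- A map of the base components extends. -/
theorem Units.exists_hom (hX : U.Split X) (hY : U.Killed Y) (g : α → (X →ₗ[k] Y))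
    (hg : ∀ a x, U.t a U.base U.base • g a x = g a x) :
    ∃ F : X →ₗ[R] Y, ∀ a x, U.t a U.base U.base • x = x → F x = g a x := by
  classical
  choose s hs1 hs2 using hX.exist'
  have huniq : ∀ a b (x z : X), U.t a U.base U.base • z = z →
      U.t a U.base b • z = U.t a b b • x → s a b x = z := by
    intro a b x z h1 h2
    have := hX.inj a b (s a b x - z) (by rw [smul_sub, hs2, h2, sub_self])
    rwa [smul_sub, hs1, h1, sub_eq_zero] at this
  have hadd : ∀ a b x y, s a b (x + y) = s a b x + s a b y := fun a b x y =>
    huniq a b _ _ (by rw [smul_add, hs1, hs1]) (by rw [smul_add, hs2, hs2, smul_add])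
  have hsmul : ∀ a b (c : k) x, s a b (c • x) = c • s a b x := fun a b c x =>
    huniq a b _ _ (by rw [smul_comm, hs1]) (by rw [smul_comm, hs2, smul_comm])
  have hzero : ∀ a b x, U.t a b b • x = 0 → s a b x = 0 := fun a b x h =>
    huniq a b _ _ (smul_zero _) (by rw [smul_zero, h])
  let F : X →ₗ[k] Y :=
    { toFun := fun x => ∑ a, ∑ b, U.t a U.base b • g a (s a b x)
      map_add' := fun x y => by
        simp only [hadd, map_add, smul_add, sum_add_distrib]
      map_smul' := fun c x => by
        simp only [hsmul, map_smul, RingHom.id_apply, Finset.smul_sum]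
        exact sum_congr rfl fun a _ => sum_congr rfl fun b _ => smul_comm _ _ _ }
  have hF : ∀ x, F x = ∑ a, ∑ b, U.t a U.base b • g a (s a b x) := fun _ => rfl
  have hsingle : ∀ {a b d} (x : X), b ≤ d → F (U.t a b d • x) = U.t a b d • F x := by
    intro a b d x hbd
    rw [hF, hF, Finset.smul_sum]
    simp only [Finset.smul_sum, smul_smul]
    rw [sum_eq_single a, sum_eq_single a, sum_eq_single d, sum_eq_single b]
    · rw [U.mul hbd (U.le_base b), if_pos ⟨rfl, rfl⟩,
        huniq a d (U.t a b d • x) (s a b x) (hs1 a b x) (by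
          rw [smul_smul, U.idem_mul a b d hbd,
            show U.t a U.base d = U.t a b d * U.t a U.base b by
              rw [U.mul hbd (U.le_base b), if_pos ⟨rfl, rfl⟩],
            mul_smul, hs2, smul_smul, U.mul hbd (U.le_rfl' b), if_pos ⟨rfl, rfl⟩])]
    · intro b' _ hb'
      rw [U.mul hbd (U.le_base b'), if_neg fun h => hb' h.2.symm, zero_smul]
    · simp
    · intro d' _ hd'
      rw [hzero _ _ _ (by rw [smul_smul, U.mul (U.le_rfl' d') hbd, if_neg fun h => hd' h.2,
        zero_smul]), map_zero, smul_zero]
    · simp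
    · intro a' _ ha'
      exact sum_eq_zero fun b' _ => by
        rw [U.mul hbd (U.le_base b'), if_neg fun h => ha' h.1.symm, zero_smul]
    · simp
    · intro a' _ ha'
      exact sum_eq_zero fun b' _ => by
        rw [hzero _ _ _ (by rw [smul_smul, U.mul (U.le_rfl' b') hbd, if_neg fun h => ha' h.1,
          zero_smul]), map_zero, smul_zero]
    · simp
  have hlin : ∀ (r : R) (x : X), F (r • x) = r • F x := by
    intro r
    induction U.spans r using Submodule.span_induction with
    | mem r hr =>
      rcases hr with ⟨a, b, d, hbd, rfl⟩ | ⟨p, i, q, rfl⟩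
      · exact fun x => hsingle x hbd
      · intro x
        rw [mul_smul, mul_smul, mul_smul, mul_smul, hX.killed, hY, smul_zero, smul_zero, map_zero]
    | zero => intro x; rw [zero_smul, zero_smul, map_zero]
    | add r r' _ _ hr hr' => intro x; rw [add_smul, add_smul, map_add, hr, hr']
    | smul c r _ hr => intro x; rw [smul_assoc, smul_assoc, map_smul, hr]
  refine ⟨{ toFun := F, map_add' := F.map_add, map_smul' := hlin }, fun a x hx => ?_⟩
  show F x = g a x
  rw [hF, sum_eq_single a, sum_eq_single U.base, huniq a U.base x x hx rfl, hg]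
  · intro b _ hb
    rw [hzero a b x (by rw [← hx, smul_smul, U.mul (U.le_rfl' b) (U.le_rfl' _),
      if_neg fun h => hb h.2, zero_smul]), map_zero, smul_zero]
  · simp
  · intro a' _ ha'
    exact sum_eq_zero fun b _ => by
      rw [hzero a' b x (by rw [← hx, smul_smul, U.mul (U.le_rfl' b) (U.le_rfl' _),
        if_neg fun h => ha' h.1, zero_smul]), map_zero, smul_zero]
  · simp

/-- A bijection of the base components extends to a bijection. -/
theorem Units.bijective_of_base {X Y : Type u} [AddCommGroup X] [Module R X] [AddCommGroup Y]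
    [Module R Y] (hX : U.Split X) (hY : U.Split Y) (F : X →ₗ[R] Y)
    (hinj : ∀ a x, U.t a U.base U.base • x = x → F x = 0 → x = 0)
    (hsurj : ∀ a y, U.t a U.base U.base • y = y →
      ∃ x, U.t a U.base U.base • x = x ∧ F x = y) :
    Function.Bijective F := by
  classical
  refine ⟨(injective_iff_map_eq_zero F).2 fun x hx => ?_, fun y => ?_⟩
  · rw [← U.sum_smul hX.killed x]
    refine sum_eq_zero fun a _ => sum_eq_zero fun b _ => ?_
    obtain ⟨s, hs1, hs2⟩ := hX.exist' a b x
    rw [← hs2]
    suffices hs : s = 0 by rw [hs, smul_zero]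
    refine hinj a s hs1 ?_
    have h := hY.inj a b (F s) (by rw [← map_smul, hs2, map_smul, hx, smul_zero])
    rwa [← map_smul, hs1] at h
  · choose w hw1 hw2 using hY.exist'
    choose z hz1 hz2 using fun a b => hsurj a (w a b y) (hw1 a b y)
    refine ⟨∑ a, ∑ b, U.t a U.base b • z a b, ?_⟩
    simp only [map_sum, map_smul, hz2, hw2, U.sum_smul hY.killed]

/-- A module without homomorphisms to a nonzero killed module has no component at its base. -/
theorem Units.base_eq_zero (hX : U.Split X) (hY : U.Killed Y) (a : α) {y : Y} (hy : y ≠ 0)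
    (hya : U.t a U.base U.base • y = y) (hHom : ∀ F : X →ₗ[R] Y, F = 0) (x : X)
    (hx : U.t a U.base U.base • x = x) : x = 0 := by
  classical
  by_contra hne
  obtain ⟨φ, hφ⟩ := Module.Projective.exists_dual_ne_zero k hne
  let g : α → (X →ₗ[k] Y) := fun a' => if a' = a then φ.smulRight y else 0
  have hg : ∀ a' z, U.t a' U.base U.base • g a' z = g a' z := by
    intro a' z
    by_cases h : a' = a
    · subst h
      simp only [g, if_pos, LinearMap.smulRight_apply]
      rw [smul_comm, hya]
    · simp [g, h]
  obtain ⟨F, hF⟩ := U.exists_hom hX hY g hg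
  have h := hF a x hx
  rw [hHom F] at h
  simp only [g, if_pos, LinearMap.smulRight_apply, LinearMap.zero_apply] at h
  exact hy ((smul_eq_zero.1 h.symm).resolve_left hφ)

/-- A split module whose only base component is at `a` is a power of a split module with
one-dimensional base component at `a`. -/
theorem Units.exists_equiv (hX : U.Split X) (hY : U.Split Y) [FiniteDimensional k X] (a : α)
    (hXa : ∀ a', a' ≠ a → ∀ x : X, U.t a' U.base U.base • x = x → x = 0)
    (hYa : ∀ a', a' ≠ a → ∀ y : Y, U.t a' U.base U.base • y = y → y = 0)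
    {y₀ : Y} (hy₀ : y₀ ≠ 0) (hy₀a : U.t a U.base U.base • y₀ = y₀)
    (hY1 : ∀ y : Y, U.t a U.base U.base • y = y → ∃ c : k, c • y₀ = y) :
    ∃ n : ℕ, Nonempty (X ≃ₗ[R] (Fin n → Y)) := by
  classical
  let W : Submodule k X :=
    { carrier := {x | U.t a U.base U.base • x = x}
      add_mem' := fun {x y} (hx : _ = _) (hy : _ = _) => by
        show _ = _
        rw [smul_add, hx, hy]
      zero_mem' := smul_zero _
      smul_mem' := fun c x (hx : _ = _) => by
        show _ = _
        rw [smul_comm, hx] }
  set n := Module.finrank k W with hn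
  let bas : Module.Basis (Fin n) k W := Module.finBasis k W
  let pr : X →ₗ[k] W :=
    { toFun := fun x => ⟨U.t a U.base U.base • x, by
        show _ = _
        rw [smul_smul, U.mul (U.le_rfl' _) (U.le_rfl' _), if_pos ⟨rfl, rfl⟩]⟩
      map_add' := fun x y => Subtype.ext (smul_add _ _ _)
      map_smul' := fun c x => Subtype.ext (smul_comm _ _ _) }
  let g₀ : X →ₗ[k] (Fin n → Y) := LinearMap.pi fun i => ((bas.coord i).comp pr).smulRight y₀
  let g : α → (X →ₗ[k] (Fin n → Y)) := fun a' => if a' = a then g₀ else 0
  have hYn : U.Split (Fin n → Y) :=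
    ⟨fun i y => funext fun j => hY.killed i (y j),
     fun a' b y => ⟨fun j => (hY.exist a' b (y j)).choose,
       funext fun j => (hY.exist a' b (y j)).choose_spec⟩,
     fun a' b y h => funext fun j => hY.inj a' b (y j) (congrFun h j)⟩
  have hg : ∀ a' z, U.t a' U.base U.base • g a' z = g a' z := by
    intro a' z
    by_cases h : a' = a
    · subst h
      funext j
      simp only [g, if_pos, g₀, Pi.smul_apply, LinearMap.pi_apply, LinearMap.smulRight_apply]
      rw [smul_comm, hy₀a]
    · simp [g, h]
  obtain ⟨F, hF⟩ := U.exists_hom hX hYn.killed g hg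
  have hFW : ∀ x : W, F x = fun i => bas.coord i x • y₀ := by
    intro x
    rw [hF a x x.2]
    funext i
    simp only [g, if_pos, g₀, LinearMap.pi_apply, LinearMap.smulRight_apply, LinearMap.comp_apply]
    rw [show pr x = x from Subtype.ext x.2]
  refine ⟨n, ⟨LinearEquiv.ofBijective F (U.bijective_of_base hX hYn F ?_ ?_)⟩⟩
  · intro a' x hx h0
    by_cases h : a' = a
    · subst h
      have h1 := hFW ⟨x, hx⟩
      rw [h0] at h1
      have : bas.repr ⟨x, hx⟩ = 0 := Finsupp.ext fun i =>
        (smul_eq_zero.1 (congrFun h1 i).symm).resolve_right hy₀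
      simpa using congrArg Subtype.val ((LinearEquiv.map_eq_zero_iff _).1 this)
    · exact hXa a' h x hx
  · intro a' y hy
    by_cases h : a' = a
    · subst h
      choose c hc using fun i => hY1 (y i) (congrFun hy i)
      refine ⟨(bas.equivFun.symm c : W), (bas.equivFun.symm c).2, ?_⟩
      rw [hFW]
      funext i
      rw [← hc i]
      congr 1
      rw [Module.Basis.coord_apply, ← Module.Basis.equivFun_apply, LinearEquiv.apply_symm_apply]
    · refine ⟨0, smul_zero _, ?_⟩
      rw [map_zero]
      funext i
      exact (hYa a' h (y i) (congrFun hy i)).symm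

end Vale.Agent.P195.Disproof
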