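import Vale.Agent.P195.Disproof.Middle
import Vale.Agent.P195.Disproof.Orth

/-!
# P195: the matrix units of the trivial extension

The trivial extension of the triangular algebra of operators on twelve vertices by its shifted
bimodule is spanned by the units between vertices of one outer column, modulo the idempotents of the
middle column.
-/

noncomputable section

namespace Vale.Agent.P195.Disproof

open TrivSqZeroExt

variable {k : Type} [Field k]

/-- The twelve vertices. -/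
abbrev Vx := Fin 3 × Fin 4

/-- The bidegree of a vertex. -/
def vdeg (v : Vx) : Deg := ((v.1 : ℕ), (v.2 : ℕ))

/-- The ambient algebra. -/
abbrev Amb (k : Type) [Field k] := DualNumber (Matrix Vx Vx (DOp k))

/-- The two outer columns. -/
def col (a : Bool) : Fin 3 := if a then 2 else 0

theorem col_ne_one (a : Bool) : col a ≠ 1 := by cases a <;> decide

theorem col_injective : Function.Injective col := by decide

theorem exists_col {i : Fin 3} (h : i ≠ 1) : ∃ a, col a = i := by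
  revert i
  decide

variable (k) in
/-- A matrix unit in degree zero of the trivial extension. -/
def amb₀ (w v : Vx) : DOp k →ₗ[k] Amb k where
  toFun P := inl (Matrix.single w v P)
  map_add' P Q := by rw [Matrix.single_add, inl_add]
  map_smul' c P := by rw [RingHom.id_apply, ← Matrix.smul_single, inl_smul]

variable (k) in
/-- A matrix unit in degree one of the trivial extension. -/
def amb₁ (w v : Vx) : DOp k →ₗ[k] Amb k where
  toFun P := inr (Matrix.single w v P)
  map_add' P Q := by rw [Matrix.single_add, inr_add]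
  map_smul' c P := by rw [RingHom.id_apply, ← Matrix.smul_single, inr_smul]

theorem amb₀_apply (w v : Vx) (P : DOp k) : amb₀ k w v P = inl (Matrix.single w v P) := rfl

theorem amb₁_apply (w v : Vx) (P : DOp k) : amb₁ k w v P = inr (Matrix.single w v P) := rfl

theorem amb₀_mul_amb₀ (w u v : Vx) (P Q : DOp k) :
    amb₀ k w u P * amb₀ k u v Q = amb₀ k w v (P * Q) := by
  rw [amb₀_apply, amb₀_apply, amb₀_apply, inl_mul_inl, Matrix.single_mul_single_same]

theorem amb₀_mul_amb₁ (w u v : Vx) (P Q : DOp k) :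
    amb₀ k w u P * amb₁ k u v Q = amb₁ k w v (P * Q) := by
  rw [amb₀_apply, amb₁_apply, amb₁_apply, inl_mul_inr, smul_eq_mul, Matrix.single_mul_single_same]

theorem amb₁_mul_amb₀ (w u v : Vx) (P Q : DOp k) :
    amb₁ k w u P * amb₀ k u v Q = amb₁ k w v (P * Q) := by
  rw [amb₀_apply, amb₁_apply, amb₁_apply, inr_mul_inl, op_smul_eq_mul,
    Matrix.single_mul_single_same]

theorem amb_expand (r : Amb k) :
    r = ∑ w, ∑ v, (amb₀ k w v (r.fst w v) + amb₁ k w v (r.snd w v)) := by
  simp only [Finset.sum_add_distrib, amb₀_apply, amb₁_apply]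
  conv_lhs => rw [← inl_fst_add_inr_snd_eq r, Matrix.matrix_eq_sum_single r.fst,
    Matrix.matrix_eq_sum_single r.snd]
  simp only [inl_sum, inr_sum]

section

variable {R : Type} [Ring R] [Algebra k R] (ι : R →ₐ[k] Amb k) (hinj : Function.Injective ι)
  (hι : ∀ r : Amb k, (∃ x, ι x = r) ↔ (∀ w v, r.fst w v ∈ Fil k (vdeg w - vdeg v)) ∧
    ∀ w v, r.snd w v ∈ Fil k (vdeg w - vdeg v + (1, 3)))

include hι

theorem amb₀_mem {w v : Vx} {P : DOp k} (hP : P ∈ Fil k (vdeg w - vdeg v)) :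
    ∃ x, ι x = amb₀ k w v P := by
  refine (hι _).2 ⟨fun w' v' => ?_, fun w' v' => ?_⟩
  · rw [amb₀_apply, fst_inl, Matrix.single_apply]
    split_ifs with h
    · rw [← h.1, ← h.2]; exact hP
    · exact Submodule.zero_mem _
  · rw [amb₀_apply, snd_inl]
    exact Submodule.zero_mem _

theorem amb₁_mem {w v : Vx} {P : DOp k} (hP : P ∈ Fil k (vdeg w - vdeg v + (1, 3))) :
    ∃ x, ι x = amb₁ k w v P := by
  refine (hι _).2 ⟨fun w' v' => ?_, fun w' v' => ?_⟩
  · rw [amb₁_apply, fst_inr]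
    exact Submodule.zero_mem _
  · rw [amb₁_apply, snd_inr, Matrix.single_apply]
    split_ifs with h
    · rw [← h.1, ← h.2]; exact hP
    · exact Submodule.zero_mem _

/-- The arrow of scalars from `(a, b)` to `(a, d)`, when `b ≤ d`. -/
def unitT (a : Bool) (b d : Fin 4) : R :=
  if h : b ≤ d then
    (amb₀_mem ι hι (P := 1) (w := (col a, d)) (v := (col a, b))
      (one_mem_Fil (by simp [vdeg]) (by simpa [vdeg] using h))).choose
  else 0

/-- The idempotents of the middle column. -/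
def midIdem (e : Fin 4) : R :=
  (amb₀_mem ι hι (P := 1) (w := ((1 : Fin 3), e)) (v := ((1 : Fin 3), e))
    (one_mem_Fil (by simp) (by simp))).choose

theorem unitT_coe {a : Bool} {b d : Fin 4} (h : b ≤ d) :
    ι (unitT ι hι a b d) = amb₀ k (col a, d) (col a, b) 1 := by
  rw [unitT, dif_pos h]
  exact Exists.choose_spec (p := fun x => ι x = amb₀ k (col a, d) (col a, b) 1) _

theorem midIdem_coe (e : Fin 4) : ι (midIdem ι hι e) = amb₀ k (1, e) (1, e) 1 :=
  Exists.choose_spec (p := fun x => ι x = amb₀ k ((1 : Fin 3), e) ((1 : Fin 3), e) 1) _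

/-- The spanning elements. -/
def spanSet : Set R :=
  {r | ∃ a b d, b ≤ d ∧ r = unitT ι hι a b d} ∪ {r | ∃ x i y, r = x * midIdem ι hι i * y}

theorem mid_mem {e : Fin 4} {x y : Amb k} (hx : ∃ x', ι x' = x) (hy : ∃ y', ι y' = y) :
    x * amb₀ k (1, e) (1, e) 1 * y ∈ (Submodule.span k (spanSet ι hι)).map ι.toLinearMap := by
  obtain ⟨x', rfl⟩ := hx
  obtain ⟨y', rfl⟩ := hy
  refine ⟨_, Submodule.subset_span (Or.inr ⟨x', e, y', rfl⟩), ?_⟩
  show ι _ = _
  rw [map_mul, map_mul, midIdem_coe]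

theorem amb₀_mem_span {w v : Vx} {P : DOp k} (hP : P ∈ Fil k (vdeg w - vdeg v)) :
    amb₀ k w v P ∈ (Submodule.span k (spanSet ι hι)).map ι.toLinearMap := by
  have hthru : ∀ (e : Fin 4) {Q Q' : DOp k}, Q ∈ Fil k (vdeg w - vdeg (1, e)) →
      Q' ∈ Fil k (vdeg (1, e) - vdeg v) →
      amb₀ k w v (Q * Q') ∈ (Submodule.span k (spanSet ι hι)).map ι.toLinearMap := by
    intro e Q Q' hQ hQ'
    have h : amb₀ k w v (Q * Q') =
        amb₀ k w (1, e) Q * amb₀ k (1, e) (1, e) 1 * amb₀ k (1, e) v Q' := by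
      rw [amb₀_mul_amb₀, mul_one, amb₀_mul_amb₀]
    rw [h]
    exact mid_mem ι hι (amb₀_mem ι hι hQ) (amb₀_mem ι hι hQ')
  by_cases hv : v.1 = 1
  · have h := hthru v.2 (Q := P) (Q' := 1)
    rw [← hv, mul_one] at h
    exact h hP (one_mem_Fil (by simp) (by simp))
  by_cases hw : w.1 = 1
  · have h := hthru w.2 (Q := 1) (Q' := P)
    rw [← hw, one_mul] at h
    exact h (one_mem_Fil (by simp) (by simp)) hP
  obtain ⟨⟨c, d⟩, rfl⟩ : ∃ p : Bool × Fin 4, (col p.1, p.2) = w := by
    obtain ⟨c, hc⟩ := exists_col hw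
    exact ⟨(c, w.2), by rw [hc]⟩
  obtain ⟨⟨a, b⟩, rfl⟩ : ∃ p : Bool × Fin 4, (col p.1, p.2) = v := by
    obtain ⟨a, ha⟩ := exists_col hv
    exact ⟨(a, v.2), by rw [ha]⟩
  by_cases hbd : a = c ∧ d < b
  · rw [Fil_eq_bot (Or.inl (by
      have : (d : ℕ) < b := hbd.2
      simp [vdeg, this]))] at hP
    rw [(Submodule.mem_bot _).1 hP, map_zero]
    exact Submodule.zero_mem _
  suffices H : Fil k (((col c : ℕ) : ℤ) - (col a : ℕ), ((d : ℕ) : ℤ) - (b : ℕ)) ≤
      ((Submodule.span k (spanSet ι hι)).map ι.toLinearMap).comap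
        (amb₀ k (col c, d) (col a, b)) from H hP
  refine Fil_le_middle (by cases a <;> simp [col]) (by cases c <;> simp [col]) (by simp)
    (by have := b.2; omega) (by have := d.2; omega) (fun e he he' => ?_) fun hac => ?_
  · refine Submodule.mul_le.2 fun Q hQ Q' hQ' => ?_
    obtain ⟨e, rfl⟩ : ∃ e' : Fin 4, ((e' : ℕ) : ℤ) = e :=
      ⟨⟨e.toNat, by omega⟩, by simp only; omega⟩
    exact hthru e hQ hQ'
  · have hac' : a = c := col_injective (Fin.ext (by omega))
    subst hac'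
    have hle : b ≤ d := not_lt.1 fun h => hbd ⟨rfl, h⟩
    exact ⟨unitT ι hι a b d, Submodule.subset_span (Or.inl ⟨a, b, d, hle, rfl⟩),
      unitT_coe ι hι hle⟩

theorem amb₁_mem_span {w v : Vx} {P : DOp k} (hP : P ∈ Fil k (vdeg w - vdeg v + (1, 3))) :
    amb₁ k w v P ∈ (Submodule.span k (spanSet ι hι)).map ι.toLinearMap := by
  have hthru₁ : ∀ (e : Fin 4) {Q Q' : DOp k}, Q ∈ Fil k (vdeg w - vdeg (1, e) + (1, 3)) →
      Q' ∈ Fil k (vdeg (1, e) - vdeg v) →
      amb₁ k w v (Q * Q') ∈ (Submodule.span k (spanSet ι hι)).map ι.toLinearMap := by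
    intro e Q Q' hQ hQ'
    have h : amb₁ k w v (Q * Q') =
        amb₁ k w (1, e) Q * amb₀ k (1, e) (1, e) 1 * amb₀ k (1, e) v Q' := by
      rw [amb₁_mul_amb₀, mul_one, amb₁_mul_amb₀]
    rw [h]
    exact mid_mem ι hι (amb₁_mem ι hι hQ) (amb₀_mem ι hι hQ')
  have hthru₂ : ∀ (e : Fin 4) {Q Q' : DOp k}, Q ∈ Fil k (vdeg w - vdeg (1, e)) →
      Q' ∈ Fil k (vdeg (1, e) - vdeg v + (1, 3)) →
      amb₁ k w v (Q * Q') ∈ (Submodule.span k (spanSet ι hι)).map ι.toLinearMap := by
    intro e Q Q' hQ hQ'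
    have h : amb₁ k w v (Q * Q') =
        amb₀ k w (1, e) Q * amb₀ k (1, e) (1, e) 1 * amb₁ k (1, e) v Q' := by
      rw [amb₀_mul_amb₀, mul_one, amb₀_mul_amb₁]
    rw [h]
    exact mid_mem ι hι (amb₀_mem ι hι hQ) (amb₁_mem ι hι hQ')
  by_cases hv : v.1 = 1
  · have h := hthru₁ v.2 (Q := P) (Q' := 1)
    rw [← hv, mul_one] at h
    exact h hP (one_mem_Fil (by simp) (by simp))
  by_cases hw : w.1 = 1
  · have h := hthru₂ w.2 (Q := 1) (Q' := P)
    rw [← hw, one_mul] at h
    exact h (one_mem_Fil (by simp) (by simp)) hP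
  obtain ⟨⟨c, d⟩, rfl⟩ : ∃ p : Bool × Fin 4, (col p.1, p.2) = w := by
    obtain ⟨c, hc⟩ := exists_col hw
    exact ⟨(c, w.2), by rw [hc]⟩
  obtain ⟨⟨a, b⟩, rfl⟩ : ∃ p : Bool × Fin 4, (col p.1, p.2) = v := by
    obtain ⟨a, ha⟩ := exists_col hv
    exact ⟨(a, v.2), by rw [ha]⟩
  suffices H : Fil k (((col c : ℕ) : ℤ) - (col a : ℕ) + 1, ((d : ℕ) : ℤ) - (b : ℕ) + 3) ≤
      ((Submodule.span k (spanSet ι hι)).map ι.toLinearMap).comap
        (amb₁ k (col c, d) (col a, b)) from H hP
  refine Fil_le_middle_shift (by cases a <;> simp [col]) (by cases c <;> simp [col]) (by simp)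
    (by have := b.2; omega) (by simp) (by have := d.2; omega) (fun e he he' => ?_)
    fun e he he' => ?_ <;> refine Submodule.mul_le.2 fun Q hQ Q' hQ' => ?_ <;>
    obtain ⟨e, rfl⟩ : ∃ e' : Fin 4, ((e' : ℕ) : ℤ) = e :=
      ⟨⟨e.toNat, by omega⟩, by simp only; omega⟩
  · refine hthru₁ e ?_ hQ'
    simpa [vdeg] using hQ
  · refine hthru₂ e hQ ?_
    rw [show vdeg (1, e) - vdeg (col a, b) + (1, 3) =
      ((2 : ℤ) - (col a : ℕ), ((e : ℕ) : ℤ) - (b : ℕ) + 3) from
        Prod.ext (by simp [vdeg]; omega) (by simp [vdeg])]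
    exact hQ'

include hinj

/-- The matrix units of the trivial extension. -/
def trivExtUnits : Units k R Bool (Fin 4) (Fin 4) where
  t := unitT ι hι
  f := midIdem ι hι
  base := 0
  le_base := fun b => Fin.zero_le b
  le_rfl' := fun _ => le_rfl
  mul := by
    intro a b d a' b' d' h h'
    refine hinj ?_
    rw [map_mul, unitT_coe ι hι h, unitT_coe ι hι h']
    by_cases hc : a = a' ∧ b = d'
    · obtain ⟨rfl, rfl⟩ := hc
      rw [if_pos ⟨rfl, rfl⟩, amb₀_mul_amb₀, mul_one, unitT_coe ι hι (h'.trans h)]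
    · rw [if_neg hc, map_zero, amb₀_apply, amb₀_apply, inl_mul_inl,
        Matrix.single_mul_single_of_ne, inl_zero]
      exact fun he => hc ⟨col_injective (congrArg Prod.fst he), congrArg Prod.snd he⟩
  one := by
    refine hinj ?_
    simp only [map_add, map_sum, map_one, midIdem_coe, unitT_coe ι hι le_rfl]
    rw [amb_expand (1 : Amb k)]
    simp only [fst_one, snd_one, Matrix.zero_apply, map_zero, add_zero, Matrix.one_apply,
      apply_ite (amb₀ k _ _), Finset.sum_ite_eq, Finset.mem_univ, if_true]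
    rw [Fintype.sum_prod_type, Fin.sum_univ_three, Fintype.sum_bool]
    simp only [col, if_true, if_false, Bool.false_eq_true]
    abel
  spans := fun r => by
    obtain ⟨h₀, h₁⟩ := (hι (ι r)).1 ⟨r, rfl⟩
    have h : ι r ∈ (Submodule.span k (spanSet ι hι)).map ι.toLinearMap := by
      rw [amb_expand (ι r)]
      exact Submodule.sum_mem _ fun w _ => Submodule.sum_mem _ fun v _ =>
        add_mem (amb₀_mem_span ι hι (h₀ w v)) (amb₁_mem_span ι hι (h₁ w v))
    obtain ⟨r', hr', he⟩ := h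
    rwa [show r = r' from hinj he.symm]

theorem trivExtUnits_t {a : Bool} {b d : Fin 4} (h : b ≤ d) :
    ι ((trivExtUnits ι hinj hι).t a b d) = amb₀ k (col a, d) (col a, b) 1 :=
  unitT_coe ι hι h

theorem trivExtUnits_f (e : Fin 4) :
    ι ((trivExtUnits ι hinj hι).f e) = amb₀ k (1, e) (1, e) 1 :=
  midIdem_coe ι hι e

theorem trivExtUnits_base : (trivExtUnits ι hinj hι).base = 0 := rfl

/-- A split module without maps into `A'` is a power of `S`. -/
theorem orth_equiv {X A' S : Type} [AddCommGroup X] [Module R X] [Module k X]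
    [IsScalarTower k R X] [FiniteDimensional k X] [AddCommGroup A'] [Module R A'] [Module k A']
    [IsScalarTower k R A'] [AddCommGroup S] [Module R S] [Module k S] [IsScalarTower k R S]
    (hX : (trivExtUnits ι hinj hι).Split X) (hA : (trivExtUnits ι hinj hι).Killed A')
    {y : A'} (hy : y ≠ 0) (hya : (trivExtUnits ι hinj hι).t false 0 0 • y = y)
    (hHom : ∀ F : X →ₗ[R] A', F = 0) (hS : (trivExtUnits ι hinj hι).Split S)
    (hS₀ : ∀ s : S, (trivExtUnits ι hinj hι).t false 0 0 • s = s → s = 0)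
    {s₀ : S} (hs₀ : s₀ ≠ 0) (hs₀a : (trivExtUnits ι hinj hι).t true 0 0 • s₀ = s₀)
    (hS₁ : ∀ s : S, (trivExtUnits ι hinj hι).t true 0 0 • s = s → ∃ c : k, c • s₀ = s) :
    ∃ n : ℕ, Nonempty (X ≃ₗ[R] (Fin n → S)) :=
  Units.exists_equiv hX hS true
    (fun a ha x hx => Units.base_eq_zero hX hA a (y := y) hy
      (by rw [show a = false by simpa using ha]; exact hya) hHom x hx)
    (fun a ha s hs => hS₀ s (by rwa [show a = false by simpa using ha] at hs)) hs₀ hs₀a hS₁

end

end Vale.Agent.P195.Disproof
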