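import Vale.Agent.P195.Disproof.Mods
import Vale.Agent.P195.Disproof.OrthUnits

/-!
# P195: modules orthogonal to the partial tilting module are powers of `SS`

A module killed by the middle column, with bijective arrows of scalars in the outer columns and
without maps into `AA`, is a power of `SS`.
-/

noncomputable section

namespace Vale.Agent.P195.Disproof

open TrivSqZeroExt (fst snd inl)

variable {k : Type} [Field k]

variable (k) in
/-- The matrix units of `Rk k`. -/
def rkUnits : Units k (Rk k) Bool (Fin 4) (Fin 4) :=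
  trivExtUnits (Rk k).val Subtype.val_injective fun r => by
    constructor
    · rintro ⟨x, rfl⟩
      exact ⟨fun w v => by simpa [pos, vdeg] using x.2.1 w v,
        fun w v => by simpa [pos, vdeg, tau] using x.2.2 w v⟩
    · rintro ⟨h0, h1⟩
      exact ⟨⟨r, fun w v => by simpa [pos, vdeg] using h0 w v,
        fun w v => by simpa [pos, vdeg, tau] using h1 w v⟩, rfl⟩

theorem rkUnits_base : (rkUnits k).base = 0 := rfl

theorem rkUnits_t {a : Bool} {b d : Fin 4} (h : b ≤ d) :
    ((rkUnits k).t a b d : TrivSqZeroExt (Mat k) (Mat k)) =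
      inl (Matrix.single ((col a, d) : Vtx) ((col a, b) : Vtx) (1 : DOp k)) :=
  trivExtUnits_t (Rk k).val _ _ h

theorem rkUnits_f (e : Fin 4) : ((rkUnits k).f e : TrivSqZeroExt (Mat k) (Mat k)) =
    inl (Matrix.single (((1 : Fin 3), e) : Vtx) (((1 : Fin 3), e) : Vtx) (1 : DOp k)) :=
  trivExtUnits_f (Rk k).val _ _ e

/-- The abstract form, with the scalar structures supplied. -/
theorem Units.orth_of_finite {R α β κ : Type} [Ring R] [Algebra k R] [Fintype α] [DecidableEq α]
    [Fintype β] [DecidableEq β] [LE β] [Fintype κ] (U : Units k R α β κ) [Module.Finite k R]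
    {C A S : Type} [AddCommGroup C] [Module R C] [Module.Finite R C] [AddCommGroup A] [Module R A]
    [AddCommGroup S] [Module R S] (hC : U.Split C) (hA : U.Killed A) (a : α)
    (hAy : ∀ a', a' ≠ a → ∃ y : A, y ≠ 0 ∧ U.t a' U.base U.base • y = y)
    (hHom : ∀ h : C →ₗ[R] A, h = 0) (hS : U.Split S)
    (hS₀ : ∀ a', a' ≠ a → ∀ s : S, U.t a' U.base U.base • s = s → s = 0)
    (hS₁ : ∃ s₀ : S, s₀ ≠ 0 ∧ U.t a U.base U.base • s₀ = s₀ ∧
      ∀ s : S, U.t a U.base U.base • s = s → ∃ c : k, algebraMap k R c • s₀ = s) :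
    ∃ n : ℕ, Nonempty (C ≃ₗ[R] (Fin n → S)) := by
  let : Module k C := Module.compHom C (algebraMap k R)
  let : Module k A := Module.compHom A (algebraMap k R)
  let : Module k S := Module.compHom S (algebraMap k R)
  have : IsScalarTower k R C := IsScalarTower.of_algebraMap_smul fun _ _ => rfl
  have : IsScalarTower k R A := IsScalarTower.of_algebraMap_smul fun _ _ => rfl
  have : IsScalarTower k R S := IsScalarTower.of_algebraMap_smul fun _ _ => rfl
  have : FiniteDimensional k C := Module.Finite.trans R C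
  obtain ⟨s₀, h0, h1, h2⟩ := hS₁
  refine U.exists_equiv hC hS a (fun a' ha x hx => ?_) hS₀ h0 h1 h2
  obtain ⟨y, hy, hya⟩ := hAy a' ha
  exact U.base_eq_zero hC hA a' hy hya hHom x hx

section Inflated

variable {W : Type} [AddCommGroup W] [Module k W] [Module (DOp k) W] (Y : GMod k W)

/-- One column with one entry. -/
def oneVec (u : Vtx) (x : W) : Vec W := fun v => if v = u then x else 0

theorem oneVec_same (u : Vtx) (x : W) : oneVec u x u = x := if_pos rfl

theorem single_smul_vec (w v : Vtx) (y : Vec W) :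
    Matrix.single w v (1 : DOp k) • y = oneVec w (y v) := by
  refine vec_ext fun u => ?_
  rw [vec_smul_apply, Finset.sum_eq_single v]
  · rw [oneVec, Matrix.single_apply]
    by_cases h : u = w
    · rw [if_pos h, if_pos ⟨h.symm, rfl⟩, one_smul]
    · rw [if_neg h, if_neg fun h' => h h'.1.symm, zero_smul]
  · intro u' _ hu'
    rw [Matrix.single_apply, if_neg fun h' => hu' h'.2.symm, zero_smul]
  · simp

theorem oneVec_mem {u : Vtx} {x : W} (hx : x ∈ Y.comp (pos u)) (v : Vtx) :
    oneVec u x v ∈ Y.comp (pos v) := by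
  rw [oneVec]
  split_ifs with h
  · rw [h]; exact hx
  · exact zero_mem _

/-- An element of the inflated module. -/
def mkI (y : Vec W) (hy : ∀ v, y v ∈ Y.comp (pos v)) : Infl k Y.Res :=
  (Via.equiv fstHom Y.Res).symm (Y.mkRes y hy)

theorem exists_mkI (x : Infl k Y.Res) : ∃ y hy, mkI Y y hy = x := by
  obtain ⟨y, hy, h⟩ := Y.exists_mkRes (Via.equiv fstHom Y.Res x)
  exact ⟨y, hy, by rw [mkI, h, AddEquiv.symm_apply_apply]⟩

theorem mkI_congr {y z : Vec W} {hy : ∀ v, y v ∈ Y.comp (pos v)}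
    {hz : ∀ v, z v ∈ Y.comp (pos v)} (h : y = z) : mkI Y y hy = mkI Y z hz := by
  subst h; rfl

theorem mkI_eq_zero {y : Vec W} {hy : ∀ v, y v ∈ Y.comp (pos v)} :
    mkI Y y hy = 0 ↔ ∀ v, y v ∈ Y.base (pos v) := by
  rw [mkI, AddEquiv.map_eq_zero_iff, Y.mkRes_eq_zero]

theorem smul_mkI (r : Rk k) {y : Vec W} (hy : ∀ v, y v ∈ Y.comp (pos v))
    (hy' : ∀ v, (fst (r : TrivSqZeroExt (Mat k) (Mat k)) • y) v ∈ Y.comp (pos v)) :
    r • mkI Y y hy = mkI Y (fst (r : TrivSqZeroExt (Mat k) (Mat k)) • y) hy' :=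
  rfl

theorem unit_smul_mkI {r : Rk k} {w u : Vtx}
    (hr : (r : TrivSqZeroExt (Mat k) (Mat k)) = inl (Matrix.single w u (1 : DOp k)))
    {y : Vec W} (hy : ∀ v, y v ∈ Y.comp (pos v)) (hu : y u ∈ Y.comp (pos w)) :
    r • mkI Y y hy = mkI Y (oneVec w (y u)) (oneVec_mem Y hu) := by
  have e : fst (r : TrivSqZeroExt (Mat k) (Mat k)) • y = oneVec w (y u) := by
    rw [hr, TrivSqZeroExt.fst_inl, single_smul_vec]
  rw [smul_mkI Y r hy (e ▸ oneVec_mem Y hu)]
  exact mkI_congr Y e

/-- A family constant along the columns and trivial in the middle one is split. -/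
theorem split_infl (hc : ∀ v v' : Vtx, v.1 = v'.1 → Y.comp (pos v) = Y.comp (pos v'))
    (hb : ∀ v v' : Vtx, v.1 = v'.1 → Y.base (pos v) = Y.base (pos v'))
    (hmid : ∀ e : Fin 4, Y.comp (pos ((1, e) : Vtx)) ≤ Y.base (pos ((1, e) : Vtx))) :
    (rkUnits k).Split (Infl k Y.Res) := by
  refine ⟨fun e x => ?_, fun a b x => ?_, fun a b x hx => ?_⟩
  · obtain ⟨y, hy, rfl⟩ := exists_mkI Y x
    rw [unit_smul_mkI Y (rkUnits_f e) hy (hy _), mkI_eq_zero]
    intro v
    rw [oneVec]
    split_ifs with h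
    · rw [h]; exact hmid e (hy _)
    · exact zero_mem _
  · obtain ⟨y, hy, rfl⟩ := exists_mkI Y x
    have h0 : y (col a, b) ∈ Y.comp (pos ((col a, 0) : Vtx)) :=
      hc (col a, b) (col a, 0) rfl ▸ hy _
    refine ⟨mkI Y (oneVec (col a, 0) (y (col a, b))) (oneVec_mem Y h0), ?_⟩
    rw [rkUnits_base, unit_smul_mkI Y (rkUnits_t (le_refl b)) hy (hy _),
      unit_smul_mkI Y (rkUnits_t (Fin.zero_le b)) _ (by rw [oneVec_same]; exact hy _)]
    exact mkI_congr Y (by rw [oneVec_same])
  · obtain ⟨y, hy, rfl⟩ := exists_mkI Y x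
    rw [rkUnits_base] at hx ⊢
    have hb0 : y (col a, 0) ∈ Y.comp (pos ((col a, b) : Vtx)) :=
      hc (col a, 0) (col a, b) rfl ▸ hy _
    rw [unit_smul_mkI Y (rkUnits_t (Fin.zero_le b)) hy hb0, mkI_eq_zero] at hx
    rw [unit_smul_mkI Y (rkUnits_t le_rfl) hy (hy _), mkI_eq_zero]
    intro v
    rw [oneVec]
    split_ifs with h
    · have := hx (col a, b)
      rw [oneVec_same] at this
      rw [h]
      exact hb (col a, b) (col a, 0) rfl ▸ this
    · exact zero_mem _

end Inflated

theorem degIdx_le_negIdx {n : ℤ} (hn : -2 ≤ n) : degIdx n ⊆ negIdx n := fun m hm => by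
  refine ⟨?_, hm⟩
  by_contra hne
  simp only [not_exists, not_le] at hne
  have h : ∑ i, m i ≤ ∑ _i : Fin 3, (-1 : ℤ) := Finset.sum_le_sum fun i _ => by
    have := hne i
    omega
  simp only [degIdx, Set.mem_ofPred_eq] at hm
  simp at h
  omega

theorem split_SS : (rkUnits k).Split (SS k) := by
  refine split_infl _ (fun v v' h => ?_) (fun _ _ _ => rfl) fun e => ?_
  · show Finsupp.supported k k (polyIdx _) = Finsupp.supported k k (polyIdx _)
    simp [pos, h]
  · show Finsupp.supported k k (polyIdx _) ≤ ⊥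
    rw [show polyIdx ((pos ((1, e) : Vtx)).1 - 2) = ∅ from Set.eq_empty_iff_forall_notMem.2
      fun m hm => by
        have h := Finset.sum_nonneg fun i (_ : i ∈ Finset.univ) => hm.1 i
        rw [hm.2] at h
        simp [pos] at h, Finsupp.supported_empty]

theorem split_AA : (rkUnits k).Split (AA k) := by
  refine split_infl _ (fun v v' h => ?_) (fun v v' h => ?_) fun e => ?_
  · show Finsupp.supported k k (degIdx _) = Finsupp.supported k k (degIdx _)
    simp [pos, h]
  · show Finsupp.supported k k (negIdx _) = Finsupp.supported k k (negIdx _)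
    simp [pos, h]
  · exact Finsupp.supported_mono (degIdx_le_negIdx (by simp [pos]))

theorem AA_socle : ∃ y : AA k, y ≠ 0 ∧ (rkUnits k).t false 0 0 • y = y := by
  have hm : (Finsupp.single (fun _ : Fin 3 => (-1 : ℤ)) (1 : k)) ∈
      (Dc k (-3)).comp (pos ((col false, 0) : Vtx)) :=
    Finsupp.single_mem_supported k _ (by simp [degIdx, pos, col])
  refine ⟨mkI _ (oneVec (col false, 0) _) (oneVec_mem _ hm), ?_, ?_⟩
  · rw [ne_eq, mkI_eq_zero]
    intro h
    have h0 := h (col false, 0)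
    rw [oneVec_same] at h0
    obtain ⟨⟨i, hi⟩, -⟩ := (Finsupp.mem_supported k _).1 h0
      (Finsupp.mem_support_iff.2 (by rw [Finsupp.single_eq_same]; exact one_ne_zero))
    simp at hi
  · rw [unit_smul_mkI _ (rkUnits_t le_rfl) _ (by rw [oneVec_same]; exact hm)]
    exact mkI_congr _ (by rw [oneVec_same])

theorem polyMod_comp_zero {u : Vtx} (hu : u.1 = 0) {x : LP k}
    (hx : x ∈ (polyMod k).comp (pos u)) : x = 0 := by
  refine Finsupp.support_eq_empty.1 (Finset.eq_empty_of_forall_notMem fun m hm => ?_)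
  obtain ⟨h1, h2⟩ := (Finsupp.mem_supported k _).1 hx hm
  have h := Finset.sum_nonneg fun i (_ : i ∈ Finset.univ) => h1 i
  rw [h2] at h
  simp [pos, hu] at h

theorem polyMod_comp_two {u : Vtx} (hu : u.1 = 2) {x : LP k}
    (hx : x ∈ (polyMod k).comp (pos u)) : x = x 0 • Finsupp.single 0 1 := by
  rw [Finsupp.smul_single, smul_eq_mul, mul_one]
  ext m
  by_cases hm : m = 0
  · rw [hm, Finsupp.single_eq_same]
  · rw [Finsupp.single_eq_of_ne hm]
    by_contra hne
    obtain ⟨h1, h2⟩ := (Finsupp.mem_supported k _).1 hx (Finsupp.mem_support_iff.2 hne)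
    refine hm (funext fun i => le_antisymm ?_ (h1 i))
    have h3 := Finset.single_le_sum (fun j _ => h1 j) (Finset.mem_univ i)
    rw [h2] at h3
    simpa [pos, hu] using h3

theorem algebraMap_smul_mkI {W : Type} [AddCommGroup W] [Module k W] [Module (DOp k) W]
    [IsScalarTower k (DOp k) W] (Y : GMod k W) (c : k) {y : Vec W}
    (hy : ∀ v, y v ∈ Y.comp (pos v)) :
    algebraMap k (Rk k) c • mkI Y y hy =
      mkI Y (c • y) fun v => Submodule.smul_mem _ c (hy v) := by
  have e : fst ((algebraMap k (Rk k) c : Rk k) : TrivSqZeroExt (Mat k) (Mat k)) • y = c • y := by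
    show fst (algebraMap k (TrivSqZeroExt (Mat k) (Mat k)) c) • y = c • y
    rw [TrivSqZeroExt.algebraMap_eq_inl', TrivSqZeroExt.fst_inl, algebraMap_smul]
  rw [smul_mkI Y _ hy (fun v => by rw [e]; exact Submodule.smul_mem _ c (hy v))]
  exact mkI_congr Y e

theorem SS_col_zero {s : SS k} (hs : (rkUnits k).t false 0 0 • s = s) : s = 0 := by
  obtain ⟨z, hz, rfl⟩ := exists_mkI (polyMod k) s
  rw [unit_smul_mkI _ (rkUnits_t le_rfl) hz (hz _)] at hs
  rw [← hs, mkI_eq_zero]
  intro v
  rw [oneVec, polyMod_comp_zero (u := (col false, 0)) rfl (hz _)]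
  simp

theorem SS_gen : ∃ s₀ : SS k, s₀ ≠ 0 ∧ (rkUnits k).t true 0 0 • s₀ = s₀ ∧
    ∀ s : SS k, (rkUnits k).t true 0 0 • s = s →
      ∃ c : k, algebraMap k (Rk k) c • s₀ = s := by
  have hm : (Finsupp.single (0 : Xp) (1 : k)) ∈ (polyMod k).comp (pos ((col true, 0) : Vtx)) :=
    Finsupp.single_mem_supported k _ (by simp [polyIdx, pos, col])
  refine ⟨mkI _ (oneVec (col true, 0) _) (oneVec_mem _ hm), ?_, ?_, ?_⟩
  · rw [ne_eq, mkI_eq_zero]
    intro h
    have h0 := h (col true, 0)
    rw [oneVec_same] at h0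
    exact one_ne_zero (α := k) (by simpa using DFunLike.congr_fun ((Submodule.mem_bot k).1 h0) 0)
  · rw [unit_smul_mkI _ (rkUnits_t le_rfl) _ (by rw [oneVec_same]; exact hm)]
    exact mkI_congr _ (by rw [oneVec_same])
  · intro s hs
    obtain ⟨z, hz, rfl⟩ := exists_mkI (polyMod k) s
    rw [unit_smul_mkI _ (rkUnits_t le_rfl) hz (hz _)] at hs
    refine ⟨z (col true, 0) 0, ?_⟩
    rw [algebraMap_smul_mkI, ← hs]
    refine mkI_congr _ (vec_ext fun v => ?_)
    rw [vec_ksmul_apply, oneVec, oneVec]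
    split_ifs
    · exact (polyMod_comp_two (u := (col true, 0)) rfl (hz _)).symm
    · rw [smul_zero]

/-- Modules killed by the middle column, with bijective arrows of scalars and without maps into
`AA`, are powers of `SS`. -/
theorem orth_SS [Module.Finite k (Rk k)] {C : Type} [AddCommGroup C] [Module (Rk k) C]
    [Module.Finite (Rk k) C] (hC : (rkUnits k).Split C) (hHom : ∀ h : C →ₗ[Rk k] AA k, h = 0) :
    ∃ n : ℕ, Nonempty (C ≃ₗ[Rk k] (Fin n → SS k)) := by
  have hSA : (rkUnits k).Split (AA k) := split_AA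
  have hA : (rkUnits k).Killed (AA k) := hSA.killed
  have hy : ∀ a, a ≠ true → ∃ y : AA k, y ≠ 0 ∧
      (rkUnits k).t a (rkUnits k).base (rkUnits k).base • y = y := fun a ha => by
    rw [show a = false by simpa using ha, rkUnits_base]
    exact AA_socle
  have h0 : ∀ a, a ≠ true → ∀ s : SS k,
      (rkUnits k).t a (rkUnits k).base (rkUnits k).base • s = s → s = 0 := fun a ha s hs => by
    rw [show a = false by simpa using ha, rkUnits_base] at hs
    exact SS_col_zero hs
  have h1 : ∃ s₀ : SS k, s₀ ≠ 0 ∧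
      (rkUnits k).t true (rkUnits k).base (rkUnits k).base • s₀ = s₀ ∧
      ∀ s : SS k, (rkUnits k).t true (rkUnits k).base (rkUnits k).base • s = s →
        ∃ c : k, algebraMap k (Rk k) c • s₀ = s := by
    rw [rkUnits_base]
    exact SS_gen
  have hS : (rkUnits k).Split (SS k) := split_SS
  exact Units.orth_of_finite (rkUnits k) hC hA true hy hHom hS h0 h1
end Vale.Agent.P195.Disproof
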