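import Vale.Agent.P195.Disproof.GoodFil
import Vale.Agent.P195.Disproof.Mods

/-!
# P195: the rows of the derivations in which the polynomial module is resolved

The resolution of the polynomial module by the free modules at `(2, 0)`, `(1, 1)`, `(0, 2)`,
`(-1, 3)` has exact pieces, and the rows of the derivations are exact modulo the denominators of
`Dc c` and of the shifted cokernel `Tmod`.
-/

noncomputable section

namespace Vale.Agent.P195.Disproof

open MonBasis

variable {k : Type} [Field k]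

/-- Exactness of a row of three operators modulo the denominators of a family. -/
structure QRow {W : Type} [AddCommGroup W] [Module k W] [Module (DOp k) W] (Y : GMod k W)
    (x : Fin 3 → W →ₗ[k] W) (s g : Deg) : Prop where
  bot : ∀ z ∈ Y.comp g, (∀ i, x i z ∈ Y.base (g + s)) → z ∈ Y.base g
  grad : ∀ w : Fin 3 → W, (∀ i, w i ∈ Y.comp (g + s)) →
    (∀ i, Disproof.curl x w i ∈ Y.base (g + s + s)) →
    ∃ z ∈ Y.comp g, ∀ i, x i z - w i ∈ Y.base (g + s)
  curl : ∀ y : Fin 3 → W, (∀ i, y i ∈ Y.comp (g + s + s)) →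
    x 0 (y 0) + x 1 (y 1) + x 2 (y 2) ∈ Y.base (g + s + s + s) →
    ∃ w : Fin 3 → W, (∀ i, w i ∈ Y.comp (g + s)) ∧
      ∀ i, Disproof.curl x w i - y i ∈ Y.base (g + s + s)
  top : ∀ z ∈ Y.comp (g + s + s + s), ∃ y : Fin 3 → W, (∀ i, y i ∈ Y.comp (g + s + s)) ∧
    x 0 (y 0) + x 1 (y 1) + x 2 (y 2) - z ∈ Y.base (g + s + s + s)

/-- Rows pass to shifted families. -/
theorem QRow.shift {W : Type} [AddCommGroup W] [Module k W] [Module (DOp k) W] {Y : GMod k W}
    {x : Fin 3 → W →ₗ[k] W} {s g δ : Deg} (h : QRow Y x s (g + δ)) : QRow (Y.shift δ) x s g := by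
  have e1 : g + δ + s = g + s + δ := add_right_comm _ _ _
  have e2 : g + δ + s + s = g + s + s + δ := by abel
  have e3 : g + δ + s + s + s = g + s + s + s + δ := by abel
  obtain ⟨hb, hg, hc, ht⟩ := h
  rw [e1] at hb hg hc ht
  rw [show g + s + δ + s = g + s + s + δ by abel] at hg hc ht
  rw [show g + s + s + δ + s = g + s + s + s + δ by abel] at hc ht
  exact ⟨hb, hg, hc, ht⟩

section Laurent

theorem homog_eq (n : ℤ) : homog k n = Finsupp.supported k k (degIdx n) := by
  simp only [homog, degIdx, xdeg, Fin.sum_univ_three]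

theorem mem_negIdx {n : ℤ} {z : LP k} :
    z ∈ Finsupp.supported k k (negIdx n) ↔ z ∈ homog k n ∧ z ∈ nonneg k := by
  rw [homog_eq, nonneg, Finsupp.mem_supported, Finsupp.mem_supported, Finsupp.mem_supported,
    ← Set.subset_inter_iff]
  rw [show degIdx n ∩ {m : Xp | ∃ i, 0 ≤ m i} = negIdx n from Set.ext fun m => and_comm]

/-- The rows of the derivations modulo `Dc c` are exact unless the bottom degree is `0`. -/
theorem qrow_Dc [CharZero k] {c : ℤ} {g : Deg} (h : g.1 + c ≠ 0) :
    QRow (Dc k c) (lDer k) ((-1, 1) : Deg) g := by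
  have hY : ∀ i, ∀ z ∈ nonneg k, -lVar k i z ∈ nonneg k :=
    fun i z hz => neg_mem (lVar_nonneg i z hz)
  have hne : ∀ a : ℤ, a ≠ 0 → (a : k) ≠ 0 := fun a ha => Int.cast_ne_zero.2 ha
  have comp_iff : ∀ (v : Deg) (z : LP k), z ∈ (Dc k c).comp v ↔ z ∈ homog k (v.1 + c) :=
    fun v z => by rw [homog_eq]; rfl
  have base_iff : ∀ (v : Deg) (z : LP k),
      z ∈ (Dc k c).base v ↔ z ∈ homog k (v.1 + c) ∧ z ∈ nonneg k := fun v z => mem_negIdx
  refine ⟨?_, ?_, ?_, ?_⟩
  · intro z hz hx
    rw [comp_iff] at hz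
    refine (base_iff _ _).2 ⟨hz, euler_lDer.exact_bot hY hz ?_ fun i => ((base_iff _ _).1 (hx i)).2⟩
    convert hne (-(g.1 + c)) (by omega) using 1
    push_cast; ring
  · intro w hw hc
    simp only [comp_iff, Prod.fst_add] at hw
    obtain ⟨z, hz, he⟩ := euler_lDer.exact_curl hY hw
      (by convert hne (-(g.1 + c)) (by omega) using 1; push_cast; ring)
      fun i => ((base_iff _ _).1 (hc i)).2
    rw [show g.1 + -1 + c - -1 = g.1 + c by ring] at hz
    refine ⟨z, (comp_iff _ _).2 hz, fun i => (base_iff _ _).2 ⟨sub_mem ?_ ?_, ?_⟩⟩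
    · rw [show (g + ((-1, 1) : Deg)).1 + c = g.1 + c - 1 by simp only [Prod.fst_add]; ring]
      exact lDer_homog i _ z hz
    · simpa only [Prod.fst_add] using hw i
    · rw [← neg_sub]
      exact neg_mem (he i)
  · intro y hy hd
    simp only [comp_iff, Prod.fst_add] at hy
    obtain ⟨w, hw, he⟩ := euler_lDer.exact_dot hY hy
      (by convert hne (-(g.1 + c)) (by omega) using 1; push_cast; ring) ((base_iff _ _).1 hd).2
    have hw' : ∀ i, w i ∈ homog k (g.1 + -1 + c) := fun i => by
      convert hw i using 2; ring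
    refine ⟨w, fun i => (comp_iff _ _).2 (by simpa only [Prod.fst_add] using hw' i),
      fun i => (base_iff _ _).2 ⟨sub_mem ?_ ?_, ?_⟩⟩
    · rw [show (g + ((-1, 1) : Deg) + ((-1, 1) : Deg)).1 + c = g.1 + -1 + c - 1 by
        simp only [Prod.fst_add]; ring]
      fin_cases i <;> exact sub_mem (lDer_homog _ _ _ (hw' _)) (lDer_homog _ _ _ (hw' _))
    · simpa only [Prod.fst_add] using hy i
    · rw [← neg_sub]
      exact neg_mem (he i)
  · intro z hz
    simp only [comp_iff, Prod.fst_add] at hz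
    obtain ⟨y, hy, he⟩ := euler_lDer.exact_top hz
      (by convert hne (-(g.1 + c)) (by omega) using 1; push_cast; ring)
    refine ⟨y, fun i => (comp_iff _ _).2 ?_, by rw [he, sub_self]; exact zero_mem _⟩
    convert hy i using 2
    simp only [Prod.fst_add]; ring

end Laurent

section Rem

variable {K W : Type*} [Field K] [AddCommGroup W] [Module K W] {F : Deg → Submodule K W}
  {B : MonBasis K F} {e : Fin 3 → Ix × Ix} {x : Fin 3 → W →ₗ[K] W}

/-- The remainder of the division, as a linear map. -/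
def remMap (_H : B.Moves e x) : W →ₗ[K] W :=
  (compl ((x 2).comp (B.divMap e 2))).comp
    ((compl ((x 1).comp (B.divMap e 1))).comp (compl ((x 0).comp (B.divMap e 0))))

theorem rem_eq_remMap (H : B.Moves e x) (g : Deg) (z : W) :
    H.division.rem g z = remMap H z := rfl

open Classical in
theorem remMap_g (H : B.Moves e x) (p : Ix × Ix) :
    remMap H (B.g p) = if ∃ i, e i ≤ p then 0 else B.g p := by
  have hP : ∀ i, compl ((x i).comp (B.divMap e i)) (B.g p) = if e i ≤ p then 0 else B.g p := by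
    intro i
    simp only [compl_apply, LinearMap.comp_apply, divMap_g]
    split_ifs with h
    · rw [H.move, tsub_add_cancel_of_le h, sub_self]
    · rw [map_zero, sub_zero]
  simp only [remMap, LinearMap.comp_apply]
  by_cases h0 : e 0 ≤ p
  · rw [hP, if_pos h0, map_zero, map_zero, if_pos ⟨0, h0⟩]
  rw [hP, if_neg h0]
  by_cases h1 : e 1 ≤ p
  · rw [hP, if_pos h1, map_zero, if_pos ⟨1, h1⟩]
  rw [hP, if_neg h1]
  by_cases h2 : e 2 ≤ p
  · rw [hP, if_pos h2, if_pos ⟨2, h2⟩]
  rw [hP, if_neg h2, if_neg]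
  rintro ⟨i, hi⟩
  fin_cases i
  exacts [h0 hi, h1 hi, h2 hi]

/-- The remainder vanishes on the images of the operators. -/
theorem remMap_move (H : B.Moves e x) {d : Deg} {z : W} (i : Fin 3) (hz : z ∈ F d) :
    remMap H (x i z) = 0 := by
  classical
  refine B.map_eq (f := (remMap H).comp (x i)) (f' := 0) (fun p _ => ?_) hz
  rw [LinearMap.comp_apply, LinearMap.zero_apply, H.move, remMap_g,
    if_pos ⟨i, le_add_of_nonneg_left (zero_le : (0 : Ix × Ix) ≤ p)⟩]

/-- The remainder has no further remainder. -/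
theorem remMap_remMap (H : B.Moves e x) {d : Deg} {z : W} (hz : z ∈ F d) :
    remMap H (remMap H z) = remMap H z := by
  classical
  refine B.map_eq (f := (remMap H).comp (remMap H)) (f' := remMap H) (fun p _ => ?_) hz
  rw [LinearMap.comp_apply, remMap_g]
  split_ifs with h
  · rw [map_zero]
  · rw [remMap_g, if_neg h]

theorem remMap_eq_zero (H : B.Moves e x) {d : Deg} {z : W} (hz : z ∈ F d)
    (h : ∀ p ∈ filIdx d, ∃ i, e i ≤ p) : remMap H z = 0 := by
  rw [← rem_eq_remMap H 0]
  exact H.rem_eq_zero 0 hz h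

end Rem

section Pieces

variable [CharZero k] {κ : Type}

/-- The derivations on columns of operators. -/
def colDer (κ : Type) (i : Fin 3) : (κ → DOp k) →ₗ[k] (κ → DOp k) :=
  LinearMap.pi fun j => (derL k i).comp (LinearMap.proj j)

omit [CharZero k] in
theorem colDer_apply (i : Fin 3) (f : κ → DOp k) : colDer κ i f = xDer k i • f := rfl

omit [CharZero k] in
theorem curl_colDer (w : Fin 3 → κ → DOp k) (i : Fin 3) (j : κ) :
    curl (colDer κ) w i j = curl (derL k) (fun l => w l j) i := by
  fin_cases i <;> rfl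

/-- The division by the derivations on the left. -/
def derLDiv : Division (R := k) (W := DOp k) (Fil k) (derL k) fun _ => ((-1, 1) : Deg) :=
  constDiv moves_derL wt_eDer

variable {q : κ → Deg} {g : Deg}

theorem col_bot {z : κ → DOp k} (hz : ∀ j, z j ∈ Fil k (g - q j))
    (h : ∀ i, colDer κ i z = 0) : z = 0 :=
  funext fun j => derLDiv.exact_bot (hz j) fun i => congrFun (h i) j

theorem col_grad {w : Fin 3 → κ → DOp k}
    (hw : ∀ i j, w i j ∈ Fil k (g + ((-1, 1) : Deg) - q j))
    (h : ∀ i, curl (colDer κ) w i = 0) :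
    ∃ z : κ → DOp k, (∀ j, z j ∈ Fil k (g - q j)) ∧ ∀ i, colDer κ i z = w i := by
  choose z hz he using fun j => derLDiv.exact_curl (g := g - q j) (w := fun l => w l j)
    (fun i => by rw [sub_add_eq_add_sub]; exact hw i j)
    (funext fun i => by rw [← curl_colDer]; exact congrFun (h i) j)
  exact ⟨z, hz, fun i => funext fun j => congrFun (he j) i⟩

theorem col_curl {y : Fin 3 → κ → DOp k}
    (hy : ∀ i j, y i j ∈ Fil k (g + ((-1, 1) : Deg) + ((-1, 1) : Deg) - q j))
    (h : colDer κ 0 (y 0) + colDer κ 1 (y 1) + colDer κ 2 (y 2) = 0) :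
    ∃ w : Fin 3 → κ → DOp k, (∀ i j, w i j ∈ Fil k (g + ((-1, 1) : Deg) - q j)) ∧
      ∀ i, curl (colDer κ) w i = y i := by
  have hy' : ∀ i j, y i j ∈ Fil k (g - q j + ((-1, 1) : Deg) + ((-1, 1) : Deg)) := fun i j => by
    rw [sub_add_eq_add_sub, sub_add_eq_add_sub]; exact hy i j
  choose w hw he using fun j => derLDiv.exact_dot (g := g - q j) (y := fun l => y l j)
    (hy' 0 j) (hy' 1 j) (hy' 2 j) (congrFun h j)
  refine ⟨fun i j => w j i, fun i j => ?_, fun i => funext fun j => ?_⟩
  · rw [← sub_add_eq_add_sub]; exact hw j i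
  · rw [curl_colDer]; exact congrFun (he j) i

theorem col_top {z : κ → DOp k}
    (hz : ∀ j, z j ∈ Fil k (g + ((-1, 1) : Deg) + ((-1, 1) : Deg) + ((-1, 1) : Deg) - q j))
    (h : ∀ j, remMap moves_derL (z j) = 0) :
    ∃ y : Fin 3 → κ → DOp k,
      (∀ i j, y i j ∈ Fil k (g + ((-1, 1) : Deg) + ((-1, 1) : Deg) - q j)) ∧
      colDer κ 0 (y 0) + colDer κ 1 (y 1) + colDer κ 2 (y 2) = z := by
  choose y h0 h1 h2 he using fun j => derLDiv.exact_top (g := g - q j)
    (by rw [sub_add_eq_add_sub, sub_add_eq_add_sub, sub_add_eq_add_sub]; exact hz j)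
    (show derLDiv.rem (g - q j) (z j) = 0 from h j)
  refine ⟨fun i j => y j i, fun i j => ?_, funext he⟩
  rw [← sub_add_eq_add_sub, ← sub_add_eq_add_sub]
  fin_cases i
  exacts [h0 j, h1 j, h2 j]

theorem remMap_colDot {d : Deg} {y : Fin 3 → κ → DOp k} (j : κ) (hy : ∀ i, y i j ∈ Fil k d) :
    remMap moves_derL ((colDer κ 0 (y 0) + colDer κ 1 (y 1) + colDer κ 2 (y 2)) j) = 0 := by
  show remMap moves_derL (derL k 0 (y 0 j) + derL k 1 (y 1 j) + derL k 2 (y 2 j)) = 0
  rw [map_add, map_add, remMap_move _ 0 (hy 0), remMap_move _ 1 (hy 1), remMap_move _ 2 (hy 2),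
    add_zero, add_zero]

omit [CharZero k] in
theorem colDer_comm (i j : Fin 3) (f : κ → DOp k) :
    colDer κ i (colDer κ j f) = colDer κ j (colDer κ i f) :=
  funext fun l => show derL k i (derL k j (f l)) = derL k j (derL k i (f l)) by
    simp only [derL, LinearMap.mulLeft_apply, ← mul_assoc, der_comm i j]

omit [CharZero k] in
theorem dot_curl_col (w : Fin 3 → κ → DOp k) :
    colDer κ 0 (curl (colDer κ) w 0) + colDer κ 1 (curl (colDer κ) w 1)
      + colDer κ 2 (curl (colDer κ) w 2) = 0 := by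
  simp only [curl, Matrix.cons_val_zero, Matrix.cons_val_one, Matrix.cons_val_two,
    Matrix.head_cons, Matrix.tail_cons, map_sub]
  rw [colDer_comm 1 0, colDer_comm 2 0, colDer_comm 2 1]
  abel

omit [CharZero k] in
theorem curl_grad_col (f : κ → DOp k) (i : Fin 3) :
    curl (colDer κ) (fun l => colDer κ l f) i = 0 := by
  fin_cases i <;> simp [curl, colDer_comm (κ := κ) 1 0, colDer_comm (κ := κ) 2 0,
    colDer_comm (κ := κ) 2 1]

end Pieces

section Cokernel

theorem fil_sub_mem {d : Deg} {a b : DOp k} (ha : a ∈ Fil k d) (hb : b ∈ Fil k d) :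
    a - b ∈ Fil k d :=
  Submodule.sub_mem (R := k) (M := DOp k) (Fil k d) ha hb

theorem col_sub_self {κ : Type} (a : κ → DOp k) : a - a = 0 :=
  sub_self (G := κ → DOp k) a

theorem col_sub_cancel {κ : Type} (a b : κ → DOp k) : a - b - a = -b :=
  sub_sub_cancel_left (G := κ → DOp k) a b

theorem col_eq_of_sub {κ : Type} {a b : κ → DOp k} (h : a - b = 0) : a = b :=
  (sub_eq_zero (G := κ → DOp k)).1 h

theorem op_map_sub (f : DOp k →ₗ[k] DOp k) (a b : DOp k) : f (a - b) = f a - f b := map_sub f a b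

theorem col_neg_mem {κ : Type} {p : Submodule k (κ → DOp k)} {a : κ → DOp k} (h : a ∈ p) :
    -a ∈ p :=
  Submodule.neg_mem (R := k) (M := κ → DOp k) p h

theorem col_map_sub {κ κ' : Type} (f : (κ → DOp k) →ₗ[k] (κ' → DOp k)) (a b : κ → DOp k) :
    f (a - b) = f a - f b :=
  map_sub f a b

omit [Field k] in
theorem src_cases (s : Src) : (s.1 : ℕ) = 0 ∨ (s.1 : ℕ) = 1 := by omega

theorem psi_injective {f : Src → DOp k} (h : psi k f = 0) : f = 0 :=
  funext fun s => congrFun h (Sum.inr (s, none))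

theorem colDer_psi [CharZero k] (i : Fin 3) (f : Src → DOp k) :
    colDer Gen i (psi k f) = psi k (colDer Src i f) := by
  rw [colDer_apply, colDer_apply, psi_smul]

theorem curl_psi [CharZero k] (w : Fin 3 → Src → DOp k) (i : Fin 3) :
    curl (colDer Gen) (fun l => psi k (w l)) i = psi k (curl (colDer Src) w i) := by
  fin_cases i <;> simp [curl, colDer_psi, map_sub]

variable [CharZero k] {g : Deg}

omit [CharZero k] in
theorem mem_srcComp {v : Deg} {f : Src → DOp k} :
    f ∈ srcComp k v ↔ ∀ s, f s ∈ Fil k (v - pos (srcVtx s)) := by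
  simp [srcComp, Submodule.mem_pi]

omit [CharZero k] in
theorem mem_genComp {v : Deg} {f : Gen → DOp k} :
    f ∈ genComp k v ↔ ∀ j, f j ∈ Fil k (v - pos (genVtx j)) := by
  simp [genComp, Submodule.mem_pi]

/-- The rows of the derivations modulo the cokernel are exact at bottom weight `3`. -/
theorem qrow_Tmod (h1 : g.1 = 3) (h2 : 0 ≤ g.2) :
    QRow (Tmod k) (colDer Gen) ((-1, 1) : Deg) g := by
  have hc : ∀ (v : Deg) (z : Gen → DOp k),
      z ∈ (Tmod k).comp v ↔ ∀ j, z j ∈ Fil k (v - pos (genVtx j)) := fun v z => mem_genComp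
  have hpsi : ∀ (v : Deg) (f : Src → DOp k), (∀ s, f s ∈ Fil k (v - pos (srcVtx s))) →
      psi k f ∈ (Tmod k).base v := fun v f hf => Submodule.mem_map_of_mem (mem_srcComp.2 hf)
  have hsrc : ∀ (v : Deg) (f : Src → DOp k), (∀ s, f s ∈ Fil k (v - pos (srcVtx s))) →
      ∀ j, psi k f j ∈ Fil k (v - pos (genVtx j)) :=
    fun v f hf => mem_genComp.1 ((Tmod k).le v (hpsi v f hf))
  refine ⟨?_, ?_, ?_, ?_⟩
  · intro z hz hx
    choose f hf he using hx
    obtain ⟨u, hu, hue⟩ := col_grad (g := g) (w := f) (q := fun s => pos (srcVtx s))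
      (fun i => mem_srcComp.1 (hf i)) fun i => psi_injective (by
        rw [← curl_psi, show (fun l => psi k (f l)) = fun l => colDer Gen l z from funext he,
          curl_grad_col])
    have h0 : z - psi k u = 0 := col_bot (q := fun j => pos (genVtx j)) (g := g)
      (fun j => fil_sub_mem ((hc g z).1 hz j) (hsrc g u hu j))
      fun i => by rw [col_map_sub, colDer_psi, hue, he]; exact col_sub_self _
    rw [col_eq_of_sub h0]
    exact hpsi g u hu
  · intro w hw hcw
    choose f hf he using hcw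
    obtain ⟨u, hu, hue⟩ := col_curl (g := g) (y := f) (q := fun s => pos (srcVtx s))
      (fun i => mem_srcComp.1 (hf i)) (psi_injective (by
        rw [map_add, map_add, ← colDer_psi, ← colDer_psi, ← colDer_psi, he, he, he,
          dot_curl_col]))
    have hlin : ∀ i, curl (colDer Gen) (fun l => w l - psi k (u l)) i =
        curl (colDer Gen) w i - psi k (curl (colDer Src) u i) := fun i => by
      rw [← curl_psi]
      fin_cases i <;> simp [curl, col_map_sub] <;> abel
    obtain ⟨z, hz, hze⟩ := col_grad (g := g) (q := fun j => pos (genVtx j))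
      (w := fun l => w l - psi k (u l))
      (fun i j => fil_sub_mem ((hc _ _).1 (hw i) j) (hsrc _ _ (hu i) j))
      fun i => by rw [hlin, hue, he]; exact col_sub_self _
    refine ⟨z, (hc _ _).2 hz, fun i => ?_⟩
    rw [hze, show w i - psi k (u i) - w i = -psi k (u i) from col_sub_cancel _ _]
    exact col_neg_mem (hpsi _ _ (hu i))
  · intro y hy hd
    obtain ⟨f, hf, he⟩ := hd
    have hf' := mem_srcComp.1 hf
    obtain ⟨u, hu, hue⟩ := col_top (g := g) (z := f) (q := fun s => pos (srcVtx s)) hf'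
      fun s => by
        rcases src_cases s with h | h
        · have := congrFun he (Sum.inr (s, none))
          rw [psi_none] at this
          rw [this]
          exact remMap_colDot _ fun i => (hc _ _).1 (hy i) _
        · exact remMap_eq_zero _ (hf' s) (exists_eDer_le' (Or.inl (by
            simp [pos, srcVtx, h, h1])))
    obtain ⟨w, hw, hwe⟩ := col_curl (g := g) (q := fun j => pos (genVtx j))
      (y := fun l => y l - psi k (u l))
      (fun i j => fil_sub_mem ((hc _ _).1 (hy i) j) (hsrc _ _ (hu i) j))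
      (by
        rw [col_map_sub, col_map_sub, col_map_sub, colDer_psi, colDer_psi, colDer_psi]
        rw [show colDer Gen 0 (y 0) - psi k (colDer Src 0 (u 0)) +
            (colDer Gen 1 (y 1) - psi k (colDer Src 1 (u 1))) +
            (colDer Gen 2 (y 2) - psi k (colDer Src 2 (u 2))) =
            colDer Gen 0 (y 0) + colDer Gen 1 (y 1) + colDer Gen 2 (y 2) -
              (psi k (colDer Src 0 (u 0)) + psi k (colDer Src 1 (u 1)) +
                psi k (colDer Src 2 (u 2))) by abel, ← map_add, ← map_add, hue, he]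
        exact col_sub_self _)
    refine ⟨w, fun i => (hc _ _).2 (hw i), fun i => ?_⟩
    rw [hwe, show y i - psi k (u i) - y i = -psi k (u i) from col_sub_cancel _ _]
    exact col_neg_mem (hpsi _ _ (hu i))
  · intro z hz
    have hz' := (hc _ _).1 hz
    let f : Src → DOp k := fun s => remMap moves_derL (z (Sum.inr (s, none)))
    have hf : ∀ s, f s ∈ Fil k
        (g + ((-1, 1) : Deg) + ((-1, 1) : Deg) + ((-1, 1) : Deg) - pos (srcVtx s)) := fun s => by
      have hm := moves_derL.rem_mem 0 (hz' (Sum.inr (s, none)))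
      rw [rem_eq_remMap] at hm
      refine (Submodule.span_le.2 ?_) hm
      rintro _ ⟨p, ⟨hp, hno⟩, rfl⟩
      have hp2 : p.2 = 0 := by
        by_contra h
        obtain ⟨i, hi⟩ := exists_eDer_le h
        exact hno i hi
      refine derFirst.mem ⟨?_, ?_⟩
      · have := hp.1
        simpa [genVtx, pos, srcVtx] using this
      · rw [hp2, tot_zero]
        simp [pos, srcVtx]
        omega
    obtain ⟨y, hy, hye⟩ := col_top (g := g) (z := z - psi k f) (q := fun j => pos (genVtx j))
      (fun j => fil_sub_mem (hz' j) (hsrc _ f hf j)) fun j => by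
        match j with
        | Sum.inl b =>
          exact remMap_eq_zero _ (fil_sub_mem (hz' _) (hsrc _ f hf _))
            (exists_eDer_le' (Or.inl (by simp [pos, genVtx, h1])))
        | Sum.inr (s, none) =>
          rw [Pi.sub_apply, psi_none, op_map_sub]
          show remMap moves_derL (z (Sum.inr (s, none))) -
            remMap moves_derL (remMap moves_derL (z (Sum.inr (s, none)))) = 0
          rw [remMap_remMap _ (hz' (Sum.inr (s, none)))]
          exact sub_self (G := DOp k) _
        | Sum.inr (s, some i) =>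
          exact remMap_eq_zero _ (fil_sub_mem (hz' _) (hsrc _ f hf _))
            (exists_eDer_le' (Or.inl (by simp [pos, genVtx, midVtx, h1])))
    refine ⟨y, fun i => (hc _ _).2 (hy i), ?_⟩
    rw [hye, show z - psi k f - z = -psi k f from col_sub_cancel _ _]
    exact col_neg_mem (hpsi _ f hf)

end Cokernel

section Resolution

variable [CharZero k] {v : Deg}

omit [CharZero k] in
/-- The value on the constant polynomial, which generates at `(2, 0)`. -/
theorem eval_one_mem {z : DOp k} (hz : z ∈ Fil k (v - (2, 0))) :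
    z (Finsupp.single 0 1) ∈ (polyMod k).comp v := by
  have h := (polyMod k).smul_comp (v := (2, 0)) hz (w := Finsupp.single 0 1)
    (Finsupp.single_mem_supported k 1 ⟨fun _ => le_rfl, by simp⟩)
  rwa [add_sub_cancel] at h

omit [CharZero k] in
/-- Every polynomial of the piece is a value on the constant polynomial. -/
theorem eval_one_surj (h : 0 ≤ v.2) {y : LP k} (hy : y ∈ (polyMod k).comp v) :
    ∃ z ∈ Fil k (v - (2, 0)), z (Finsupp.single 0 1) = y := by
  have key : (polyMod k).comp v ≤
      (Fil k (v - (2, 0))).map (LinearMap.applyₗ (R := k) (Finsupp.single (0 : Xp) (1 : k))) := by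
    show Finsupp.supported k k (polyIdx (v.1 - 2)) ≤ _
    rw [Finsupp.supported_eq_span_single, Submodule.span_le]
    rintro _ ⟨m, ⟨hm, hs⟩, rfl⟩
    refine ⟨op k (fun i => (m i).toNat) 0, op_mem_Fil ?_ ?_, ?_⟩
    · simp only [tot, Pi.zero_apply, Finset.sum_const_zero, Nat.cast_zero, sub_zero, Nat.cast_sum,
        Prod.fst_sub]
      rw [← hs]
      exact Finset.sum_congr rfl fun i _ => Int.toNat_of_nonneg (hm i)
    · simpa [tot_zero] using h
    · show op k _ 0 (Finsupp.single 0 1) = Finsupp.single m 1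
      rw [op_single, opC_zero, mul_one]
      congr 1
      funext i
      simp [sh, hm i]
  exact key hy

/-- The division by the derivations on the right. -/
def derRDiv : Division (R := k) (W := DOp k) (Fil k) (derR k) fun _ => ((-1, 1) : Deg) :=
  constDiv moves_derR wt_eDer

/-- Exactness of the resolution at `(2, 0)`: what is killed by `1` is in the image. -/
theorem res_exact₀ {z : DOp k} (hz : z ∈ Fil k (v - (2, 0))) (h : z (Finsupp.single 0 1) = 0) :
    ∃ y : Fin 3 → DOp k, (∀ i, y i ∈ Fil k (v - (1, 1))) ∧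
      derR k 0 (y 0) + derR k 1 (y 1) + derR k 2 (y 2) = z := by
  have e2 : v - (-1, 3) + ((-1, 1) : Deg) + ((-1, 1) : Deg) = v - (1, 1) :=
    Prod.ext (by simp only [Prod.fst_add, Prod.fst_sub]; ring) (by simp only [Prod.snd_add, Prod.snd_sub]; ring)
  have e3 : v - (1, 1) + ((-1, 1) : Deg) = v - (2, 0) :=
    Prod.ext (by simp only [Prod.fst_add, Prod.fst_sub]; ring) (by simp only [Prod.snd_add, Prod.snd_sub]; ring)
  obtain ⟨y, h0, h1, h2, he⟩ := derRDiv.exact_top (g := v - (-1, 3))
    (z := z) (by rw [e2, e3]; exact hz) (rem_derR_eq_zero (v - (-1, 3)) hz h)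
  rw [e2] at h0 h1 h2
  refine ⟨y, fun i => ?_, he⟩
  fin_cases i
  exacts [h0, h1, h2]

omit [CharZero k] in
/-- The composite at `(2, 0)` vanishes. -/
theorem derR_eval_one (i : Fin 3) (w : DOp k) : derR k i w (Finsupp.single 0 1) = 0 := by
  show (w * op k 0 (unit i)) (Finsupp.single 0 1) = 0
  rw [Module.End.mul_apply, op_single, opC_unit]
  simp

/-- Exactness of the resolution at `(1, 1)`. -/
theorem res_exact₁ {y : Fin 3 → DOp k} (hy : ∀ i, y i ∈ Fil k (v - (1, 1)))
    (h : derR k 0 (y 0) + derR k 1 (y 1) + derR k 2 (y 2) = 0) :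
    ∃ w : Fin 3 → DOp k, (∀ i, w i ∈ Fil k (v - (0, 2))) ∧ curl (derR k) w = y := by
  have e2 : v - (-1, 3) + ((-1, 1) : Deg) + ((-1, 1) : Deg) = v - (1, 1) :=
    Prod.ext (by simp only [Prod.fst_add, Prod.fst_sub]; ring) (by simp only [Prod.snd_add, Prod.snd_sub]; ring)
  have e1 : v - (-1, 3) + ((-1, 1) : Deg) = v - (0, 2) :=
    Prod.ext (by simp only [Prod.fst_add, Prod.fst_sub]; ring) (by simp only [Prod.snd_add, Prod.snd_sub]; ring)
  obtain ⟨w, hw, he⟩ := derRDiv.exact_dot (g := v - (-1, 3))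
    (by rw [e2]; exact hy 0) (by rw [e2]; exact hy 1) (by rw [e2]; exact hy 2) h
  exact ⟨w, fun i => e1 ▸ hw i, he⟩

/-- Exactness of the resolution at `(0, 2)`. -/
theorem res_exact₂ {w : Fin 3 → DOp k} (hw : ∀ i, w i ∈ Fil k (v - (0, 2)))
    (h : curl (derR k) w = 0) :
    ∃ z ∈ Fil k (v - (-1, 3)), (fun i => derR k i z) = w := by
  have e1 : v - (-1, 3) + ((-1, 1) : Deg) = v - (0, 2) :=
    Prod.ext (by simp only [Prod.fst_add, Prod.fst_sub]; ring) (by simp only [Prod.snd_add, Prod.snd_sub]; ring)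
  exact derRDiv.exact_curl (g := v - (-1, 3)) (fun i => by rw [e1]; exact hw i) h

/-- Exactness of the resolution at `(-1, 3)`. -/
theorem res_exact₃ {z : DOp k} (hz : z ∈ Fil k (v - (-1, 3)))
    (h : ∀ i, derR k i z = 0) : z = 0 :=
  derRDiv.exact_bot hz h

end Resolution

theorem lDer_apply (i : Fin 3) (z : LP k) : lDer k i z = xDer k i • z := rfl

/-- The row applied to the shifted cokernel. -/
theorem qrow_Tmod_shift [CharZero k] :
    QRow ((Tmod k).shift tau) (colDer Gen) ((-1, 1) : Deg) (2, 0) :=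
  (qrow_Tmod (g := ((2, 0) : Deg) + tau) (by simp [tau]) (by simp [tau])).shift

/-- The row applied to the inverse polynomials. -/
theorem qrow_Dc_two [CharZero k] {c : ℤ} (h : c ≤ -3) :
    QRow (Dc k c) (lDer k) ((-1, 1) : Deg) (2, 0) :=
  qrow_Dc (g := (2, 0)) (show (2 : ℤ) + c ≠ 0 by omega)

/-- The rows of the derivations on the free modules are exact at negative top weight. -/
theorem qrow_P [CharZero k] {e g : Deg} (h : g.1 < e.1 + 3) :
    QRow (P k e) (derL k) ((-1, 1) : Deg) g := by
  have hb : ∀ (v : Deg) (z : DOp k), z ∈ (P k e).base v ↔ z = 0 := fun v z => Submodule.mem_bot k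
  have c1 : ∀ v : Deg, v + ((-1, 1) : Deg) - e = v - e + ((-1, 1) : Deg) :=
    fun v => (sub_add_eq_add_sub _ _ _).symm
  refine ⟨?_, ?_, ?_, ?_⟩
  · intro z hz hx
    exact (hb _ _).2 (derLDiv.exact_bot (g := g - e) hz fun i => (hb _ _).1 (hx i))
  · intro w hw hc
    obtain ⟨z, hz, he⟩ := derLDiv.exact_curl (g := g - e) (w := w)
      (fun i => by rw [← c1]; exact hw i) (funext fun i => (hb _ _).1 (hc i))
    refine ⟨z, hz, fun i => (hb _ _).2 ?_⟩
    rw [show derL k i z = w i from congrFun he i]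
    exact sub_self (G := DOp k) _
  · intro y hy hd
    have hy' : ∀ i, y i ∈ Fil k (g - e + ((-1, 1) : Deg) + ((-1, 1) : Deg)) := fun i => by
      rw [← c1, ← c1]; exact hy i
    obtain ⟨w, hw, he⟩ := derLDiv.exact_dot (g := g - e) (y := y) (hy' 0) (hy' 1) (hy' 2)
      ((hb _ _).1 hd)
    refine ⟨w, fun i => ?_, fun i => (hb _ _).2 ?_⟩
    · show w i ∈ Fil k (g + ((-1, 1) : Deg) - e)
      rw [c1]; exact hw i
    · rw [he]
      exact sub_self (G := DOp k) _
  · intro z hz
    have hz' : z ∈ Fil k (g - e + ((-1, 1) : Deg) + ((-1, 1) : Deg) + ((-1, 1) : Deg)) := by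
      rw [← c1, ← c1, ← c1]; exact hz
    obtain ⟨y, h0, h1, h2, he⟩ := derLDiv.exact_top (g := g - e) hz'
      (show derLDiv.rem (g - e) z = 0 from moves_derL.rem_eq_zero (g - e) hz'
        (exists_eDer_le' (Or.inl (by simp only [Prod.fst_add, Prod.fst_sub]; omega))))
    refine ⟨y, fun i => ?_, (hb _ _).2 ?_⟩
    · show y i ∈ Fil k (g + ((-1, 1) : Deg) + ((-1, 1) : Deg) - e)
      rw [c1, c1]
      fin_cases i
      exacts [h0, h1, h2]
    · rw [he]
      exact sub_self (G := DOp k) _

theorem derL_apply (i : Fin 3) (z : DOp k) : derL k i z = xDer k i • z := rfl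

/-- The row applied to the shifted free module at `(2, 0)`. -/
theorem qrow_P20_shift [CharZero k] :
    QRow ((P k (pos (2, 0))).shift tau) (derL k) ((-1, 1) : Deg) (2, 0) := by
  rw [P_shift]
  exact qrow_P (by simp [pos, tau])

end Vale.Agent.P195.Disproof
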