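import Mathlib

/-!
# P195: the Weyl algebra acting on Laurent polynomials, with its bigraded pieces

`op α β` is `x ^ α ∂ ^ β` on Laurent polynomials in three variables, `opR β α` is `∂ ^ β x ^ α`.
`Fil k (p, q)` is the span of the `x ^ α ∂ ^ β` of weight `p` and order at most `q`.
-/

noncomputable section

namespace Vale.Agent.P195.Disproof

open Finsupp (single)

/-- Exponents of polynomial operators. -/
abbrev Ix := Fin 3 → ℕ

/-- Exponents of Laurent monomials. -/
abbrev Xp := Fin 3 → ℤ

/-- Bidegrees. -/
abbrev Deg := ℤ × ℤ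

/-- Laurent polynomials. -/
abbrev LP (k : Type) [Field k] := Xp →₀ k

/-- The operators on Laurent polynomials. -/
abbrev DOp (k : Type) [Field k] := Module.End k (LP k)

/-- The total degree of an exponent. -/
def tot (a : Ix) : ℕ := ∑ i, a i

/-- The unit exponent. -/
def unit (i : Fin 3) : Ix := Pi.single i 1

theorem tot_add (a b : Ix) : tot (a + b) = tot a + tot b := by
  simp [tot, Finset.sum_add_distrib]

theorem tot_unit (i : Fin 3) : tot (unit i) = 1 := by
  simp [tot, unit, Finset.sum_pi_single']

theorem tot_zero : tot (0 : Ix) = 0 := by simp [tot]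

theorem tot_eq_zero {a : Ix} : tot a = 0 ↔ a = 0 := by
  simp [tot, funext_iff]

theorem exists_unit_of_ne_zero {a : Ix} (h : a ≠ 0) : ∃ i b, a = b + unit i := by
  obtain ⟨i, hi⟩ := Function.ne_iff.1 h
  refine ⟨i, a - unit i, funext fun j => ?_⟩
  rcases eq_or_ne j i with rfl | hj
  · simp only [Pi.zero_apply] at hi
    simp [unit]
    omega
  · simp [unit, hj]

/-- The falling factorial of an integer. -/
def ffac (m : ℤ) (b : ℕ) : ℤ := ∏ j ∈ Finset.range b, (m - j)

theorem ffac_zero (m : ℤ) : ffac m 0 = 1 := Finset.prod_range_zero _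

theorem ffac_succ (m : ℤ) (b : ℕ) : ffac m (b + 1) = ffac m b * (m - b) :=
  Finset.prod_range_succ _ _

theorem ffac_succ' (m : ℤ) (b : ℕ) : ffac m (b + 1) = m * ffac (m - 1) b := by
  rw [ffac, Finset.prod_range_succ', mul_comm]
  simp only [Nat.cast_zero, sub_zero, Nat.cast_add, Nat.cast_one, ffac]
  congr 1
  exact Finset.prod_congr rfl fun j _ => by ring

theorem ffac_eq_zero {m : ℤ} {b : ℕ} (h0 : 0 ≤ m) (hb : m < b) : ffac m b = 0 :=
  Finset.prod_eq_zero (i := m.toNat) (Finset.mem_range.2 (by omega)) (by omega)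

theorem ffac_ne_zero {m : ℤ} {b : ℕ} (h : m < 0 ∨ (b : ℤ) ≤ m) : ffac m b ≠ 0 :=
  Finset.prod_ne_zero_iff.2 fun j hj => by
    have := Finset.mem_range.1 hj
    omega

/-- The exponent shift of `x ^ α ∂ ^ β`. -/
def sh (α β : Ix) : Xp := fun i => (α i : ℤ) - β i

variable (k : Type) [Field k]

/-- The coefficient of `∂ ^ β` on a monomial. -/
def opC (m : Xp) (β : Ix) : k := ((∏ i, ffac (m i) (β i) : ℤ) : k)

/-- The operator `x ^ α ∂ ^ β`. -/
def op (α β : Ix) : DOp k :=
  Finsupp.lsum k fun m => opC k m β • Finsupp.lsingle (m + sh α β)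

/-- The operator `∂ ^ β x ^ α`. -/
def opR (β α : Ix) : DOp k := op k 0 β * op k α 0

/-- The indices of the monomials of given weight and bounded order. -/
def filIdx (d : Deg) : Set (Ix × Ix) :=
  {p | (tot p.1 : ℤ) - tot p.2 = d.1 ∧ (tot p.2 : ℤ) ≤ d.2}

/-- Operators of given weight and order at most the second degree. -/
def Fil (d : Deg) : Submodule k (DOp k) :=
  Submodule.span k ((fun p => op k p.1 p.2) '' filIdx d)

variable {k}

theorem op_single (α β : Ix) (m : Xp) (c : k) :
    op k α β (single m c) = single (m + sh α β) (opC k m β * c) := by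
  simp [op]

theorem ext_single {f g : DOp k} (h : ∀ m, f (single m 1) = g (single m 1)) : f = g :=
  Finsupp.lhom_ext fun m c => by
    rw [show single m c = c • single m (1 : k) by simp, map_smul, map_smul, h]

theorem opC_zero (m : Xp) : opC k m 0 = 1 := by simp [opC, ffac_zero]

theorem op_zero_zero : op k (0 : Ix) 0 = 1 :=
  ext_single fun m => by
    have : sh 0 0 = 0 := funext fun i => by simp [sh]
    simp [op_single, opC_zero, this]

theorem op_zero_right_mul (α α' β : Ix) : op k α 0 * op k α' β = op k (α + α') β :=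
  ext_single fun m => by
    rw [Module.End.mul_apply, op_single, op_single, op_single, opC_zero, one_mul]
    congr 1
    funext i
    simp only [Pi.add_apply, sh, Nat.cast_add]
    simp only [Pi.zero_apply, Nat.cast_zero]
    ring

theorem op_eq_mul (α β : Ix) : op k α β = op k α 0 * op k 0 β := by
  rw [op_zero_right_mul, add_zero]

theorem opC_add_unit (m : Xp) (β : Ix) (i : Fin 3) :
    opC k m (β + unit i) = opC k m β * ((m i - β i : ℤ) : k) := by
  classical
  rw [opC, opC, ← Int.cast_mul]
  congr 1
  rw [← Finset.mul_prod_erase _ _ (Finset.mem_univ i),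
    ← Finset.mul_prod_erase _ (fun j => ffac (m j) (β j)) (Finset.mem_univ i)]
  rw [Finset.prod_congr rfl fun j hj => by
    rw [show (β + unit i) j = β j by simp [unit, Finset.ne_of_mem_erase hj]]]
  rw [show (β + unit i) i = β i + 1 by simp [unit], ffac_succ]
  ring

theorem opC_unit (m : Xp) (i : Fin 3) : opC k m (unit i) = (m i : k) := by
  have h := opC_add_unit (k := k) m 0 i
  simpa [opC_zero] using h

theorem opC_add_unit' (m : Xp) (β : Ix) (i : Fin 3) :
    opC k m (β + unit i) = (m i : k) * opC k (m + sh 0 (unit i)) β := by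
  classical
  rw [opC, opC, ← Int.cast_mul]
  congr 1
  rw [← Finset.mul_prod_erase _ _ (Finset.mem_univ i),
    ← Finset.mul_prod_erase _ (fun j => ffac ((m + sh 0 (unit i)) j) (β j)) (Finset.mem_univ i)]
  rw [Finset.prod_congr rfl fun j hj => by
    rw [show (β + unit i) j = β j by simp [unit, Finset.ne_of_mem_erase hj],
      show m j = (m + sh 0 (unit i)) j by simp [sh, unit, Finset.ne_of_mem_erase hj]]]
  rw [show (β + unit i) i = β i + 1 by simp [unit], ffac_succ',
    show (m + sh 0 (unit i)) i = m i - 1 by simp [sh, unit, sub_eq_add_neg]]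
  ring

theorem op_mul_deriv (α β : Ix) (i : Fin 3) :
    op k α β * op k 0 (unit i) = op k α (β + unit i) :=
  ext_single fun m => by
    rw [Module.End.mul_apply, op_single, op_single, op_single, opC_add_unit', opC_unit]
    congr 1
    · funext j
      simp only [Pi.add_apply, sh, Nat.cast_add, Pi.zero_apply, Nat.cast_zero]
      ring
    · ring

theorem deriv_mul_op (α β : Ix) (i : Fin 3) :
    op k 0 (unit i) * op k α β =
      (α i : k) • op k (α - unit i) β + op k α (β + unit i) :=
  ext_single fun m => by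
    rw [Module.End.mul_apply, LinearMap.add_apply, LinearMap.smul_apply, op_single, op_single,
      op_single, op_single, Finsupp.smul_single, opC_unit, opC_add_unit]
    have e2 : m + sh α β + sh 0 (unit i) = m + sh α (β + unit i) := by
      funext j
      simp only [Pi.add_apply, sh, Nat.cast_add, Pi.zero_apply, Nat.cast_zero]
      ring
    rcases Nat.eq_zero_or_pos (α i) with h | h
    · rw [h, Nat.cast_zero, zero_smul, Finsupp.single_zero, zero_add, e2]
      congr 1
      simp only [Pi.add_apply, sh, h, Nat.cast_zero, zero_sub]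
      push_cast
      ring
    · have e1 : m + sh (α - unit i) β = m + sh α (β + unit i) := by
        funext j
        rcases eq_or_ne j i with rfl | hj
        · simp only [Pi.add_apply, sh, Pi.sub_apply, unit, Pi.single_eq_same, Nat.cast_add,
            Nat.cast_one]
          omega
        · simp [sh, unit, hj]
      rw [e1, e2, ← Finsupp.single_add]
      congr 1
      simp only [Pi.add_apply, sh, smul_eq_mul, mul_one]
      push_cast
      ring

theorem op_mem_Fil {d : Deg} {α β : Ix} (h1 : (tot α : ℤ) - tot β = d.1)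
    (h2 : (tot β : ℤ) ≤ d.2) : op k α β ∈ Fil k d :=
  Submodule.subset_span ⟨(α, β), ⟨h1, h2⟩, rfl⟩

theorem Fil_le {d : Deg} {N : Submodule k (DOp k)}
    (h : ∀ α β : Ix, (tot α : ℤ) - tot β = d.1 → (tot β : ℤ) ≤ d.2 → op k α β ∈ N) :
    Fil k d ≤ N :=
  Submodule.span_le.2 <| by
    rintro _ ⟨⟨α, β⟩, ⟨h1, h2⟩, rfl⟩
    exact h α β h1 h2

theorem Fil_mono {d e : Deg} (h1 : d.1 = e.1) (h2 : d.2 ≤ e.2) : Fil k d ≤ Fil k e :=
  Fil_le fun _ _ a b => op_mem_Fil (a.trans h1) (b.trans h2)

theorem one_mem_Fil {d : Deg} (h1 : d.1 = 0) (h2 : 0 ≤ d.2) : (1 : DOp k) ∈ Fil k d := by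
  rw [← op_zero_zero]
  exact op_mem_Fil (by simp [tot_zero, h1]) (by simpa [tot_zero] using h2)

theorem deriv_mem_Fil (i : Fin 3) : op k 0 (unit i) ∈ Fil k (-1, 1) :=
  op_mem_Fil (by simp [tot_zero, tot_unit]) (by simp [tot_unit])

theorem var_mem_Fil (i : Fin 3) : op k (unit i) 0 ∈ Fil k (1, 0) :=
  op_mem_Fil (by simp [tot_zero, tot_unit]) (by simp [tot_zero])

theorem deriv_mul_mem {d : Deg} (i : Fin 3) {Q : DOp k} (hQ : Q ∈ Fil k d) :
    op k 0 (unit i) * Q ∈ Fil k (d + (-1, 1)) := by
  suffices h : Fil k d ≤ (Fil k (d + (-1, 1))).comap (LinearMap.mulLeft k (op k 0 (unit i))) from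
    h hQ
  refine Fil_le fun α β h1 h2 => ?_
  rw [Submodule.mem_comap, LinearMap.mulLeft_apply, deriv_mul_op]
  refine Submodule.add_mem _ ?_ (op_mem_Fil ?_ ?_)
  · rcases Nat.eq_zero_or_pos (α i) with h | h
    · simp [h]
    · refine Submodule.smul_mem _ _ (op_mem_Fil ?_ ?_)
      · have : tot (α - unit i) + 1 = tot α := by
          rw [← tot_unit i, ← tot_add]
          congr 1
          funext j
          rcases eq_or_ne j i with rfl | hj
          · simp [unit]; omega
          · simp [unit, hj]
        simp only [Prod.fst_add]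
        omega
      · simp only [Prod.snd_add]
        omega
  · simp only [tot_add, tot_unit, Prod.fst_add]
    omega
  · simp only [tot_add, tot_unit, Prod.snd_add]
    omega

theorem mul_mem_Fil {d e : Deg} {P Q : DOp k} (hP : P ∈ Fil k d) (hQ : Q ∈ Fil k e) :
    P * Q ∈ Fil k (d + e) := by
  have main : ∀ n (α β : Ix) (e : Deg) (Q : DOp k), tot β = n → Q ∈ Fil k e →
      op k α β * Q ∈ Fil k (((tot α : ℤ) - tot β, (tot β : ℤ)) + e) := by
    intro n
    induction n with
    | zero =>
      intro α β e Q hβ hQ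
      rw [tot_eq_zero] at hβ
      subst hβ
      suffices h : Fil k e ≤ (Fil k (((tot α : ℤ) - tot (0 : Ix), (tot (0 : Ix) : ℤ)) + e)).comap
          (LinearMap.mulLeft k (op k α 0)) from h hQ
      refine Fil_le fun γ δ h1 h2 => ?_
      rw [Submodule.mem_comap, LinearMap.mulLeft_apply, op_zero_right_mul]
      refine op_mem_Fil ?_ ?_ <;>
        simp only [tot_add, tot_zero, Prod.fst_add, Prod.snd_add, Nat.cast_zero, Nat.cast_add] <;>
        omega
    | succ n ih =>
      intro α β e Q hβ hQ
      obtain ⟨i, b, rfl⟩ := exists_unit_of_ne_zero (a := β) (by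
        rintro rfl
        simp [tot_zero] at hβ)
      rw [tot_add, tot_unit] at hβ
      rw [← op_mul_deriv, mul_assoc]
      have h := ih α b _ _ (by omega) (deriv_mul_mem i hQ)
      refine Fil_mono ?_ ?_ h <;>
        simp only [tot_add, tot_unit, Prod.fst_add, Prod.snd_add, Nat.cast_add] <;> omega
  suffices h : Fil k d ≤ (Fil k (d + e)).comap (LinearMap.mulRight k Q) from h hP
  refine Fil_le fun α β h1 h2 => ?_
  rw [Submodule.mem_comap, LinearMap.mulRight_apply]
  refine Fil_mono ?_ ?_ (main _ α β e Q rfl hQ) <;>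
    simp only [Prod.fst_add, Prod.snd_add] <;> omega

theorem opR_mem_Fil {d : Deg} {α β : Ix} (h1 : (tot α : ℤ) - tot β = d.1)
    (h2 : (tot β : ℤ) ≤ d.2) : opR k β α ∈ Fil k d := by
  have h : opR k β α ∈ Fil k ((-(tot β : ℤ), (tot β : ℤ)) + ((tot α : ℤ), 0)) :=
    mul_mem_Fil (op_mem_Fil (by simp [tot_zero]) le_rfl)
      (op_mem_Fil (by simp [tot_zero]) (by simp [tot_zero]))
  refine Fil_mono ?_ ?_ h <;> simp only [Prod.fst_add, Prod.snd_add] <;> omega

theorem deriv_mul_deriv_pow (β : Ix) (i : Fin 3) :
    op k (0 : Ix) β * op k 0 (unit i) = op k 0 (β + unit i) := op_mul_deriv 0 β i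

/-- The monomials with derivatives on the left span the same space. -/
theorem Fil_eq_span_opR (d : Deg) :
    Fil k d = Submodule.span k ((fun p => opR k p.2 p.1) '' filIdx d) := by
  refine le_antisymm (Fil_le fun α β h1 h2 => ?_) (Submodule.span_le.2 ?_)
  · have main : ∀ n (α β : Ix), tot β = n → op k α β ∈ Submodule.span k
        ((fun p => opR k p.2 p.1) '' filIdx ((tot α : ℤ) - tot β, (tot β : ℤ))) := by
      intro n
      induction n with
      | zero =>
        intro α β hβ
        rw [tot_eq_zero] at hβ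
        subst hβ
        refine Submodule.subset_span ⟨(α, 0), ⟨rfl, le_rfl⟩, ?_⟩
        simp [opR, op_zero_zero]
      | succ n ih =>
        intro α β hβ
        obtain ⟨i, b, rfl⟩ := exists_unit_of_ne_zero (a := β) (by
          rintro rfl
          simp [tot_zero] at hβ)
        rw [tot_add, tot_unit] at hβ
        rw [← op_mul_deriv]
        suffices h : Submodule.span k
            ((fun p => opR k p.2 p.1) '' filIdx ((tot α : ℤ) - tot b, (tot b : ℤ))) ≤
            (Submodule.span k ((fun p => opR k p.2 p.1) ''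
              filIdx ((tot α : ℤ) - tot (b + unit i), (tot (b + unit i) : ℤ)))).comap
              (LinearMap.mulRight k (op k 0 (unit i))) from
          h (ih α b (by omega))
        refine Submodule.span_le.2 ?_
        rintro _ ⟨⟨γ, δ⟩, ⟨g1, g2⟩, rfl⟩
        simp only [SetLike.mem_coe, Submodule.mem_comap, LinearMap.mulRight_apply]
        have e : opR k δ γ * op k 0 (unit i) =
            opR k (δ + unit i) γ - (γ i : k) • opR k δ (γ - unit i) := by
          rw [opR, mul_assoc, op_mul_deriv, zero_add]
          have h := deriv_mul_op (k := k) γ 0 i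
          rw [zero_add] at h
          rw [opR, opR, ← deriv_mul_deriv_pow, mul_assoc, h, mul_add, mul_smul_comm]
          abel
        have e' : opR k δ γ * op k 0 (unit i) =
            opR k (δ + unit i) γ + (-(γ i : k)) • opR k δ (γ - unit i) := by
          rw [e]; module
        rw [e']
        simp only at g1 g2
        refine Submodule.add_mem _ ?_ ?_
        · refine Submodule.subset_span ⟨(γ, δ + unit i), ⟨?_, ?_⟩, rfl⟩
          · simp only [tot_add, tot_unit, Nat.cast_add]; omega
          · simp only [tot_add, tot_unit, Nat.cast_add]; omega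
        · rcases Nat.eq_zero_or_pos (γ i) with h | h
          · simp [h]
          · refine Submodule.smul_mem _ _ ?_
            refine Submodule.subset_span ⟨(γ - unit i, δ), ⟨?_, ?_⟩, rfl⟩
            · have : tot (γ - unit i) + 1 = tot γ := by
                rw [← tot_unit i, ← tot_add]
                congr 1
                funext j
                rcases eq_or_ne j i with rfl | hj
                · simp [unit]; omega
                · simp [unit, hj]
              simp only [tot_add, tot_unit, Nat.cast_add]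
              omega
            · simp only [tot_add, tot_unit, Nat.cast_add]; omega
    refine Submodule.span_mono (Set.image_mono ?_) (main _ α β rfl)
    rintro p ⟨g1, g2⟩
    exact ⟨g1.trans h1, g2.trans h2⟩
  · rintro _ ⟨⟨α, β⟩, ⟨h1, h2⟩, rfl⟩
    exact opR_mem_Fil h1 h2

theorem opR_single (α β : Ix) (m : Xp) (c : k) :
    opR k β α (single m c) = single (m + sh α β) (opC k (m + sh α 0) β * c) := by
  rw [opR, Module.End.mul_apply, op_single, op_single, opC_zero, one_mul]
  congr 1
  funext i
  simp only [Pi.add_apply, sh, Pi.zero_apply, Nat.cast_zero]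
  ring

theorem li_of_triangular [CharZero k] (g : Ix × Ix → DOp k) (c : Ix × Ix → Xp → k)
    (hg : ∀ p m, g p (single m 1) = single (m + sh p.1 p.2) (c p m))
    (base : Ix × Ix → Xp)
    (hzero : ∀ p q, sh q.1 q.2 = sh p.1 p.2 → ¬ q.2 ≤ p.2 → c q (base p) = 0)
    (hne : ∀ p, c p (base p) ≠ 0) : LinearIndependent k g := by
  classical
  let Φ : DOp k →ₗ[k] (Xp → Xp → k) :=
    { toFun := fun f m x => f (single m 1) x
      map_add' := fun f g => rfl
      map_smul' := fun r f => rfl }
  have hΦ : ∀ f m x, Φ f m x = f (single m 1) x := fun _ _ _ => rfl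
  refine LinearIndependent.of_comp Φ (linearIndependent_iff'.2 ?_)
  intro s a ha p hp
  by_contra hap
  set S := (s.filter fun q => a q ≠ 0).image Prod.snd
  obtain ⟨b, hb⟩ := S.exists_minimal
    ⟨p.2, Finset.mem_image.2 ⟨p, Finset.mem_filter.2 ⟨hp, hap⟩, rfl⟩⟩
  obtain ⟨q₀, hq₀, rfl⟩ := Finset.mem_image.1 hb.1
  obtain ⟨hq₀s, hq₀a⟩ := Finset.mem_filter.1 hq₀
  have h := congrFun (congrFun ha (base q₀)) (base q₀ + sh q₀.1 q₀.2)
  simp only [Finset.sum_apply, Pi.smul_apply, Function.comp_apply, hΦ, Pi.zero_apply, hg,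
    smul_eq_mul] at h
  rw [Finset.sum_eq_single q₀] at h
  · simp [hq₀a, hne] at h
  · intro q hq hne'
    rw [Finsupp.single_apply]
    split_ifs with he
    · by_cases ha0 : a q = 0
      · simp [ha0]
      · rw [add_right_inj] at he
        by_cases hle : q.2 ≤ q₀.2
        · exfalso
          have h2 : q.2 = q₀.2 := le_antisymm hle
            (hb.2 (Finset.mem_image.2 ⟨q, Finset.mem_filter.2 ⟨hq, ha0⟩, rfl⟩) hle)
          apply hne'
          refine Prod.ext (funext fun i => ?_) h2
          have := congrFun he i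
          simp only [sh, h2] at this
          omega
        · simp [hzero _ _ he hle]
    · simp
  · exact fun hn => absurd hq₀s hn

theorem linearIndependent_op [CharZero k] :
    LinearIndependent k fun p : Ix × Ix => op k p.1 p.2 := by
  refine li_of_triangular _ (fun p m => opC k m p.2)
    (fun p m => by rw [op_single, mul_one]) (fun p i => (p.2 i : ℤ)) ?_ ?_
  · intro p q _ hle
    obtain ⟨i, hi⟩ : ∃ i, p.2 i < q.2 i := by
      by_contra hno
      exact hle fun i => not_lt.1 fun hi => hno ⟨i, hi⟩
    rw [opC, Int.cast_eq_zero]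
    exact Finset.prod_eq_zero (Finset.mem_univ i) (ffac_eq_zero (by simp) (by omega))
  · intro p
    rw [opC, Int.cast_ne_zero]
    exact Finset.prod_ne_zero_iff.2 fun i _ => ffac_ne_zero (Or.inr le_rfl)

theorem linearIndependent_opR [CharZero k] :
    LinearIndependent k fun p : Ix × Ix => opR k p.2 p.1 := by
  refine li_of_triangular _ (fun p m => opC k (m + sh p.1 0) p.2)
    (fun p m => by rw [opR_single, mul_one]) (fun p i => -(p.1 i : ℤ) - 1) ?_ ?_
  · intro p q he hle
    obtain ⟨i, hi⟩ : ∃ i, p.2 i < q.2 i := by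
      by_contra hno
      exact hle fun i => not_lt.1 fun hi => hno ⟨i, hi⟩
    rw [opC, Int.cast_eq_zero]
    have := congrFun he i
    simp only [sh] at this
    refine Finset.prod_eq_zero (Finset.mem_univ i) (ffac_eq_zero ?_ ?_) <;>
      simp only [Pi.add_apply, sh, Pi.zero_apply, Nat.cast_zero] <;> omega
  · intro p
    rw [opC, Int.cast_ne_zero]
    refine Finset.prod_ne_zero_iff.2 fun i _ => ffac_ne_zero (Or.inl ?_)
    simp only [Pi.add_apply, sh, Pi.zero_apply, Nat.cast_zero]
    omega

theorem filIdx_finite (d : Deg) : (filIdx d).Finite := by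
  refine Set.Finite.subset
    ((Set.finite_Iic (fun _ => (d.1 + d.2).toNat : Ix)).prod
      (Set.finite_Iic (fun _ => d.2.toNat : Ix))) ?_
  rintro ⟨α, β⟩ ⟨h1, h2⟩
  simp only at h1 h2
  refine ⟨fun i => ?_, fun i => ?_⟩
  · have : α i ≤ tot α := Finset.single_le_sum (f := α) (fun j _ => Nat.zero_le _) (Finset.mem_univ i)
    show α i ≤ (d.1 + d.2).toNat
    omega
  · have : β i ≤ tot β := Finset.single_le_sum (f := β) (fun j _ => Nat.zero_le _) (Finset.mem_univ i)
    show β i ≤ d.2.toNat
    omega

instance instFiniteFil (d : Deg) : Module.Finite k (Fil k d) :=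
  Module.Finite.span_of_finite k ((filIdx_finite d).image _)

theorem Fil_eq_bot {d : Deg} (h : d.2 < 0 ∨ d.1 + d.2 < 0) : Fil k d = ⊥ :=
  eq_bot_iff.2 <| Fil_le fun α β h1 h2 => by omega

end Vale.Agent.P195.Disproof
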